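import Vale.Agent.P031.Lab
import Vale.Agent.Lib.Sieve.Mertens

namespace Vale.Agent.P031

open Finset Real Filter

namespace MertA

theorem sum_small : ∃ C : ℝ, ∀ n : ℕ,
    ∑ p ∈ Nat.primesLE n, log (p : ℝ) / ((p : ℝ) * ((p : ℝ) - 1)) ≤ C := by
  have hs : Summable fun n : ℕ => 4 * (1 / (n : ℝ) ^ (3 / 2 : ℝ)) :=
    (Real.summable_one_div_nat_rpow.2 (by norm_num)).mul_left 4
  refine ⟨∑' n : ℕ, 4 * (1 / (n : ℝ) ^ (3 / 2 : ℝ)), fun n => ?_⟩
  refine le_trans (sum_le_sum fun p hp => ?_) (hs.sum_le_tsum (Nat.primesLE n) fun i _ => by positivity)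
  have hp2 : (2 : ℝ) ≤ p := by exact_mod_cast Nat.two_le_of_mem_primesLE hp
  have hp0 : (0 : ℝ) < p := by linarith
  have h1 : log (p : ℝ) ≤ (p : ℝ) ^ (1 / 2 : ℝ) / (1 / 2) :=
    Real.log_le_rpow_div hp0.le (by norm_num)
  have h2 : (p : ℝ) ^ (1 / 2 : ℝ) * (p : ℝ) ^ (3 / 2 : ℝ) = p * p := by
    rw [← Real.rpow_add hp0]
    norm_num
    ring
  have h3 : 0 < (p : ℝ) ^ (3 / 2 : ℝ) := by positivity
  have h4 : 0 < (p : ℝ) ^ (1 / 2 : ℝ) := by positivity
  rw [mul_one_div, div_le_div_iff₀ (by nlinarith) h3]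
  have h5 : log (p : ℝ) * (p : ℝ) ^ (3 / 2 : ℝ) ≤ 2 * ((p : ℝ) ^ (1 / 2 : ℝ) * (p : ℝ) ^ (3 / 2 : ℝ)) := by
    nlinarith
  rw [h2] at h5
  nlinarith

/-- Mertens' first theorem. -/
theorem first : ∃ C : ℝ, ∀ n : ℕ, 1 ≤ n →
    |∑ p ∈ Nat.primesLE n, log (p : ℝ) / p - log n| ≤ C := by
  obtain ⟨C, hC⟩ := sum_small
  refine ⟨|C| + 1 + log 4, fun n hn => ?_⟩
  have h4 : 0 ≤ log (4 : ℝ) := Real.log_nonneg (by norm_num)
  have hu := Vale.Agent.Sieve.sum_log_div_le hn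
  have ht' : (0 : ℝ) < n := by exact_mod_cast hn
  have h1 : n * log n - n ≤ log (n.factorial : ℝ) := by
    have h := Real.pow_div_factorial_le_exp (x := (n : ℝ)) ht'.le n
    have hf : (0 : ℝ) < n.factorial := by exact_mod_cast Nat.factorial_pos n
    have h2 := Real.log_le_log (by positivity) h
    rw [Real.log_div (by positivity) hf.ne', Real.log_pow, Real.log_exp] at h2
    linarith
  have h2 : log (n.factorial : ℝ) ≤ n * (∑ p ∈ Nat.primesLE n, log (p : ℝ) / p +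
      ∑ p ∈ Nat.primesLE n, log (p : ℝ) / ((p : ℝ) * ((p : ℝ) - 1))) := by
    rw [Vale.Agent.Sieve.log_factorial_eq, ← sum_add_distrib, mul_sum]
    refine sum_le_sum fun p hp => ?_
    have hp' := Nat.prime_of_mem_primesLE hp
    have hp2 : (2 : ℝ) ≤ p := by exact_mod_cast hp'.two_le
    have h3 : (n.factorial.factorization p : ℝ) ≤ ((n / (p - 1) : ℕ) : ℝ) := by
      exact_mod_cast Nat.factorization_factorial_le_div_pred hp' n
    have h4 : ((n / (p - 1) : ℕ) : ℝ) ≤ (n : ℝ) / ((p : ℝ) - 1) := by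
      have := Nat.cast_div_le (α := ℝ) (m := n) (n := p - 1)
      rwa [Nat.cast_sub hp'.one_le, Nat.cast_one] at this
    have h6 := Real.log_natCast_nonneg p
    have h7 : (p : ℝ) - 1 ≠ 0 := by linarith
    have h8 : (p : ℝ) ≠ 0 := by linarith
    calc (n.factorial.factorization p : ℝ) * log p ≤ (n : ℝ) / ((p : ℝ) - 1) * log p := by
          apply mul_le_mul_of_nonneg_right _ h6
          linarith
      _ = _ := by field_simp; ring
  have h5 : (n : ℝ) * (log n - 1) ≤ n * (∑ p ∈ Nat.primesLE n, log (p : ℝ) / p +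
      ∑ p ∈ Nat.primesLE n, log (p : ℝ) / ((p : ℝ) * ((p : ℝ) - 1))) := by linarith
  have h6 := le_of_mul_le_mul_left h5 ht'
  have h7 := hC n
  have h8 := le_abs_self C
  have h9 := abs_nonneg C
  rw [abs_le]
  constructor <;> linarith

theorem sum_succ (f : ℕ → ℝ) (n : ℕ) :
    ∑ p ∈ Nat.primesLE (n + 1), f p =
      ∑ p ∈ Nat.primesLE n, f p + if (n + 1).Prime then f (n + 1) else 0 := by
  rw [Nat.primesLE_succ]
  split_ifs with h
  · rw [sum_insert (Nat.notMem_primesLE n), add_comm]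
  · simp

theorem log_succ_sub_le {n : ℕ} (hn : 1 ≤ n) : log ((n + 1 : ℕ) : ℝ) - log n ≤ 1 := by
  have hn' : (1 : ℝ) ≤ n := by exact_mod_cast hn
  rw [← Real.log_div (by positivity) (by positivity)]
  refine (Real.log_le_sub_one_of_pos (by positivity)).trans ?_
  push_cast
  rw [sub_le_iff_le_add, div_le_iff₀ (by positivity)]
  linarith

theorem step_ineq {x y e C : ℝ} (hx : 0 < x) (hxy : x ≤ y) (h1 : y - x ≤ 1) (he : |e| ≤ C) :
    |(x + e) * (1 / x - 1 / y) - (log y - log x)| ≤ (C + 1) * (1 / x - 1 / y) := by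
  have hy : 0 < y := by linarith
  have hd : 0 ≤ 1 / x - 1 / y := sub_nonneg.2 (one_div_le_one_div_of_le hx hxy)
  have ha : log y - log x ≤ y / x - 1 := by
    rw [← Real.log_div hy.ne' hx.ne']
    exact Real.log_le_sub_one_of_pos (by positivity)
  have hb : 1 - x / y ≤ log y - log x := by
    have := Real.log_le_sub_one_of_pos (x := x / y) (by positivity)
    rw [Real.log_div hx.ne' hy.ne'] at this
    linarith
  have hc : x * (1 / x - 1 / y) = 1 - x / y := by field_simp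
  have hd2 : y / x - 1 - (1 - x / y) = (y - x) * (1 / x - 1 / y) := by field_simp
  have hd3 : (y - x) * (1 / x - 1 / y) ≤ 1 / x - 1 / y := by nlinarith
  obtain ⟨he1, he2⟩ := abs_le.1 he
  rw [abs_le]
  constructor <;> nlinarith

/-- Mertens' second theorem at integers. -/
theorem second : ∃ C : ℝ, ∀ n : ℕ, 2 ≤ n →
    |∑ p ∈ Nat.primesLE n, 1 / (p : ℝ) - log (log n)| ≤ C := by
  obtain ⟨C, hC⟩ := first
  have hC0 : 0 ≤ C := (abs_nonneg _).trans (hC 1 le_rfl)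
  set A : ℕ → ℝ := fun n => ∑ p ∈ Nat.primesLE n, log (p : ℝ) / p with hA
  set S : ℕ → ℝ := fun n => ∑ p ∈ Nat.primesLE n, 1 / (p : ℝ) with hS
  set D : ℕ → ℝ := fun n => S n - A n / log n - log (log n) with hD
  have hl2 : 0 < log (2 : ℝ) := Real.log_pos (by norm_num)
  have key : ∀ n : ℕ, 2 ≤ n → |D n| ≤ |D 2| + (C + 1) * (1 / log 2 - 1 / log n) := by
    intro n hn
    induction n, hn using Nat.le_induction with
    | base => simp
    | succ n hn ih =>
      have hn' : (2 : ℝ) ≤ n := by exact_mod_cast hn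
      have hx : 0 < log (n : ℝ) := Real.log_pos (by linarith)
      have hxy : log (n : ℝ) ≤ log ((n + 1 : ℕ) : ℝ) :=
        Real.log_le_log (by linarith) (by push_cast; linarith)
      have hy : 0 < log ((n + 1 : ℕ) : ℝ) := by linarith
      have h1 := step_ineq hx hxy (log_succ_sub_le (by omega)) (hC n (by omega))
      have h2 : D (n + 1) - D n = (log n + (A n - log n)) * (1 / log n - 1 / log ((n + 1 : ℕ) : ℝ))
          - (log (log ((n + 1 : ℕ) : ℝ)) - log (log n)) := by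
        simp only [hD, hS, hA]
        rw [sum_succ, sum_succ]
        have h0 : (((n + 1 : ℕ) : ℝ)) ≠ 0 := by positivity
        split_ifs with h
        · field_simp
          ring
        · field_simp
          ring
      have h3 : D (n + 1) = D n + (D (n + 1) - D n) := by ring
      rw [h3]
      refine (abs_add_le _ _).trans ?_
      rw [h2]
      have : (C + 1) * (1 / log 2 - 1 / log ((n + 1 : ℕ) : ℝ)) =
        (C + 1) * (1 / log 2 - 1 / log n) + (C + 1) * (1 / log n - 1 / log ((n + 1 : ℕ) : ℝ)) := by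
          ring
      rw [this]
      linarith
  refine ⟨|D 2| + (C + 1) * (1 / log 2) + (1 + C / log 2), fun n hn => ?_⟩
  have hn' : (2 : ℝ) ≤ n := by exact_mod_cast hn
  have hx : log 2 ≤ log (n : ℝ) := Real.log_le_log (by norm_num) hn'
  have hx0 : 0 < log (n : ℝ) := by linarith
  have h1 : S n - log (log n) = D n + A n / log n := by simp only [hD]; ring
  change |S n - log (log n)| ≤ _
  rw [h1]
  refine (abs_add_le _ _).trans (add_le_add ((key n hn).trans ?_) ?_)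
  · have : 0 ≤ (C + 1) * (1 / log n) := by positivity
    nlinarith
  · have h2 : A n / log n = 1 + (A n - log n) / log n := by field_simp; ring
    rw [h2]
    refine (abs_add_le _ _).trans ?_
    rw [abs_one, abs_div, abs_of_pos hx0]
    gcongr
    exact hC n (by omega)

end MertA

/-- Mertens' second theorem with bounded error. -/
theorem mertens : ∃ C : ℝ, ∀ t : ℝ, 2 ≤ t →
    |∑ p ∈ Nat.primesLE ⌊t⌋₊, 1 / (p : ℝ) - log (log t)| ≤ C := by
  obtain ⟨C, hC⟩ := MertA.second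
  refine ⟨C + 1 / log 2, fun t ht => ?_⟩
  have hn : 2 ≤ ⌊t⌋₊ := Nat.le_floor (by exact_mod_cast ht)
  set n := ⌊t⌋₊ with hn_def
  have hn' : (2 : ℝ) ≤ n := by exact_mod_cast hn
  have h1 : (n : ℝ) ≤ t := Nat.floor_le (by linarith)
  have h2 : t ≤ ((n + 1 : ℕ) : ℝ) := by
    push_cast
    exact (Nat.lt_floor_add_one t).le
  have hl2 : 0 < log (2 : ℝ) := Real.log_pos (by norm_num)
  have hx : log 2 ≤ log (n : ℝ) := Real.log_le_log (by norm_num) hn'
  have hx0 : 0 < log (n : ℝ) := by linarith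
  have h3 : log (log n) ≤ log (log t) := loglog_mono (by linarith) h1
  have h4 : log t - log n ≤ 1 :=
    le_trans (by linarith [Real.log_le_log (by linarith) h2]) (MertA.log_succ_sub_le (n := n) (by omega))
  have h5 : log n ≤ log t := Real.log_le_log (by linarith) h1
  have h6 : log (log t) - log (log n) ≤ 1 / log 2 := by
    rw [← Real.log_div (by linarith) hx0.ne']
    refine (Real.log_le_sub_one_of_pos (div_pos (by linarith) hx0)).trans ?_
    have : log t / log n - 1 = (log t - log n) / log n := by field_simp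
    rw [this]
    gcongr
  obtain ⟨h7, h8⟩ := abs_le.1 (hC n hn)
  have : 0 ≤ 1 / log (2 : ℝ) := by positivity
  rw [abs_le]
  constructor <;> linarith

namespace MertA

theorem cells_zero {C : ℝ} (hC : ∀ t : ℝ, 2 ≤ t →
    |∑ p ∈ Nat.primesLE ⌊t⌋₊, 1 / (p : ℝ) - log (log t)| ≤ C) {u : ℕ} (hu : 1 ≤ u) (j : ℕ) :
    |∑ p ∈ cells u 0 j, 1 / (p : ℝ) - (j : ℝ) * hh u| ≤ C + 1 := by
  have hC0 : 0 ≤ C := (abs_nonneg _).trans (hC 2 le_rfl)
  rcases Nat.eq_zero_or_pos j with rfl | hj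
  · have : cells u 0 0 = ∅ := by
      ext p
      simp [mem_cells hu]
    rw [this]
    simp only [sum_empty, Nat.cast_zero, zero_mul, sub_zero, abs_zero]
    linarith
  set X : ℝ := exp (exp ((j : ℝ) * hh u)) with hX
  have hX2 : 2 ≤ X := by
    have h1 : 1 ≤ exp ((j : ℝ) * hh u) := Real.one_le_exp (by positivity)
    have h2 := Real.add_one_le_exp (exp ((j : ℝ) * hh u))
    linarith
  have hll : log (log X) = (j : ℝ) * hh u := by rw [hX, Real.log_exp, Real.log_exp]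
  have h1 := hC X hX2
  rw [hll] at h1
  have hs1 : cells u 0 j ⊆ Nat.primesLE ⌊X⌋₊ := by
    intro p hp
    rw [mem_cells hu] at hp
    obtain ⟨hp, -, h2⟩ := hp
    obtain ⟨i, rfl⟩ : ∃ i, j = i + 1 := ⟨j - 1, by omega⟩
    have h3 := log_lt_of_lab_le hu (Nat.lt_succ_iff.1 h2)
    have hp' : (0 : ℝ) < p := by exact_mod_cast hp.pos
    rw [Real.log_lt_iff_lt_exp hp'] at h3
    rw [Nat.mem_primesLE]
    refine ⟨Nat.le_floor ?_, hp⟩
    rw [hX]
    push_cast
    exact h3.le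
  have hs2 : Nat.primesLE ⌊X⌋₊ ⊆ insert ⌊X⌋₊ (cells u 0 j) := by
    intro p hp
    rw [Nat.mem_primesLE] at hp
    obtain ⟨h2, hp⟩ := hp
    rw [mem_insert, mem_cells hu]
    rcases h2.eq_or_lt with h | h
    · exact Or.inl h
    refine Or.inr ⟨hp, Nat.zero_le _, ?_⟩
    have h3 : (p : ℝ) < X := by
      have : (p : ℝ) < (⌊X⌋₊ : ℕ) := by exact_mod_cast h
      exact this.trans_le (Nat.floor_le (by linarith))
    have hp2 : (2 : ℝ) ≤ p := by exact_mod_cast hp.two_le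
    have h4 : log (log (p : ℝ)) < log (log X) :=
      Real.log_lt_log (Real.log_pos (by linarith)) (Real.log_lt_log (by linarith) h3)
    rw [hll] at h4
    unfold lab
    rw [Nat.floor_lt' hj.ne', div_lt_iff₀ (hh_pos hu)]
    exact h4
  have h2 : ∑ p ∈ cells u 0 j, 1 / (p : ℝ) ≤ ∑ p ∈ Nat.primesLE ⌊X⌋₊, 1 / (p : ℝ) :=
    sum_le_sum_of_subset_of_nonneg hs1 fun p _ _ => by positivity
  have h3 : ∑ p ∈ Nat.primesLE ⌊X⌋₊, 1 / (p : ℝ) ≤ ∑ p ∈ insert ⌊X⌋₊ (cells u 0 j), 1 / (p : ℝ) :=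
    sum_le_sum_of_subset_of_nonneg hs2 fun p _ _ => by positivity
  have h4 : ∑ p ∈ insert ⌊X⌋₊ (cells u 0 j), 1 / (p : ℝ) ≤
      1 + ∑ p ∈ cells u 0 j, 1 / (p : ℝ) := by
    by_cases h : ⌊X⌋₊ ∈ cells u 0 j
    · rw [insert_eq_of_mem h]
      linarith
    · rw [sum_insert h]
      have h5 : 1 ≤ ⌊X⌋₊ := Nat.le_floor (by push_cast; linarith)
      have h6 : (1 : ℝ) ≤ (⌊X⌋₊ : ℕ) := by exact_mod_cast h5
      have : 1 / ((⌊X⌋₊ : ℕ) : ℝ) ≤ 1 := by
        rw [div_le_one (by linarith)]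
        exact h6
      linarith
  obtain ⟨h5, h6⟩ := abs_le.1 h1
  rw [abs_le]
  constructor <;> linarith

end MertA

theorem cells_sum : ∀ᶠ u : ℕ in atTop, ∀ j₁ j₂ : ℕ, j₁ ≤ j₂ →
    |∑ p ∈ cells u j₁ j₂, 1 / (p : ℝ) - ((j₂ : ℝ) - j₁) * hh u| ≤ u := by
  obtain ⟨C, hC⟩ := mertens
  filter_upwards [eventually_ge_atTop 1,
    tendsto_natCast_atTop_atTop.eventually_ge_atTop (2 * (C + 1))] with u hu hu2 j₁ j₂ hj
  have hsub : cells u 0 j₁ ⊆ cells u 0 j₂ := by
    intro p hp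
    rw [mem_cells hu] at hp ⊢
    exact ⟨hp.1, hp.2.1, by omega⟩
  have he : cells u j₁ j₂ = cells u 0 j₂ \ cells u 0 j₁ := by
    ext p
    simp only [Finset.mem_sdiff, mem_cells hu]
    constructor
    · rintro ⟨h1, h2, h3⟩
      exact ⟨⟨h1, Nat.zero_le _, h3⟩, fun h => by omega⟩
    · rintro ⟨⟨h1, -, h3⟩, h4⟩
      refine ⟨h1, ?_, h3⟩
      by_contra h
      exact h4 ⟨h1, Nat.zero_le _, by omega⟩
  rw [he, sum_sdiff_eq_sub hsub]
  obtain ⟨h1, h2⟩ := abs_le.1 (MertA.cells_zero hC hu j₁)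
  obtain ⟨h3, h4⟩ := abs_le.1 (MertA.cells_zero hC hu j₂)
  rw [abs_le]
  constructor <;> linarith

theorem sum_inv_pred_le : ∀ᶠ u : ℕ in atTop, ∀ (j₁ j₂ : ℕ) (P : Finset ℕ), j₁ ≤ j₂ →
    (∀ p ∈ P, p.Prime ∧ j₁ ≤ lab u p ∧ lab u p < j₂) →
    ∑ p ∈ P, 1 / ((p - 1 : ℕ) : ℝ) ≤ 2 * (((j₂ : ℝ) - j₁) * hh u + u) := by
  filter_upwards [cells_sum, eventually_ge_atTop 1] with u h hu j₁ j₂ P hj hP
  have h1 : ∑ p ∈ P, 1 / ((p - 1 : ℕ) : ℝ) ≤ ∑ p ∈ P, 2 * (1 / (p : ℝ)) := by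
    refine sum_le_sum fun p hp => ?_
    have hp' := (hP p hp).1
    have hp2 : (2 : ℝ) ≤ p := by exact_mod_cast hp'.two_le
    rw [Nat.cast_sub hp'.one_le, Nat.cast_one, mul_one_div,
      div_le_div_iff₀ (by linarith) (by linarith)]
    linarith
  have h2 : ∑ p ∈ P, 1 / (p : ℝ) ≤ ∑ p ∈ cells u j₁ j₂, 1 / (p : ℝ) :=
    sum_le_sum_of_subset_of_nonneg (fun p hp => (mem_cells hu).2 (hP p hp))
      fun p _ _ => by positivity
  rw [← mul_sum] at h1
  have h3 := (abs_le.1 (h j₁ j₂ hj)).2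
  linarith

end Vale.Agent.P031
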