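import Vale.Agent.P031.Defs

namespace Vale.Agent.P031

open Finset Real Filter

/-- Dyadic summation: a counting bound `c t / (log t) ^ ν` at the points `t = 2 ^ (i+1)`
gives a bound for the reciprocal sum (with multiplicity, along a map `f`). -/
theorem dyadic {α : Type*} (Z : Finset α) (f : α → ℕ) (hf : ∀ z ∈ Z, 1 ≤ f z) (c : ℝ) (ν : ℕ)
    (h : ∀ i : ℕ, (∃ z ∈ Z, Nat.log 2 (f z) = i) →
      ((Z.filter fun z => Nat.log 2 (f z) = i).card : ℝ) ≤
        c * ((2 : ℝ) ^ (i + 1) / log ((2 : ℝ) ^ (i + 1)) ^ ν)) :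
    ∑ z ∈ Z, 1 / (f z : ℝ) ≤
      2 * c * ∑ i ∈ Z.image (fun z => Nat.log 2 (f z)), 1 / log ((2 : ℝ) ^ (i + 1)) ^ ν := by
  classical
  rw [← Finset.sum_fiberwise_of_maps_to (s := Z) (t := Z.image fun z => Nat.log 2 (f z))
    (g := fun z => Nat.log 2 (f z)) (fun z hz => Finset.mem_image_of_mem _ hz), Finset.mul_sum]
  refine Finset.sum_le_sum fun i hi => ?_
  obtain ⟨z, hz, e⟩ := Finset.mem_image.1 hi
  have h1 := h i ⟨z, hz, e⟩
  have h2 : ∑ z ∈ Z.filter (fun z => Nat.log 2 (f z) = i), 1 / (f z : ℝ) ≤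
      ((Z.filter fun z => Nat.log 2 (f z) = i).card : ℝ) * (1 / 2 ^ i) := by
    rw [← nsmul_eq_mul]
    refine Finset.sum_le_card_nsmul _ _ _ fun w hw => ?_
    obtain ⟨w1, w2⟩ := Finset.mem_filter.1 hw
    refine one_div_le_one_div_of_le (by positivity) ?_
    have := Nat.pow_log_le_self 2 (show f w ≠ 0 by have := hf w w1; omega)
    rw [w2] at this
    exact_mod_cast this
  refine h2.trans ((mul_le_mul_of_nonneg_right h1 (by positivity)).trans (le_of_eq ?_))
  generalize log ((2 : ℝ) ^ (i + 1)) ^ ν = L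
  rw [pow_succ, div_eq_mul_inv _ L, one_div L]
  field_simp

theorem dy_harm (n : ℕ) : ∑ i ∈ range (n + 1), 1 / ((i : ℝ) + 1) ≤ 1 + log ((n : ℝ) + 1) := by
  induction n with
  | zero => simp
  | succ n ih =>
    rw [Finset.sum_range_succ]
    have h1 := Real.one_sub_inv_le_log_of_pos
      (show (0 : ℝ) < ((n : ℝ) + 1 + 1) / (n + 1) by positivity)
    rw [Real.log_div (by positivity) (by positivity), inv_div] at h1
    have h2 : 1 - ((n : ℝ) + 1) / (n + 1 + 1) = 1 / (n + 1 + 1) := by field_simp; ring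
    push_cast
    linarith

theorem dy_one (I : Finset ℕ) {X : ℝ} (hX : 3 ≤ X) (h : ∀ i ∈ I, (2 : ℝ) ^ i ≤ X) :
    ∑ i ∈ I, 1 / log ((2 : ℝ) ^ (i + 1)) ^ 1 ≤ 4 * (1 + log (log X)) := by
  have l2 := Real.log_two_gt_d9
  have x1 : 1 ≤ log X := by
    rw [Real.le_log_iff_exp_le (by linarith)]
    linarith [Real.exp_one_lt_d9]
  have x2 : 0 ≤ log (log X) := Real.log_nonneg x1
  rcases I.eq_empty_or_nonempty with rfl | hI
  · rw [Finset.sum_empty]
    positivity
  obtain ⟨n, hn, hm⟩ := Finset.exists_max_image I id hI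
  have h1 := Real.log_le_log (by positivity) (h n hn)
  rw [Real.log_pow] at h1
  have h2 : log ((n : ℝ) + 1) ≤ 1 + log (log X) := by
    rw [Real.log_le_iff_le_exp (by positivity), Real.exp_add, Real.exp_log (by linarith)]
    have n0 : (0 : ℝ) ≤ n := by positivity
    nlinarith [Real.exp_one_gt_d9]
  calc _ ≤ ∑ i ∈ I, 2 * (1 / ((i : ℝ) + 1)) := by
        refine Finset.sum_le_sum fun i _ => ?_
        rw [pow_one, Real.log_pow, mul_one_div, div_le_div_iff₀ (by positivity) (by positivity)]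
        push_cast
        have n0 : (0 : ℝ) ≤ i := by positivity
        nlinarith
    _ ≤ ∑ i ∈ range (n + 1), 2 * (1 / ((i : ℝ) + 1)) :=
        Finset.sum_le_sum_of_subset_of_nonneg
          (fun i hi => Finset.mem_range.2 (Nat.lt_succ_of_le (hm i hi))) fun i _ _ => by positivity
    _ ≤ _ := by
        rw [← Finset.mul_sum]
        linarith [dy_harm n]

theorem dy_tel {a b : ℕ} (h : a ≤ b) :
    ∑ i ∈ Ico a b, 1 / log ((2 : ℝ) ^ (i + 1)) ^ 2 ≤
      4 / log ((2 : ℝ) ^ (a + 1)) - 4 / log ((2 : ℝ) ^ (b + 1)) := by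
  induction b, h using Nat.le_induction with
  | base => simp
  | succ b hb ih =>
    rw [Finset.sum_Ico_succ_top hb]
    have l2 := Real.log_two_gt_d9
    have h1 : log ((2 : ℝ) ^ (b + 1 + 1)) = log ((2 : ℝ) ^ (b + 1)) + log 2 := by
      rw [pow_succ, Real.log_mul (by positivity) (by positivity)]
    have h2 : log 2 ≤ log ((2 : ℝ) ^ (b + 1)) :=
      Real.log_le_log (by norm_num) (le_self_pow₀ (by norm_num) (by omega))
    rw [h1]
    generalize log ((2 : ℝ) ^ (b + 1)) = x at *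
    generalize log 2 = c at *
    have x0 : 0 < x := by linarith
    have c0 : 0 < c := by linarith
    have h3 : 1 / x ^ 2 ≤ 4 / x - 4 / (x + c) := by
      rw [div_sub_div _ _ x0.ne' (by positivity), div_le_div_iff₀ (by positivity) (by positivity)]
      have : x + c ≤ 4 * c * x := by nlinarith
      nlinarith
    linarith

theorem dy_two (I : Finset ℕ) {ℓ : ℝ} (hℓ : 1 ≤ ℓ) (h : ∀ i ∈ I, ℓ ≤ log ((2 : ℝ) ^ (i + 1))) :
    ∑ i ∈ I, 1 / log ((2 : ℝ) ^ (i + 1)) ^ 2 ≤ 4 / ℓ := by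
  rcases I.eq_empty_or_nonempty with rfl | hI
  · rw [Finset.sum_empty]
    positivity
  obtain ⟨n, hn, hm⟩ := Finset.exists_max_image I id hI
  obtain ⟨a, ha, hb⟩ := Finset.exists_min_image I id hI
  have h1 := dy_tel (show a ≤ n + 1 from Nat.le_succ_of_le (hm a ha))
  have h2 : 4 / log ((2 : ℝ) ^ (a + 1)) ≤ 4 / ℓ :=
    div_le_div_of_nonneg_left (by norm_num) (by linarith) (h a ha)
  have h3 : 0 ≤ 4 / log ((2 : ℝ) ^ (n + 1 + 1)) :=
    div_nonneg (by norm_num) (Real.log_nonneg (one_le_pow₀ (by norm_num)))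
  refine (Finset.sum_le_sum_of_subset_of_nonneg (t := Ico a (n + 1)) (fun i hi =>
    Finset.mem_Ico.2 ⟨hb i hi, Nat.lt_succ_of_le (hm i hi)⟩) fun i _ _ => by positivity).trans ?_
  linarith

theorem dy_three (I : Finset ℕ) {ℓ : ℝ} (hℓ : 1 ≤ ℓ) (h : ∀ i ∈ I, ℓ ≤ log ((2 : ℝ) ^ (i + 1))) :
    ∑ i ∈ I, 1 / log ((2 : ℝ) ^ (i + 1)) ^ 3 ≤ 4 / ℓ ^ 2 := by
  have l0 : 0 < ℓ := by linarith
  calc _ ≤ ∑ i ∈ I, 1 / ℓ * (1 / log ((2 : ℝ) ^ (i + 1)) ^ 2) := by
        refine Finset.sum_le_sum fun i hi => ?_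
        have h1 := h i hi
        generalize log ((2 : ℝ) ^ (i + 1)) = x at *
        have x0 : 0 < x := by linarith
        rw [one_div_mul_one_div, pow_succ' x 2]
        exact one_div_le_one_div_of_le (by positivity) (by gcongr)
    _ ≤ 1 / ℓ * (4 / ℓ) := by
        rw [← Finset.mul_sum]
        exact mul_le_mul_of_nonneg_left (dy_two I hℓ h) (by positivity)
    _ = _ := by field_simp

end Vale.Agent.P031
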