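import Vale.Agent.P031.Brun
import Vale.Agent.P031.Mert

namespace Vale.Agent.P031

open Finset Real Filter

theorem sv_root {p A : ℕ} (hp : p.Prime) (h : ¬ p ∣ A) : ∃ a < p, p ∣ A * a + 1 := by
  haveI : Fact p.Prime := ⟨hp⟩
  refine ⟨(-(A : ZMod p)⁻¹).val, ZMod.val_lt _, (ZMod.natCast_eq_zero_iff _ _).1 ?_⟩
  have h1 : (A : ZMod p) ≠ 0 := fun h0 => h ((ZMod.natCast_eq_zero_iff _ _).1 h0)
  push_cast
  rw [ZMod.natCast_zmod_val, mul_neg, mul_inv_cancel₀ h1, neg_add_cancel]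

theorem sv_not {p A a r : ℕ} (hp : p.Prime) (ha : p ∣ A * a + 1) (hA : 1 ≤ A) (hr : p < r)
    (h : (A * r + 1).Prime) : r % p ≠ a := by
  intro e
  have h1 : p ∣ A * r + 1 := by
    rw [← Nat.div_add_mod r p, e, show A * (p * (r / p) + a) + 1 = p * (A * (r / p)) + (A * a + 1) by
      ring]
    exact dvd_add (dvd_mul_right _ _) ha
  have h2 := (Nat.prime_dvd_prime_iff_eq hp h).1 h1
  nlinarith

theorem sv_not0 {p r : ℕ} (hp : p.Prime) (hr : p < r) (h : r.Prime) : r % p ≠ 0 := fun e =>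
  hr.ne ((Nat.prime_dvd_prime_iff_eq hp h).1 (Nat.dvd_of_mod_eq_zero e))

theorem sv_ne0 {p A a : ℕ} (hp : p.Prime) (ha : p ∣ A * a + 1) : 0 ≠ a := by
  rintro rfl
  exact hp.one_lt.ne' (Nat.dvd_one.1 (by simpa using ha))

theorem sv_omega {N : ℕ} (hN : 1 ≤ N) : (N.primeFactors.card : ℝ) * log 2 ≤ log N := by
  have h1 : 2 ^ N.primeFactors.card ≤ N :=
    (Finset.pow_card_le_prod _ (fun p => p) 2 fun p hp =>
      (Nat.prime_of_mem_primeFactors hp).two_le).trans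
      (Nat.le_of_dvd hN (Nat.prod_primeFactors_dvd N))
  rw [← Real.log_pow]
  exact Real.log_le_log (by positivity) (by exact_mod_cast h1)

theorem sv_lower {N : ℕ} (hN : 1 ≤ N) {U z : ℝ} (hlog : log N ≤ 3 * exp (4 * U)) :
    ∑ p ∈ Nat.primesLE ⌊z⌋₊, 1 / (p : ℝ) ≤ ∑ p ∈ (Nat.primesLE ⌊z⌋₊).filter
      (fun p => ⌊exp (4 * U + 2)⌋₊ < p ∧ ¬ p ∣ N), 1 / (p : ℝ) +
      ∑ p ∈ Nat.primesLE ⌊exp (4 * U + 2)⌋₊, 1 / (p : ℝ) + 1 := by
  have h1 : ∑ p ∈ N.primeFactors.filter (fun p => ⌊exp (4 * U + 2)⌋₊ < p), 1 / (p : ℝ) ≤ 1 := by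
    have e2 : (7 : ℝ) ≤ exp 2 := by
      have := Real.exp_one_gt_d9
      rw [show (2 : ℝ) = 1 + 1 by norm_num, Real.exp_add]
      nlinarith
    have a1 : ∀ p ∈ N.primeFactors.filter (fun p => ⌊exp (4 * U + 2)⌋₊ < p),
        1 / (p : ℝ) ≤ 1 / (7 * exp (4 * U)) := by
      intro p hp
      have b1 := (Nat.floor_lt (Real.exp_pos _).le).1 (Finset.mem_filter.1 hp).2
      rw [Real.exp_add] at b1
      refine one_div_le_one_div_of_le (by positivity) ?_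
      nlinarith [Real.exp_pos (4 * U)]
    refine (Finset.sum_le_card_nsmul _ _ _ a1).trans ?_
    have a2 : ((N.primeFactors.filter (fun p => ⌊exp (4 * U + 2)⌋₊ < p)).card : ℝ) ≤
        N.primeFactors.card := by exact_mod_cast Finset.card_filter_le _ _
    have a3 := sv_omega hN
    have a4 := Real.log_two_gt_d9
    rw [nsmul_eq_mul, mul_one_div, div_le_one (by positivity)]
    nlinarith [Real.exp_pos (4 * U), Nat.cast_nonneg (α := ℝ) N.primeFactors.card]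
  refine le_trans ?_ (add_le_add le_rfl h1)
  have nn : ∀ (S : Finset ℕ), ∀ p ∈ S, (0 : ℝ) ≤ 1 / (p : ℝ) := fun _ p _ => by positivity
  refine le_trans (Finset.sum_le_sum_of_subset_of_nonneg (t := ((Nat.primesLE ⌊z⌋₊).filter
      (fun p => ⌊exp (4 * U + 2)⌋₊ < p ∧ ¬ p ∣ N) ∪ Nat.primesLE ⌊exp (4 * U + 2)⌋₊) ∪
      N.primeFactors.filter (fun p => ⌊exp (4 * U + 2)⌋₊ < p)) (fun p hp => ?_)
      fun p _ _ => by positivity) ?_
  · have hp' := (Nat.mem_primesLE.1 hp).2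
    simp only [Finset.mem_union, Finset.mem_filter, Nat.mem_primesLE, Nat.mem_primeFactors]
    by_cases c1 : ⌊exp (4 * U + 2)⌋₊ < p
    · by_cases c2 : p ∣ N
      · exact Or.inr ⟨⟨hp', c2, by omega⟩, c1⟩
      · exact Or.inl (Or.inl ⟨Nat.mem_primesLE.1 hp, c1, c2⟩)
    · exact Or.inl (Or.inr ⟨by omega, hp'⟩)
  · have un : ∀ A B : Finset ℕ, ∑ p ∈ A ∪ B, 1 / (p : ℝ) ≤
        ∑ p ∈ A, 1 / (p : ℝ) + ∑ p ∈ B, 1 / (p : ℝ) := fun A B => by
      rw [← Finset.sum_union_inter]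
      exact le_add_of_nonneg_right (Finset.sum_nonneg (nn _))
    exact (un _ _).trans (add_le_add (un _ _) le_rfl)

theorem sv_tail {σ U : ℝ} {k : ℕ} (h0 : 0 ≤ σ) (h1 : σ ≤ 13 * U) (hk : 130 * U ≤ k) :
    σ ^ k / (k.factorial : ℝ) ≤ exp (-(12 * U)) := by
  have h2 := Real.pow_div_factorial_le_exp (exp 1 * σ) (by positivity) k
  have e3 := Real.exp_one_lt_d9
  have h3 : σ ^ k / (k.factorial : ℝ) = (exp 1 * σ) ^ k / (k.factorial : ℝ) * exp (-(k : ℝ)) := by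
    rw [mul_pow, Real.exp_neg, ← Real.exp_nat_mul, mul_one]
    field_simp
  rw [h3]
  refine (mul_le_mul_of_nonneg_right h2 (Real.exp_pos _).le).trans ?_
  rw [← Real.exp_add, Real.exp_le_exp]
  nlinarith

theorem sv_sqrt {l : ℝ} (h1 : 1 ≤ l) {ν : ℕ} (hν : ν ≤ 3) :
    exp (l / 2) ≤ 48 * (exp l / l ^ ν) := by
  have h2 := Real.pow_div_factorial_le_exp (l / 2) (by positivity) 3
  have h3 : l ^ ν ≤ l ^ 3 := pow_le_pow_right₀ h1 hν
  have h4 : exp l = exp (l / 2) * exp (l / 2) := by rw [← Real.exp_add]; ring_nf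
  rw [← mul_div_assoc, le_div_iff₀ (by positivity), h4]
  norm_num [Nat.factorial] at h2
  nlinarith [Real.exp_pos (l / 2)]

theorem sv_main {C U l σ : ℝ} {ν : ℕ} (hν : ν ≤ 3) (hU : 1 ≤ U) (hl : 0 < l) (hC : 0 ≤ C)
    (h : log (l / (1000 * U)) ≤ σ + log (4 * U + 2) + 2 * C + 1) :
    exp (-(ν * σ)) ≤ (6000 * exp (2 * C + 1)) ^ 3 * U ^ 6 / l ^ ν := by
  have h1 : exp (-σ) ≤ 6000 * exp (2 * C + 1) * U ^ 2 / l := by
    have h2 := Real.exp_le_exp.2 h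
    rw [Real.exp_log (by positivity), add_assoc, Real.exp_add, Real.exp_add,
      Real.exp_log (by positivity), div_le_iff₀ (by positivity)] at h2
    rw [Real.exp_neg, le_div_iff₀ hl, inv_mul_le_iff₀ (Real.exp_pos _)]
    refine h2.trans ?_
    have : (4 * U + 2) * (1000 * U) ≤ 6000 * U ^ 2 := by nlinarith
    nlinarith [mul_pos (Real.exp_pos σ) (Real.exp_pos (2 * C + 1))]
  have h3 : 1 ≤ 6000 * exp (2 * C + 1) * U ^ 2 := by
    have := Real.one_le_exp (show 0 ≤ 2 * C + 1 by linarith)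
    nlinarith [one_le_pow₀ (n := 2) hU]
  calc exp (-(ν * σ)) = exp (-σ) ^ ν := by rw [← Real.exp_nat_mul, mul_neg]
    _ ≤ (6000 * exp (2 * C + 1) * U ^ 2 / l) ^ ν := pow_le_pow_left₀ (Real.exp_pos _).le h1 _
    _ = (6000 * exp (2 * C + 1) * U ^ 2) ^ ν / l ^ ν := div_pow _ _ _
    _ ≤ (6000 * exp (2 * C + 1) * U ^ 2) ^ 3 / l ^ ν :=
        div_le_div_of_nonneg_right (pow_le_pow_right₀ h3 hν) (by positivity)
    _ = _ := by ring

theorem sv_t3 {l W : ℝ} {ν : ℕ} (l1 : 1 ≤ l) (hl' : l ≤ exp (4 * W)) (hν : ν ≤ 3) :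
    exp (-(12 * W)) ≤ 1 / l ^ ν := by
  rw [Real.exp_neg, ← one_div]
  refine one_div_le_one_div_of_le (by positivity) ?_
  calc l ^ ν ≤ l ^ 3 := pow_le_pow_right₀ l1 hν
    _ ≤ exp (4 * W) ^ 3 := pow_le_pow_left₀ (by linarith) hl' _
    _ = _ := by rw [← Real.exp_nat_mul]; push_cast; ring_nf

theorem sv_t4 {y l c ν : ℝ} {W : ℕ} (ν0 : 0 ≤ ν) (ν3 : ν ≤ 3) (c0 : 0 ≤ c) (a1 : c ≤ exp y)
    (y1 : 1 ≤ y) (yl : 1000 * W * y = l) : (1 + ν * c) ^ (2 * (65 * W)) ≤ exp (l / 2) := by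
  have z2 : 2 ≤ exp y := by linarith [Real.add_one_le_exp y]
  have a4 : 1 + ν * c ≤ exp y ^ 3 := by
    have : ν * c ≤ 3 * exp y := mul_le_mul ν3 a1 c0 (by norm_num)
    generalize exp y = z at *
    nlinarith [mul_le_mul z2 z2 (by norm_num) (by linarith)]
  refine (pow_le_pow_left₀ (by positivity) a4 _).trans ?_
  rw [← Real.exp_nat_mul, ← Real.exp_nat_mul, Real.exp_le_exp]
  push_cast
  have : (0 : ℝ) ≤ W * y := by positivity
  linarith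

theorem sv_t5 {y l W : ℝ} (W1 : 1 ≤ W) (y1 : 1 ≤ y) (yl : 1000 * W * y = l) :
    ((⌊exp y⌋₊ + 1 : ℕ) : ℝ) ≤ exp (l / 2) := by
  have z2 : 2 ≤ exp y := by linarith [Real.add_one_le_exp y]
  have a1 := Nat.floor_le (Real.exp_pos y).le
  have a2 : exp y * exp y ≤ exp (l / 2) := by
    rw [← Real.exp_add, Real.exp_le_exp]
    nlinarith
  push_cast
  nlinarith

theorem sv_t6 {l : ℝ} (l0 : 0 ≤ l) : ((⌊exp l⌋₊ + 1 : ℕ) : ℝ) ≤ 2 * exp l := by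
  have a1 := Nat.floor_le (Real.exp_pos l).le
  have a2 := Real.one_le_exp l0
  push_cast
  linarith

theorem sv_ly {y l W : ℝ} (W1 : 1 ≤ W) (y1 : 1 ≤ y) (yl : 1000 * W * y = l)
    (hl' : l ≤ exp (4 * W)) : log y ≤ 4 * W := by
  rw [Real.log_le_iff_le_exp (by linarith)]
  nlinarith

theorem sv_fin {r a b f X s t e A E L : ℝ} (c2 : r ≤ a + b) (hb : b ≤ X * (s + t) + f)
    (t5 : a ≤ e) (t4 : f ≤ e) (t7 : e ≤ 48 * (E / L)) (t6 : X ≤ 2 * E) (t1 : s ≤ A / L)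
    (t2 : t ≤ 1 / L) (s0 : 0 ≤ s) (t0 : 0 ≤ t) (E0 : 0 ≤ E) :
    r ≤ (2 * A + 98) * (E / L) := by
  have c3 := mul_le_mul t6 (add_le_add t1 t2) (by positivity) (by positivity)
  have c4 : 2 * E * (A / L + 1 / L) = (2 * A + 2) * (E / L) := by ring
  linarith

theorem sv_big {C : ℝ} (hC0 : 0 ≤ C) (hC : ∀ t : ℝ, 2 ≤ t →
      |∑ p ∈ Nat.primesLE ⌊t⌋₊, 1 / (p : ℝ) - log (log t)| ≤ C) {W : ℕ} (hW : 1 ≤ W)
    (hCW : 3 * C ≤ W) {l : ℝ} (hl : 1000 * W ≤ l) (hl' : l ≤ exp (4 * W)) {ν N : ℕ} (hν : ν ≤ 3)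
    (hN : 1 ≤ N) (hlog : log N ≤ 3 * exp (4 * W)) (R : Finset ℕ) (hR : ∀ r ∈ R, (r : ℝ) ≤ exp l)
    (Ω : ℕ → Finset ℕ) (hΩ : ∀ p : ℕ, p.Prime → ¬ p ∣ N → Ω p ⊆ range p ∧ (Ω p).card = ν ∧
      ∀ r ∈ R, p < r → r % p ∉ Ω p) :
    (R.card : ℝ) ≤ (2 * ((6000 * exp (2 * C + 1)) ^ 3 * (W : ℝ) ^ 6) + 98) * (exp l / l ^ ν) := by
  have W1 : (1 : ℝ) ≤ W := by exact_mod_cast hW
  have l1 : 1 ≤ l := by linarith
  obtain ⟨y, hy⟩ : ∃ y, y = l / (1000 * W) := ⟨_, rfl⟩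
  have y1 : 1 ≤ y := by rw [hy, le_div_iff₀ (by positivity)]; linarith
  have yl : 1000 * W * y = l := by rw [hy]; field_simp
  have z2 : 2 ≤ exp y := by linarith [Real.add_one_le_exp y]
  obtain ⟨P, hP⟩ : ∃ P, P = (Nat.primesLE ⌊exp y⌋₊).filter
    (fun p => ⌊exp (4 * W + 2)⌋₊ < p ∧ ¬ p ∣ N) := ⟨_, rfl⟩
  have mP : ∀ p ∈ P, p.Prime ∧ p ≤ ⌊exp y⌋₊ ∧ ¬ p ∣ N := fun p hp => by
    rw [hP, Finset.mem_filter, Nat.mem_primesLE] at hp
    exact ⟨hp.1.2, hp.1.1, hp.2.2⟩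
  have hb := brun P (fun p hp => (mP p hp).1) ν Ω
    (fun p hp => ⟨(hΩ p (mP p hp).1 (mP p hp).2.2).1, (hΩ p (mP p hp).1 (mP p hp).2.2).2.1⟩)
    (⌊exp l⌋₊ + 1) (65 * W)
  have e1 : ∑ p ∈ P, (ν : ℝ) / p = ν * ∑ p ∈ P, 1 / (p : ℝ) := by
    rw [Finset.mul_sum]
    exact Finset.sum_congr rfl fun p _ => by rw [mul_one_div]
  rw [e1] at hb
  have m1 := abs_le.1 (hC _ z2)
  have m2 := abs_le.1 (hC (exp (4 * W + 2)) (by linarith [Real.add_one_le_exp (4 * (W : ℝ) + 2)]))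
  rw [Real.log_exp] at m1 m2
  have s1 := sv_lower hN (U := W) (z := exp y) hlog
  rw [← hP] at s1
  have s2 : ∑ p ∈ P, 1 / (p : ℝ) ≤ ∑ p ∈ Nat.primesLE ⌊exp y⌋₊, 1 / (p : ℝ) := by
    rw [hP]
    exact Finset.sum_le_sum_of_subset_of_nonneg (Finset.filter_subset _ _)
      fun p _ _ => by positivity
  have s0 : 0 ≤ ∑ p ∈ P, 1 / (p : ℝ) := Finset.sum_nonneg fun p _ => by positivity
  generalize ∑ p ∈ P, 1 / (p : ℝ) = σ at hb s0 s1 s2
  have ν3 : (ν : ℝ) ≤ 3 := by exact_mod_cast hν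
  have ly := sv_ly W1 y1 yl hl'
  have t1 := sv_main (C := C) (U := W) (l := l) (σ := σ) hν W1 (by linarith) hC0
    (by rw [← hy]; linarith)
  have s3 : ν * σ ≤ 3 * σ := mul_le_mul_of_nonneg_right ν3 s0
  have t2 := sv_tail (σ := ν * σ) (U := W) (k := 2 * (65 * W) + 1) (by positivity)
    (by linarith) (by push_cast; linarith)
  have a1 : (P.card : ℝ) ≤ exp y := by
    have a2 : P ⊆ Icc 1 ⌊exp y⌋₊ := fun p hp =>
      Finset.mem_Icc.2 ⟨(mP p hp).1.one_le, (mP p hp).2.1⟩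
    have a3 := Finset.card_le_card a2
    rw [Nat.card_Icc, Nat.add_sub_cancel] at a3
    exact (Nat.cast_le.2 a3).trans (Nat.floor_le (Real.exp_pos _).le)
  have sub : R ⊆ range (⌊exp y⌋₊ + 1) ∪
      (range (⌊exp l⌋₊ + 1)).filter fun n => ∀ p ∈ P, n % p ∉ Ω p := by
    intro r hr
    rw [Finset.mem_union, Finset.mem_filter, Finset.mem_range, Finset.mem_range]
    by_cases c : r < ⌊exp y⌋₊ + 1
    · exact Or.inl c
    · refine Or.inr ⟨Nat.lt_succ_of_le (Nat.le_floor (hR r hr)), fun p hp => ?_⟩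
      have := (mP p hp).2.1
      exact (hΩ p (mP p hp).1 (mP p hp).2.2).2.2 r hr (by omega)
  have c1 := (Finset.card_le_card sub).trans (Finset.card_union_le _ _)
  rw [Finset.card_range] at c1
  have c2 := (Nat.cast_le (α := ℝ)).2 c1
  rw [Nat.cast_add] at c2
  exact sv_fin c2 hb (sv_t5 W1 y1 yl) (sv_t4 (Nat.cast_nonneg _) ν3 (Nat.cast_nonneg _) a1 y1 yl)
    (sv_sqrt l1 hν) (sv_t6 (by linarith)) t1 (t2.trans (sv_t3 l1 hl' hν)) (by positivity)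
    (by positivity) (by positivity)

theorem sv_gen : ∀ᶠ u : ℕ in atTop, ∀ (t : ℝ) (ν N : ℕ) (R : Finset ℕ), 2 ≤ t → t ≤ XX u →
    ν ≤ 3 → 1 ≤ N → (N : ℝ) ≤ XX u ^ 3 → (∀ r ∈ R, (r : ℝ) ≤ t ∧ r.Prime) →
    (∀ p : ℕ, p.Prime → ¬ p ∣ N → ∃ O : Finset ℕ, O ⊆ range p ∧ O.card = ν ∧
      ∀ r ∈ R, p < r → r % p ∉ O) →
    (R.card : ℝ) ≤ (u : ℝ) ^ 70 * (t / log t ^ ν) := by
  obtain ⟨C, hC⟩ := mertens
  have hC0 : 0 ≤ C := (abs_nonneg _).trans (hC 2 le_rfl)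
  filter_upwards [eventually_ge_atTop 1000,
    tendsto_natCast_atTop_atTop.eventually_ge_atTop (3 * C),
    tendsto_natCast_atTop_atTop.eventually_ge_atTop (2 * (6000 * exp (2 * C + 1)) ^ 3 + 98)]
    with u h1 h2 h3 t ν N R t2 tX hν hN hNX hR hO
  choose! Ω hΩ using hO
  have u1 : (1000 : ℝ) ≤ u := by exact_mod_cast h1
  have u0 : (1 : ℝ) ≤ u := by linarith
  have l0 : 0 < log t := Real.log_pos (by linarith)
  by_cases c : log t ≤ (u : ℝ) ^ 23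
  · have a1 : (R.card : ℝ) ≤ t := by
      have a2 : R ⊆ Icc 1 ⌊t⌋₊ := fun r hr =>
        Finset.mem_Icc.2 ⟨(hR r hr).2.one_le, Nat.le_floor (hR r hr).1⟩
      have a3 := Finset.card_le_card a2
      rw [Nat.card_Icc, Nat.add_sub_cancel] at a3
      exact (Nat.cast_le.2 a3).trans (Nat.floor_le (by linarith))
    have a4 : log t ^ ν ≤ (u : ℝ) ^ 70 :=
      calc log t ^ ν ≤ ((u : ℝ) ^ 23) ^ ν := pow_le_pow_left₀ l0.le c _
        _ = (u : ℝ) ^ (23 * ν) := (pow_mul _ _ _).symm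
        _ ≤ _ := pow_le_pow_right₀ u0 (by omega)
    rw [← mul_div_assoc, le_div_iff₀ (by positivity), mul_comm ((u : ℝ) ^ 70)]
    exact mul_le_mul a1 a4 (by positivity) (by linarith)
  · have p1 : (u : ℝ) ≤ (u : ℝ) ^ 10 := le_self_pow₀ u0 (by norm_num)
    have p2 : (u : ℝ) ≤ (u : ℝ) ^ 13 := le_self_pow₀ u0 (by norm_num)
    have p3 : 1000 * (u : ℝ) ^ 10 ≤ (u : ℝ) ^ 23 := by
      rw [show (u : ℝ) ^ 23 = (u : ℝ) ^ 13 * (u : ℝ) ^ 10 by ring]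
      exact mul_le_mul_of_nonneg_right (by linarith) (by positivity)
    have hb := sv_big hC0 hC (W := u ^ 10) (Nat.one_le_pow _ _ (by omega))
      (by push_cast; linarith) (l := log t) (by push_cast; linarith)
      (by
        push_cast
        rw [Real.log_le_iff_le_exp (by linarith)]
        exact tX) hν hN
      (by
        push_cast
        rw [Real.log_le_iff_le_exp (by exact_mod_cast hN)]
        refine hNX.trans (le_of_eq ?_)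
        rw [XX, ← Real.exp_nat_mul]
        norm_num) R
      (fun r hr => by rw [Real.exp_log (by linarith)]; exact (hR r hr).1) Ω hΩ
    rw [Real.exp_log (by linarith)] at hb
    refine hb.trans (mul_le_mul_of_nonneg_right ?_ (by positivity))
    have p4 : (1 : ℝ) ≤ (u : ℝ) ^ 60 := one_le_pow₀ u0
    have p5 := mul_le_mul_of_nonneg_right (h3.trans p1) (show (0 : ℝ) ≤ (u : ℝ) ^ 60 by positivity)
    push_cast
    rw [show ((u : ℝ) ^ 10) ^ 6 = (u : ℝ) ^ 60 by ring,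
      show (u : ℝ) ^ 70 = (u : ℝ) ^ 10 * (u : ℝ) ^ 60 by ring]
    linarith

theorem sv_XX (u : ℕ) : 1 ≤ XX u := Real.one_le_exp (Real.exp_pos _).le

theorem sv2 : ∀ᶠ u : ℕ in atTop, ∀ (t : ℝ) (A : ℕ) (P : Finset ℕ), 2 ≤ t → t ≤ XX u →
    1 ≤ A → (A : ℝ) ≤ XX u → (∀ r ∈ P, (r : ℝ) ≤ t ∧ r.Prime ∧ (A * r + 1).Prime) →
    (P.card : ℝ) ≤ (u : ℝ) ^ 70 * (t / log t ^ 2) := by
  filter_upwards [sv_gen] with u h t A P t2 tX hA hAX hP
  refine h t 2 A P t2 tX (by norm_num) hA (hAX.trans (le_self_pow₀ (sv_XX u) (by norm_num)))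
    (fun r hr => ⟨(hP r hr).1, (hP r hr).2.1⟩) fun p hp hd => ?_
  obtain ⟨a, a1, a2⟩ := sv_root hp hd
  refine ⟨{0, a}, fun x hx => ?_, Finset.card_pair (sv_ne0 hp a2), fun r hr hpr => ?_⟩
  · simp only [Finset.mem_insert, Finset.mem_singleton] at hx
    rw [Finset.mem_range]
    omega
  · simp only [Finset.mem_insert, Finset.mem_singleton, not_or]
    exact ⟨sv_not0 hp hpr (hP r hr).2.1, sv_not hp a2 hA hpr (hP r hr).2.2⟩

theorem sv3 : ∀ᶠ u : ℕ in atTop, ∀ (t : ℝ) (A B : ℕ) (P : Finset ℕ), 2 ≤ t → t ≤ XX u →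
    1 ≤ A → (A : ℝ) ≤ XX u → 1 ≤ B → (B : ℝ) ≤ XX u → A ≠ B →
    (∀ r ∈ P, (r : ℝ) ≤ t ∧ r.Prime ∧ (A * r + 1).Prime ∧ (B * r + 1).Prime) →
    (P.card : ℝ) ≤ (u : ℝ) ^ 70 * (t / log t ^ 3) := by
  filter_upwards [sv_gen] with u h t A B P t2 tX hA hAX hB hBX hAB hP
  have d1 : 1 ≤ ((A : ℤ) - B).natAbs := by omega
  have d2 : ((((A : ℤ) - B).natAbs : ℕ) : ℝ) ≤ XX u := by
    rcases le_total A B with c | c
    · exact (Nat.cast_le.2 (by omega)).trans hBX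
    · exact (Nat.cast_le.2 (by omega)).trans hAX
  refine h t 3 (A * B * ((A : ℤ) - B).natAbs) P t2 tX le_rfl
    (Nat.mul_pos (Nat.mul_pos hA hB) d1) ?_
    (fun r hr => ⟨(hP r hr).1, (hP r hr).2.1⟩) fun p hp hd => ?_
  · have x0 : 0 ≤ XX u := zero_le_one.trans (sv_XX u)
    rw [Nat.cast_mul, Nat.cast_mul, pow_succ, pow_two]
    exact mul_le_mul (mul_le_mul hAX hBX (by positivity) x0) d2 (by positivity) (by positivity)
  obtain ⟨a, a1, a2⟩ := sv_root hp (A := A) fun c => hd ((c.mul_right _).mul_right _)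
  obtain ⟨b, b1, b2⟩ := sv_root hp (A := B) fun c => hd ((c.mul_left _).mul_right _)
  have ab : a ≠ b := by
    rintro rfl
    have c1 : (p : ℤ) ∣ ((A : ℤ) - B) * a := by
      have := dvd_sub (Int.natCast_dvd_natCast.2 a2) (Int.natCast_dvd_natCast.2 b2)
      push_cast at this
      rwa [show (A : ℤ) * a + 1 - (B * a + 1) = (A - B) * a by ring] at this
    have c2 := Int.natCast_dvd.1 c1
    rw [Int.natAbs_mul, Int.natAbs_natCast] at c2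
    rcases (Nat.Prime.dvd_mul hp).1 c2 with c | c
    · exact hd (c.mul_left _)
    · exact absurd (Nat.le_of_dvd (Nat.pos_of_ne_zero (sv_ne0 hp a2).symm) c) (by omega)
  refine ⟨{0, a, b}, fun x hx => ?_,
    Finset.card_eq_three.2 ⟨_, _, _, sv_ne0 hp a2, sv_ne0 hp b2, ab, rfl⟩, fun r hr hpr => ?_⟩
  · simp only [Finset.mem_insert, Finset.mem_singleton] at hx
    rw [Finset.mem_range]
    omega
  · simp only [Finset.mem_insert, Finset.mem_singleton, not_or]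
    exact ⟨sv_not0 hp hpr (hP r hr).2.1, sv_not hp a2 hA hpr (hP r hr).2.2.1,
      sv_not hp b2 hB hpr (hP r hr).2.2.2⟩

end Vale.Agent.P031
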