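import Vale.Agent.P031.AbA
import Vale.Agent.P031.Sv
import Vale.Agent.P031.Dy

namespace Vale.Agent.P031

open Finset Real Filter

theorem ab_log_le {u : ℕ} {t : ℝ} (ht : 0 < t) (hX : t ≤ XX u) :
    log t ≤ exp (4 * (u : ℝ) ^ 10) := by
  have := Real.log_le_log ht hX
  rwa [XX, Real.log_exp] at this

theorem ab_lab_le {u p : ℕ} (hu : 1 ≤ u) (hp : 2 ≤ p) (hX : (p : ℝ) ≤ XX u) :
    lab u p ≤ 4 * u ^ 2 := by
  have h2 : (2 : ℝ) ≤ p := by exact_mod_cast hp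
  refine lab_le_of_loglog_le hu ?_
  have h1 := Real.log_le_log (Real.log_pos (by linarith)) (ab_log_le (by linarith) hX)
  rw [Real.log_exp] at h1
  refine h1.trans (le_of_eq ?_)
  simp only [hh]
  push_cast
  ring

theorem ab_small {u : ℕ} (hu : 20 ≤ u) {t : ℝ} (ht : 1 ≤ t) (hl : (u : ℝ) ^ 4 ≤ log t)
    (P : Finset ℕ) (hP : ∀ p ∈ P, p.Prime ∧ (p : ℝ) ≤ √t) :
    (P.card : ℝ) ≤ exp (-(u : ℝ) ^ 3) * (t / log t) / 3 := by
  have hu' : (20 : ℝ) ≤ u := by exact_mod_cast hu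
  have h1 : P ⊆ Icc 1 ⌊√t⌋₊ := fun p hp =>
    Finset.mem_Icc.2 ⟨(hP p hp).1.one_le, Nat.le_floor (hP p hp).2⟩
  have h2 := Finset.card_le_card h1
  rw [Nat.card_Icc, add_tsub_cancel_right] at h2
  have h3 : (P.card : ℝ) ≤ √t :=
    le_trans (by exact_mod_cast h2) (Nat.floor_le (Real.sqrt_nonneg t))
  refine h3.trans ?_
  obtain ⟨x, rfl⟩ : ∃ x, t = exp x := ⟨log t, (Real.exp_log (by linarith)).symm⟩
  rw [Real.log_exp] at hl ⊢
  have h4 : (u : ℝ) ^ 4 = u * (u : ℝ) ^ 3 := by ring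
  have h5 : (20 : ℝ) ^ 3 ≤ (u : ℝ) ^ 3 := by gcongr
  have h6 : 20 * (u : ℝ) ^ 3 ≤ x := by nlinarith
  have hx : 0 < x := by linarith
  have h7 : x / 4 ≤ exp (x / 4) := by linarith [Real.add_one_le_exp (x / 4)]
  have h8 : (12 : ℝ) ≤ exp 11 := by linarith [Real.add_one_le_exp (11 : ℝ)]
  have h9 : 3 * x ≤ exp (11 + x / 4) := by
    rw [Real.exp_add]
    calc 3 * x = 12 * (x / 4) := by ring
      _ ≤ _ := mul_le_mul h8 h7 (by linarith) (by positivity)
  rw [← Real.exp_half, mul_div_assoc', div_div, le_div_iff₀ (by positivity), ← Real.exp_add]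
  calc exp (x / 2) * (x * 3) ≤ exp (x / 2) * exp (11 + x / 4) := by
        rw [mul_comm x]
        gcongr
    _ ≤ _ := by
      rw [← Real.exp_add, Real.exp_le_exp]
      linarith

theorem ab_big : ∀ᶠ u : ℕ in atTop, ∀ (t : ℝ) (P : Finset ℕ), 1 < t → t ≤ XX u →
    (∀ p ∈ P, p.Prime ∧ (p : ℝ) ≤ t ∧ 10 * (4 * u ^ 2 + 1) * hh u < Om (p - 1)) →
    (P.card : ℝ) ≤ exp (-(u : ℝ) ^ 3) * (t / log t) / 3 := by
  filter_upwards [bigOm_mass, eventually_ge_atTop 1] with u hb hu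
  intro t P ht hX hP
  have hu' : (1 : ℝ) ≤ u := by exact_mod_cast hu
  have hinj : Set.InjOn (fun p => p - 1) (P : Set ℕ) := by
    intro p hp q hq h
    have := (hP p hp).1.one_le
    have := (hP q hq).1.one_le
    simp only at h
    omega
  rw [← Finset.card_image_of_injOn hinj]
  have h1 := hb (4 * u ^ 2) (P.image fun p => p - 1) fun e he => by
    obtain ⟨p, hp, rfl⟩ := Finset.mem_image.1 he
    obtain ⟨h1, h2, h3⟩ := hP p hp
    have := h1.two_le
    exact ⟨by omega, (labLE_of_le (Nat.sub_le p 1)).mono (ab_lab_le hu this (h2.trans hX)), h3⟩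
  have h2 := card_le_mul_mass (P.image fun p => p - 1) (y := t) fun e he => by
    obtain ⟨p, hp, rfl⟩ := Finset.mem_image.1 he
    obtain ⟨h1, h2, -⟩ := hP p hp
    have := h1.two_le
    exact ⟨by omega, le_trans (by exact_mod_cast Nat.sub_le p 1) h2⟩
  refine h2.trans ((mul_le_mul_of_nonneg_left h1 (by linarith)).trans ?_)
  have hl := Real.log_pos ht
  have h3 := ab_log_le (by linarith) hX
  have h4 : (3 : ℝ) ≤ exp 2 := by linarith [Real.add_one_le_exp (2 : ℝ)]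
  rw [mul_div_assoc', div_div, le_div_iff₀ (by positivity), mul_comm t, mul_right_comm]
  refine mul_le_mul_of_nonneg_right ?_ (by linarith)
  refine (mul_le_mul_of_nonneg_left (mul_le_mul h3 h4 (by norm_num) (by positivity))
    (by positivity)).trans ?_
  rw [← Real.exp_add, ← Real.exp_add, Real.exp_le_exp]
  simp only [hh]
  push_cast
  have h5 : (u : ℝ) ^ 3 ≤ (u : ℝ) ^ 10 := pow_le_pow_right₀ hu' (by norm_num)
  have h6 : (1 : ℝ) ≤ (u : ℝ) ^ 10 := one_le_pow₀ hu'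
  have h7 : (0 : ℝ) ≤ (u : ℝ) ^ 8 := by positivity
  have h8 : 2 * (4 * (u : ℝ) ^ 2 + 1) * (u : ℝ) ^ 8 = 8 * (u : ℝ) ^ 10 + 2 * (u : ℝ) ^ 8 := by ring
  linarith

theorem ab_dev : ∀ᶠ u : ℕ in atTop, ∀ (t : ℝ) (E : Finset ℕ), 3 ≤ t → t ≤ XX u →
    (∀ e ∈ E, 1 ≤ e ∧ ∃ r : ℕ, r.Prime ∧ ((e * r + 1 : ℕ) : ℝ) ≤ t ∧ ¬ Normal u (e * r + 1)) →
    mass E ≤ 10 * (u : ℝ) ^ 2 * (log t * exp (-((u : ℝ) ^ 4 / 10))) := by
  classical
  filter_upwards [dev_up, dev_down, eventually_ge_atTop 1] with u hup hdown hu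
  intro t E ht hX hE
  have hu' : (1 : ℝ) ≤ u := by exact_mod_cast hu
  have hle : ∀ e ∈ E, 1 ≤ e ∧ (e : ℝ) ≤ t := by
    intro e he
    obtain ⟨h1, r, hr, h2, -⟩ := hE e he
    refine ⟨h1, le_trans ?_ h2⟩
    exact_mod_cast (Nat.le_mul_of_pos_right e hr.pos).trans (Nat.le_succ _)
  have hsub : E ⊆ (range (4 * u ^ 2 + 1)).biUnion fun j =>
      (E.filter fun e => hh u + DD u ≤ OmC u j e) ∪
        (E.filter fun e => j < lab u ⌊t⌋₊ ∧ OmC u j e + DD u < hh u) := by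
    intro e he
    obtain ⟨h1, r, hr, h2, h3⟩ := hE e he
    have hm : ∀ j, OmC u j (e * r + 1 - 1) = OmC u j e + OmC u j r := fun j => by
      rw [add_tsub_cancel_right, OmC_mul u j (by omega) hr.ne_zero]
    have hp2 : 2 ≤ e * r + 1 := Nat.succ_le_succ (Nat.mul_pos h1 hr.pos)
    have hlab := ab_lab_le hu hp2 (h2.trans hX)
    unfold Normal at h3
    rw [not_and_or] at h3
    rcases h3 with h3 | h3
    · push Not at h3
      obtain ⟨j, hj⟩ := h3
      have hj1 : j ≤ 4 * u ^ 2 := by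
        by_contra h
        rw [OmC_eq_zero ((labLE_of_le (Nat.sub_le _ 1)).mono hlab) (not_le.1 h)] at hj
        omega
      have := OmC_prime_le u j hr
      rw [hm] at hj
      exact Finset.mem_biUnion.2 ⟨j, Finset.mem_range.2 (by omega),
        Finset.mem_union_left _ (Finset.mem_filter.2 ⟨he, by omega⟩)⟩
    · push Not at h3
      obtain ⟨j, hj, hj'⟩ := h3
      rw [hm] at hj'
      have := lab_mono (u := u) (Nat.le_floor h2)
      exact Finset.mem_biUnion.2 ⟨j, Finset.mem_range.2 (by omega),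
        Finset.mem_union_right _ (Finset.mem_filter.2 ⟨he, by omega, by omega⟩)⟩
  have hpos : 0 ≤ log t * exp (-((u : ℝ) ^ 4 / 10)) :=
    mul_nonneg (Real.log_nonneg (by linarith)) (Real.exp_pos _).le
  refine (mass_mono hsub).trans ((mass_biUnion_le _ _).trans ?_)
  have h1 : ∀ j ∈ range (4 * u ^ 2 + 1), mass ((E.filter fun e => hh u + DD u ≤ OmC u j e) ∪
        (E.filter fun e => j < lab u ⌊t⌋₊ ∧ OmC u j e + DD u < hh u)) ≤
      2 * (log t * exp (-((u : ℝ) ^ 4 / 10))) := by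
    intro j _
    refine (mass_union_le _ _).trans ?_
    have h2 := hup t j (E.filter fun e => hh u + DD u ≤ OmC u j e) ht fun e he => by
      obtain ⟨h1, h2⟩ := Finset.mem_filter.1 he
      exact ⟨(hle e h1).1, (hle e h1).2, h2⟩
    have h3 : mass (E.filter fun e => j < lab u ⌊t⌋₊ ∧ OmC u j e + DD u < hh u) ≤
        log t * exp (-((u : ℝ) ^ 4 / 10)) := by
      by_cases hj : j < lab u ⌊t⌋₊
      · exact hdown t j _ ht hj fun e he => by
          obtain ⟨h1, h2⟩ := Finset.mem_filter.1 he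
          exact ⟨(hle e h1).1, (hle e h1).2, h2.2⟩
      · rw [Finset.filter_eq_empty_iff.2 fun e _ h => hj h.1]
        simpa [mass] using hpos
    linarith
  refine (Finset.sum_le_sum h1).trans ?_
  rw [Finset.sum_const, Finset.card_range, nsmul_eq_mul, ← mul_assoc]
  refine mul_le_mul_of_nonneg_right ?_ hpos
  push_cast
  have : (1 : ℝ) ≤ (u : ℝ) ^ 2 := one_le_pow₀ hu'
  linarith

theorem ab_main : ∀ᶠ u : ℕ in atTop, ∀ (t : ℝ) (P : Finset ℕ), 9 ≤ t → t ≤ XX u →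
    (∀ p ∈ P, p.Prime ∧ (p : ℝ) ≤ t ∧ ¬ Normal u p ∧ √t < p ∧
      Om (p - 1) ≤ 10 * (4 * u ^ 2 + 1) * hh u) →
    (P.card : ℝ) ≤ exp (-(u : ℝ) ^ 3) * (t / log t) / 3 := by
  classical
  filter_upwards [ab_dev, sv2, ev_pow_exp 92 1200000, eventually_ge_atTop 20] with u hdev hsv hexp hu
  intro t P ht hX hP
  have hu' : (20 : ℝ) ≤ u := by exact_mod_cast hu
  have hu1 : (1 : ℝ) ≤ u := by linarith
  have hl : 0 < log t := Real.log_pos (by linarith)
  have hex : ∀ p : ℕ, ∃ e r : ℕ, p ∈ P → 1 ≤ e ∧ r.Prime ∧ e * r + 1 = p ∧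
      log t / (200 * (u : ℝ) ^ 10) ≤ log (r : ℝ) := by
    intro p
    by_cases hp : p ∈ P
    swap
    · exact ⟨0, 0, fun h => absurd h hp⟩
    obtain ⟨h1, h2, -, h4, h5⟩ := hP p hp
    have h6 : (3 : ℝ) ≤ √t := Real.le_sqrt_of_sq_le (by linarith)
    have h7 : 3 < p := by exact_mod_cast h6.trans_lt h4
    obtain ⟨r, hr, ⟨e, he⟩, -, hlog⟩ := exists_top_prime (n := p - 1) (by omega)
    refine ⟨e, r, fun _ => ⟨?_, hr, by rw [mul_comm]; omega, ?_⟩⟩
    · rcases Nat.eq_zero_or_pos e with h | h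
      · subst h
        omega
      · exact h
    have h8 : (Om (p - 1) : ℝ) ≤ 50 * (u : ℝ) ^ 10 := by
      have h9 : (Om (p - 1) : ℝ) ≤ ((10 * (4 * u ^ 2 + 1) * hh u : ℕ) : ℝ) := by exact_mod_cast h5
      refine h9.trans ?_
      simp only [hh]
      push_cast
      have h10 : (u : ℝ) ^ 8 ≤ (u : ℝ) ^ 10 := pow_le_pow_right₀ hu1 (by norm_num)
      have h11 : 10 * (4 * (u : ℝ) ^ 2 + 1) * (u : ℝ) ^ 8 = 40 * (u : ℝ) ^ 10 + 10 * (u : ℝ) ^ 8 := by
        ring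
      linarith
    have h9 : log t ≤ 4 * log ((p - 1 : ℕ) : ℝ) := by
      have h10 : (4 : ℝ) * log ((p - 1 : ℕ) : ℝ) = log (((p - 1 : ℕ) : ℝ) ^ 4) := by
        rw [Real.log_pow]
        norm_num
      rw [h10]
      refine Real.log_le_log (by linarith) ?_
      have h11 : t ≤ (p : ℝ) ^ 2 := by
        have := Real.sq_sqrt (by linarith : (0 : ℝ) ≤ t)
        rw [← this]
        gcongr
      have h12 : p ≤ (p - 1) ^ 2 := by
        obtain ⟨k, rfl⟩ : ∃ k, p = k + 1 := ⟨p - 1, by omega⟩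
        rw [add_tsub_cancel_right]
        nlinarith
      have h13 : (p : ℝ) ≤ ((p - 1 : ℕ) : ℝ) ^ 2 := by exact_mod_cast h12
      calc t ≤ (p : ℝ) ^ 2 := h11
        _ ≤ (((p - 1 : ℕ) : ℝ) ^ 2) ^ 2 := by gcongr
        _ = _ := by ring
    rw [div_le_iff₀ (by positivity)]
    have h10 := mul_le_mul_of_nonneg_right h8 (Real.log_natCast_nonneg r)
    linarith
  choose e r her using hex
  have hfib : ∀ a ∈ P.image e, (((P.filter fun p => e p = a).card : ℕ) : ℝ) ≤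
      40000 * (u : ℝ) ^ 90 * (t / log t ^ 2) * (1 / (a : ℝ)) := by
    intro a ha
    obtain ⟨p₀, hp₀, hpa⟩ := Finset.mem_image.1 ha
    have ha1 : 1 ≤ a := hpa ▸ (her p₀ hp₀).1
    have ha1' : (1 : ℝ) ≤ a := by exact_mod_cast ha1
    have hr : ∀ p ∈ P.filter (fun p => e p = a), (r p : ℝ) ≤ t / a ∧ (r p).Prime ∧
        (a * r p + 1).Prime := by
      intro p hp
      obtain ⟨hp, hpa⟩ := Finset.mem_filter.1 hp
      obtain ⟨-, h1, h2, -⟩ := her p hp
      rw [hpa] at h2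
      refine ⟨?_, h1, by rw [h2]; exact (hP p hp).1⟩
      have h3 := (hP p hp).2.1
      rw [← h2] at h3
      push_cast at h3
      rw [le_div_iff₀ (by linarith)]
      linarith
    have hinj : Set.InjOn r (P.filter fun p => e p = a : Set ℕ) := by
      intro p hp q hq h
      obtain ⟨hp, hpa⟩ := Finset.mem_filter.1 (Finset.mem_coe.1 hp)
      obtain ⟨hq, hqa⟩ := Finset.mem_filter.1 (Finset.mem_coe.1 hq)
      rw [← (her p hp).2.2.1, ← (her q hq).2.2.1, hpa, hqa, h]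
    obtain ⟨h1, h2, -⟩ := hr p₀ (Finset.mem_filter.2 ⟨hp₀, hpa⟩)
    have h3 : (2 : ℝ) ≤ r p₀ := by exact_mod_cast h2.two_le
    have h4 : t / a ≤ t := div_le_self (by linarith) ha1'
    have h5 : (a : ℝ) ≤ t := by
      rw [le_div_iff₀ (by linarith)] at h1
      nlinarith
    have h6 := hsv (t / a) a ((P.filter fun p => e p = a).image r) (h3.trans h1) (h4.trans hX) ha1
      (h5.trans hX) fun x hx => by
        obtain ⟨p, hp, rfl⟩ := Finset.mem_image.1 hx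
        exact hr p hp
    rw [Finset.card_image_of_injOn hinj] at h6
    refine h6.trans ?_
    have h7 : log t / (200 * (u : ℝ) ^ 10) ≤ log (t / a) :=
      (her p₀ hp₀).2.2.2.trans (Real.log_le_log (by linarith) h1)
    have h8 : t / a / log (t / a) ^ 2 ≤ t / a / (log t / (200 * (u : ℝ) ^ 10)) ^ 2 :=
      div_le_div_of_nonneg_left (by positivity) (by positivity)
        (pow_le_pow_left₀ (by positivity) h7 2)
    refine (mul_le_mul_of_nonneg_left h8 (by positivity)).trans (le_of_eq ?_)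
    field_simp
    ring
  have h1 : (P.card : ℝ) = ∑ a ∈ P.image e, (((P.filter fun p => e p = a).card : ℕ) : ℝ) := by
    exact_mod_cast Finset.card_eq_sum_card_image e P
  have h2 := hdev t (P.image e) (by linarith) hX fun a ha => by
    obtain ⟨p, hp, rfl⟩ := Finset.mem_image.1 ha
    obtain ⟨h1, h2, h3, -⟩ := her p hp
    refine ⟨h1, r p, h2, ?_⟩
    rw [h3]
    exact ⟨(hP p hp).2.1, (hP p hp).2.2.1⟩
  rw [h1]
  refine (Finset.sum_le_sum hfib).trans ?_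
  rw [← Finset.mul_sum]
  refine (mul_le_mul_of_nonneg_left h2 (by positivity)).trans ?_
  have h3 : exp u * exp (-((u : ℝ) ^ 4 / 10)) ≤ exp (-(u : ℝ) ^ 3) := by
    rw [← Real.exp_add, Real.exp_le_exp]
    have h4 : (u : ℝ) ≤ (u : ℝ) ^ 3 := le_self_pow₀ hu1 (by norm_num)
    have h5 : 20 * (u : ℝ) ^ 3 ≤ u * (u : ℝ) ^ 3 := by gcongr
    have h6 : (u : ℝ) ^ 4 = u * (u : ℝ) ^ 3 := by ring
    linarith
  have h4 := (mul_le_mul_of_nonneg_right hexp (Real.exp_pos (-((u : ℝ) ^ 4 / 10))).le).trans h3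
  have h5 : 0 ≤ t / log t / 3 := by positivity
  calc _ = 1200000 * (u : ℝ) ^ 92 * exp (-((u : ℝ) ^ 4 / 10)) * (t / log t / 3) := by
        field_simp
        ring
    _ ≤ exp (-(u : ℝ) ^ 3) * (t / log t / 3) := mul_le_mul_of_nonneg_right h4 h5
    _ = _ := by ring

/-- Abnormal primes are rare. -/
theorem ab_count : ∀ᶠ u : ℕ in atTop, ∀ (t : ℝ) (P : Finset ℕ), 1 ≤ t → (u : ℝ) ^ 4 ≤ log t →
    t ≤ XX u → (∀ p ∈ P, p.Prime ∧ (p : ℝ) ≤ t ∧ ¬ Normal u p) →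
    (P.card : ℝ) ≤ exp (-(u : ℝ) ^ 3) * (t / log t) := by
  classical
  filter_upwards [ab_big, ab_main, eventually_ge_atTop 20] with u hbig hmain hu
  intro t P ht hl hX hP
  have hu' : (20 : ℝ) ≤ u := by exact_mod_cast hu
  have ht9 : 9 ≤ t := by
    have h1 : (20 : ℝ) ^ 4 ≤ (u : ℝ) ^ 4 := by gcongr
    linarith [Real.log_le_sub_one_of_pos (by linarith : 0 < t)]
  have h1 := ab_small hu ht hl (P.filter fun p : ℕ => (p : ℝ) ≤ √t) fun p hp => by
    obtain ⟨hp, h⟩ := Finset.mem_filter.1 hp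
    exact ⟨(hP p hp).1, h⟩
  have h2 := hbig t ((P.filter fun p : ℕ => ¬ (p : ℝ) ≤ √t).filter fun p =>
      10 * (4 * u ^ 2 + 1) * hh u < Om (p - 1)) (by linarith) hX fun p hp => by
    obtain ⟨hp, h⟩ := Finset.mem_filter.1 hp
    obtain ⟨hp, -⟩ := Finset.mem_filter.1 hp
    exact ⟨(hP p hp).1, (hP p hp).2.1, h⟩
  have h3 := hmain t ((P.filter fun p : ℕ => ¬ (p : ℝ) ≤ √t).filter fun p =>
      ¬ 10 * (4 * u ^ 2 + 1) * hh u < Om (p - 1)) ht9 hX fun p hp => by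
    obtain ⟨hp, h⟩ := Finset.mem_filter.1 hp
    obtain ⟨hp, h'⟩ := Finset.mem_filter.1 hp
    exact ⟨(hP p hp).1, (hP p hp).2.1, (hP p hp).2.2, not_le.1 h', not_lt.1 h⟩
  have h4 := Finset.card_filter_add_card_filter_not (s := P) (fun p : ℕ => (p : ℝ) ≤ √t)
  have h5 := Finset.card_filter_add_card_filter_not (s := P.filter fun p : ℕ => ¬ (p : ℝ) ≤ √t)
    (fun p => 10 * (4 * u ^ 2 + 1) * hh u < Om (p - 1))
  rw [← h4, ← h5]
  push_cast
  linarith

theorem ab_mass : ∀ᶠ u : ℕ in atTop, ∀ P : Finset ℕ,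
    (∀ p ∈ P, p.Prime ∧ 1 ≤ lab u p ∧ lab u p ≤ KK u ∧ ¬ Normal u p) →
    ∑ p ∈ P, 1 / ((p - 1 : ℕ) : ℝ) ≤ exp (-(2 * (u : ℝ) ^ 2)) := by
  filter_upwards [ab_count, ev_pow_exp 10 80, eventually_ge_atTop 3] with u hc hexp hu
  intro P hP
  have hu' : (3 : ℝ) ≤ u := by exact_mod_cast hu
  have hu1 : (1 : ℝ) ≤ u := by linarith
  have hpow : ∀ p ∈ P, (2 : ℝ) ^ Nat.log 2 p ≤ p ∧ (p : ℝ) ≤ (2 : ℝ) ^ (Nat.log 2 p + 1) := by
    intro p hp
    exact ⟨by exact_mod_cast Nat.pow_log_le_self 2 (hP p hp).1.ne_zero,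
      by exact_mod_cast (Nat.lt_pow_succ_log_self (by norm_num) p).le⟩
  have h1 := dyadic P (fun p => p) (fun p hp => (hP p hp).1.one_le) (exp (-(u : ℝ) ^ 3)) 1
    fun i hi => by
      obtain ⟨p, hp, rfl⟩ := hi
      obtain ⟨h1, h2, h3, -⟩ := hP p hp
      rw [pow_one]
      refine hc _ _ (one_le_pow₀ (by norm_num)) ?_ ?_ fun q hq => ?_
      · have h4 := exp_le_log_of_le_lab (u := u) (p := p) (j := 1) (by omega) le_rfl h2
        have h5 := Real.log_le_log (by exact_mod_cast h1.pos) (hpow p hp).2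
        have h6 := Real.add_one_le_exp (((1 : ℕ) : ℝ) * hh u)
        have h7 : (u : ℝ) ^ 4 ≤ ((1 : ℕ) : ℝ) * hh u := by
          simp only [hh]
          push_cast
          rw [one_mul]
          exact pow_le_pow_right₀ hu1 (by norm_num)
        linarith
      · have h4 := two_mul_le_XX (by omega) h3
        rw [pow_succ]
        linarith [(hpow p hp).1]
      · obtain ⟨hq, hqp⟩ := Finset.mem_filter.1 hq
        exact ⟨(hP q hq).1, hqp ▸ (hpow q hq).2, (hP q hq).2.2.2⟩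
  have h10 : (1 : ℝ) ≤ (u : ℝ) ^ 10 := one_le_pow₀ hu1
  have hX3 : 3 ≤ XX u := by
    unfold XX
    linarith [Real.add_one_le_exp (exp (4 * (u : ℝ) ^ 10)), Real.add_one_le_exp (4 * (u : ℝ) ^ 10)]
  have h2 := dy_one (P.image fun p => Nat.log 2 p) hX3 fun i hi => by
    obtain ⟨p, hp, rfl⟩ := Finset.mem_image.1 hi
    have h4 := two_mul_le_XX (by omega) (hP p hp).2.2.1
    have : (0 : ℝ) ≤ p := by positivity
    linarith [(hpow p hp).1]
  rw [XX, Real.log_exp, Real.log_exp] at h2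
  have h3 : ∑ p ∈ P, 1 / ((p - 1 : ℕ) : ℝ) ≤ 2 * ∑ p ∈ P, 1 / (p : ℝ) := by
    rw [Finset.mul_sum]
    refine Finset.sum_le_sum fun p hp => ?_
    have h4 := (hP p hp).1.two_le
    have h5 : (2 : ℝ) ≤ p := by exact_mod_cast h4
    rw [Nat.cast_sub (by omega), mul_one_div, div_le_div_iff₀ (by push_cast; linarith) (by linarith)]
    push_cast
    linarith
  have h4 := h1.trans (mul_le_mul_of_nonneg_left h2 (by positivity))
  have h5 : exp (-(u : ℝ) ^ 3) * exp u ≤ exp (-(2 * (u : ℝ) ^ 2)) := by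
    rw [← Real.exp_add, Real.exp_le_exp]
    have h6 : (u : ℝ) ≤ (u : ℝ) ^ 2 := le_self_pow₀ hu1 (by norm_num)
    have h7 : 3 * (u : ℝ) ^ 2 ≤ u * (u : ℝ) ^ 2 := by gcongr
    have h8 : (u : ℝ) ^ 3 = u * (u : ℝ) ^ 2 := by ring
    linarith
  have h6 : 16 * (1 + 4 * (u : ℝ) ^ 10) ≤ exp u := by linarith
  have h7 := mul_le_mul_of_nonneg_left h6 (Real.exp_pos (-(u : ℝ) ^ 3)).le
  linarith

end Vale.Agent.P031
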