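import Vale.Agent.P031.Rank

namespace Vale.Agent.P031

open Finset Real Filter

theorem aba_wt (u j : ℕ) (a : ℝ) (n : ℕ) :
    wt (fun q => if lab u q = j then a else 1) n = a ^ OmC u j n := by
  unfold wt OmC
  induction n.primeFactorsList with
  | nil => simp
  | cons q l ih =>
    rw [List.map_cons, List.prod_cons, ih, List.countP_cons]
    by_cases h : lab u q = j
    · simp [h, pow_succ, mul_comm]
    · simp [h]

theorem aba_exp_le {θ : ℝ} (h : |θ| ≤ 1 / 2) : exp (θ - 2 * θ ^ 2) ≤ 1 + θ := by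
  obtain ⟨h1, h2⟩ := abs_le.1 h
  have h0 : 0 < 1 + θ := by linarith
  rw [← Real.le_log_iff_exp_le h0]
  refine le_trans ?_ (Real.one_sub_inv_le_log_of_pos h0)
  have : 1 - (1 + θ)⁻¹ = θ / (1 + θ) := by field_simp; ring
  rw [this, le_div_iff₀ h0]
  nlinarith [sq_nonneg θ]

theorem aba_main {C : ℝ} (hC : ∀ t : ℝ, 2 ≤ t →
    |∑ p ∈ Nat.primesLE ⌊t⌋₊, 1 / (p : ℝ) - log (log t)| ≤ C) (u j : ℕ) {θ t b : ℝ}
    (hθ : |θ| ≤ 1 / 2) (ht : 3 ≤ t) (S : Finset ℕ)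
    (hS : ∀ e ∈ S, 1 ≤ e ∧ (e : ℝ) ≤ t ∧ b ≤ (OmC u j e : ℝ) * (θ - 2 * θ ^ 2)) :
    mass S ≤ log t * exp (C + 9 +
      θ * ∑ p ∈ (Nat.primesLE ⌊t⌋₊).filter (fun p => lab u p = j), 1 / (p : ℝ) - b) := by
  obtain ⟨h1, h2⟩ := abs_le.1 hθ
  have hP : ∀ p ∈ Nat.primesLE ⌊t⌋₊, p.Prime := fun p hp => Nat.prime_of_mem_primesLE hp
  have hf : ∀ q : ℕ, 0 ≤ (if lab u q = j then 1 + θ else 1) ∧
      (if lab u q = j then 1 + θ else 1) ≤ (3 / 2 : ℝ) := fun q => by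
    split_ifs <;> constructor <;> linarith
  have h := rankin (Nat.primesLE ⌊t⌋₊) hP (fun q => if lab u q = j then 1 + θ else 1)
    (fun p hp => ⟨(hf p).1, by
      have : (2 : ℝ) ≤ p := by exact_mod_cast (hP p hp).two_le
      linarith [(hf p).2]⟩) S fun n hn => ⟨(hS n hn).1, fun q hq => by
      rw [Nat.mem_primesLE]
      refine ⟨Nat.le_floor ?_, Nat.prime_of_mem_primeFactors hq⟩
      have : (q : ℝ) ≤ n := by exact_mod_cast Nat.le_of_mem_primeFactors hq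
      linarith [(hS n hn).2.1]⟩
  have h3 : exp b * mass S ≤
      ∑ n ∈ S, wt (fun q => if lab u q = j then 1 + θ else 1) n / n := by
    rw [mass, mul_sum]
    refine sum_le_sum fun n hn => ?_
    rw [mul_one_div, aba_wt]
    refine div_le_div_of_nonneg_right ?_ (Nat.cast_nonneg n)
    refine (exp_le_exp.2 (hS n hn).2.2).trans ?_
    rw [exp_nat_mul]
    exact pow_le_pow_left₀ (exp_pos _).le (aba_exp_le hθ) _
  have h4 := h3.trans h
  rw [← le_div_iff₀' (exp_pos _), ← exp_sub] at h4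
  refine h4.trans ?_
  have hl : 0 < log t := by linarith [one_lt_log ht]
  rw [← exp_log hl, ← exp_add, exp_le_exp, sum_add_distrib]
  have h5 : ∑ p ∈ Nat.primesLE ⌊t⌋₊, (if lab u p = j then 1 + θ else 1) / (p : ℝ) =
      ∑ p ∈ Nat.primesLE ⌊t⌋₊, 1 / (p : ℝ) +
        θ * ∑ p ∈ (Nat.primesLE ⌊t⌋₊).filter (fun p => lab u p = j), 1 / (p : ℝ) := by
    rw [sum_filter, mul_sum, ← sum_add_distrib]
    refine sum_congr rfl fun p _ => ?_
    split_ifs <;> ring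
  have h6 : ∑ p ∈ Nat.primesLE ⌊t⌋₊, 4 * ((if lab u p = j then 1 + θ else 1) / (p : ℝ)) ^ 2
      ≤ 9 := by
    refine le_trans (sum_le_sum (g := fun p : ℕ => 9 * (1 / (p : ℝ) ^ 2)) fun p hp => ?_) ?_
    · rw [div_pow, mul_one_div, ← mul_div_assoc]
      refine div_le_div_of_nonneg_right ?_ (by positivity)
      nlinarith [(hf p).1, (hf p).2]
    · rw [← mul_sum]
      linarith [sum_inv_sq_le (Nat.primesLE ⌊t⌋₊) fun p hp => (hP p hp).two_le]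
  have h7 := (abs_le.1 (hC t (by linarith))).2
  rw [h5]
  linarith

theorem aba_num {C : ℝ} {u : ℝ} (hu : 3 ≤ u) (hC : C + 10 ≤ u) :
    C + 9 + 1 / (4 * u ^ 2) * u - 1 / (4 * u ^ 2) * u ^ 6 +
      2 * (1 / (4 * u ^ 2)) ^ 2 * (u ^ 8 + u ^ 6) ≤ -(u ^ 4 / 10) + (2 * u ^ 2 - u ^ 4 / 40) := by
  have hu0 : 0 < u := by linarith
  have e1 : 1 / (4 * u ^ 2) * u = 1 / (4 * u) := by field_simp
  have e2 : 1 / (4 * u ^ 2) * u ^ 6 = u ^ 4 / 4 := by field_simp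
  have e3 : 2 * (1 / (4 * u ^ 2)) ^ 2 * (u ^ 8 + u ^ 6) = u ^ 4 / 8 + u ^ 2 / 8 := by
    field_simp
    ring
  have e4 : 1 / (4 * u) ≤ 1 := by
    rw [div_le_one (by positivity)]
    linarith
  rw [e1, e2, e3]
  nlinarith

theorem aba_theta {u : ℝ} (hu : 3 ≤ u) : 1 / (4 * u ^ 2) ≤ 1 / 2 :=
  one_div_le_one_div_of_le (by norm_num) (by nlinarith)

theorem aba_last {u : ℝ} (hu : 10 ≤ u) : 2 * u ^ 2 - u ^ 4 / 40 ≤ 0 := by
  have : 100 ≤ u ^ 2 := by nlinarith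
  nlinarith

theorem dev_up : ∀ᶠ u : ℕ in atTop, ∀ (t : ℝ) (j : ℕ) (S : Finset ℕ), 3 ≤ t →
    (∀ e ∈ S, 1 ≤ e ∧ (e : ℝ) ≤ t ∧ hh u + DD u ≤ OmC u j e) →
    mass S ≤ log t * exp (-((u : ℝ) ^ 4 / 10)) := by
  obtain ⟨C, hC⟩ := mertens
  filter_upwards [cells_sum, eventually_ge_atTop 10,
    tendsto_natCast_atTop_atTop.eventually_ge_atTop (C + 10)] with u hc hu hu2 t j S ht hS
  have hu' : (10 : ℝ) ≤ u := by exact_mod_cast hu
  have hu1 : 1 ≤ u := by omega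
  set θ : ℝ := 1 / (4 * (u : ℝ) ^ 2) with hθ
  have hθ0 : 0 < θ := by positivity
  have hθ1 : θ ≤ 1 / 2 := aba_theta (by linarith)
  have h := aba_main hC u j (θ := θ) (b := ((hh u : ℝ) + DD u) * (θ - 2 * θ ^ 2))
    (by rw [abs_of_pos hθ0]; exact hθ1) ht S fun e he => ⟨(hS e he).1, (hS e he).2.1, by
      refine mul_le_mul_of_nonneg_right ?_ (by nlinarith)
      exact_mod_cast (hS e he).2.2⟩
  refine h.trans (mul_le_mul_of_nonneg_left (exp_le_exp.2 ?_) (by linarith [one_lt_log ht]))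
  have h1 : ∑ p ∈ (Nat.primesLE ⌊t⌋₊).filter (fun p => lab u p = j), 1 / (p : ℝ) ≤
      ∑ p ∈ cells u j (j + 1), 1 / (p : ℝ) := by
    refine sum_le_sum_of_subset_of_nonneg (fun p hp => ?_) fun _ _ _ => by positivity
    rw [mem_filter] at hp
    rw [mem_cells hu1]
    exact ⟨Nat.prime_of_mem_primesLE hp.1, by omega, by omega⟩
  have h2 := (abs_le.1 (hc j (j + 1) (Nat.le_succ j))).2
  push_cast at h2
  have h3 : θ * ∑ p ∈ (Nat.primesLE ⌊t⌋₊).filter (fun p => lab u p = j), 1 / (p : ℝ) ≤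
      θ * ((hh u : ℝ) + u) := mul_le_mul_of_nonneg_left (by linarith) hθ0.le
  have h4 := aba_num (C := C) (u := (u : ℝ)) (by linarith) hu2
  have h5 := aba_last hu'
  rw [← hθ] at h4
  simp only [hh, DD] at h3 ⊢
  push_cast at h3 ⊢
  nlinarith

theorem dev_down : ∀ᶠ u : ℕ in atTop, ∀ (t : ℝ) (j : ℕ) (S : Finset ℕ), 3 ≤ t →
    j < lab u ⌊t⌋₊ → (∀ e ∈ S, 1 ≤ e ∧ (e : ℝ) ≤ t ∧ OmC u j e + DD u < hh u) →
    mass S ≤ log t * exp (-((u : ℝ) ^ 4 / 10)) := by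
  obtain ⟨C, hC⟩ := mertens
  filter_upwards [cells_sum, eventually_ge_atTop 10,
    tendsto_natCast_atTop_atTop.eventually_ge_atTop (C + 10)] with u hc hu hu2 t j S ht hj hS
  have hu' : (10 : ℝ) ≤ u := by exact_mod_cast hu
  have hu1 : 1 ≤ u := by omega
  set θ : ℝ := 1 / (4 * (u : ℝ) ^ 2) with hθ
  have hθ0 : 0 < θ := by positivity
  have hθ1 : θ ≤ 1 / 2 := aba_theta (by linarith)
  have h := aba_main hC u j (θ := -θ) (b := ((hh u : ℝ) - DD u) * (-θ - 2 * (-θ) ^ 2))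
    (by rw [abs_neg, abs_of_pos hθ0]; exact hθ1) ht S fun e he => ⟨(hS e he).1, (hS e he).2.1, by
      refine mul_le_mul_of_nonpos_right ?_ (by nlinarith)
      have : ((OmC u j e + DD u : ℕ) : ℝ) ≤ hh u := by exact_mod_cast (hS e he).2.2.le
      push_cast at this
      linarith⟩
  refine h.trans (mul_le_mul_of_nonneg_left (exp_le_exp.2 ?_) (by linarith [one_lt_log ht]))
  have h1 : ∑ p ∈ cells u j (j + 1), 1 / (p : ℝ) ≤
      ∑ p ∈ (Nat.primesLE ⌊t⌋₊).filter (fun p => lab u p = j), 1 / (p : ℝ) := by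
    refine sum_le_sum_of_subset_of_nonneg (fun p hp => ?_) fun _ _ _ => by positivity
    rw [mem_cells hu1] at hp
    rw [mem_filter, Nat.mem_primesLE]
    refine ⟨⟨?_, hp.1⟩, by omega⟩
    by_contra hlt
    have := lab_mono (u := u) (not_le.1 hlt).le
    omega
  have h2 := (abs_le.1 (hc j (j + 1) (Nat.le_succ j))).1
  push_cast at h2
  have h3 : θ * ((hh u : ℝ) - u) ≤
      θ * ∑ p ∈ (Nat.primesLE ⌊t⌋₊).filter (fun p => lab u p = j), 1 / (p : ℝ) :=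
    mul_le_mul_of_nonneg_left (by linarith) hθ0.le
  have h4 := aba_num (C := C) (u := (u : ℝ)) (by linarith) hu2
  have h5 := aba_last hu'
  rw [← hθ] at h4
  have h6 : 0 ≤ θ ^ 2 * (u : ℝ) ^ 6 := by positivity
  simp only [hh, DD] at h3 ⊢
  push_cast at h3 ⊢
  nlinarith

end Vale.Agent.P031
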