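import Vale.Agent.P031.Defs

namespace Vale.Agent.P031

open Finset Real Filter

theorem abs_boundary (A : ℕ → ℝ → ℝ) (k : ℕ) (hk : 1 ≤ k) (C E s ρ Γ : ℝ) (hC : 1 ≤ C)
    (hE : 0 < E) (hρ : 12 * C ^ 2 ≤ ρ) (hΓ : 0 ≤ Γ) (h1 : ρ ^ k * E ≤ s / 5)
    (h2 : 8 * k * C * E ≤ s) (pos : ∀ j a, 0 ≤ A j a) (mono : ∀ j, Monotone (A j))
    (up : ∀ j < k, ∀ a b, 0 ≤ a → a ≤ b →
      A j b - A j a ≤ C * (b - a + E) * A (j + 1) (b + C * E))
    (low : ∀ j < k, ∀ a W, 0 ≤ a → 0 ≤ W → a + C * (W + E) ≤ s →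
      W * A (j + 1) a ≤ A j (a + C * (W + E)))
    (dbl : A k (6 * s / 5) ≤ Γ * A k (s / 2)) :
    A 0 (s + E) - A 0 (s - E) ≤
      (12 * C ^ 2 / ρ + Γ * (24 * k * C ^ 2 * ρ ^ k * E / s) ^ k) * A 0 (s - E) := by
  have hC0 : 0 < C := by linarith
  have hC2 : C ≤ C ^ 2 := by nlinarith
  have hρ1 : 1 ≤ ρ := by linarith
  have hρ0 : 0 < ρ := by linarith
  have hk' : (1 : ℝ) ≤ k := by exact_mod_cast hk
  have hpow : ∀ j, 1 ≤ ρ ^ j := fun j => one_le_pow₀ hρ1
  have hs : 0 < s := lt_of_lt_of_le (by positivity) h2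
  have hle : ∀ j ≤ k, ρ ^ j * E ≤ s / 5 := fun j hj =>
    le_trans (mul_le_mul_of_nonneg_right (pow_le_pow_right₀ hρ1 hj) hE.le) h1
  set Lo : ℕ → ℝ := fun j => A j (s - ρ ^ j * E) with hLo
  set Hi : ℕ → ℝ := fun j => A j (s + ρ ^ j * E) with hHi
  set θ : ℝ := 6 * C ^ 2 / ρ with hθ
  have hθ0 : 0 ≤ θ := by positivity
  have hθ1 : θ ≤ 1 / 2 := by
    rw [hθ, div_le_iff₀ hρ0]
    linarith
  -- upper step
  have hup : ∀ j < k, Hi j - Lo j ≤ 3 * C * ρ ^ j * E * Hi (j + 1) := by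
    intro j hj
    have h3 := hle j hj.le
    have h4 := hpow j
    have h5 := up j hj (s - ρ ^ j * E) (s + ρ ^ j * E) (by linarith) (by nlinarith)
    have h6 : A (j + 1) (s + ρ ^ j * E + C * E) ≤ Hi (j + 1) := by
      apply mono
      have : ρ ^ j + C ≤ ρ ^ (j + 1) := by
        rw [pow_succ]
        nlinarith
      nlinarith
    refine h5.trans (mul_le_mul ?_ h6 (pos _ _) (by positivity))
    have : C * (s + ρ ^ j * E - (s - ρ ^ j * E) + E) = C * E * (2 * ρ ^ j + 1) := by ring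
    rw [this]
    have h7 : 0 < C * E := by positivity
    nlinarith
  -- lower step
  have hlow : ∀ j < k, 3 * C * ρ ^ j * E * Lo (j + 1) ≤ θ * Lo j := by
    intro j hj
    have h3 := hle (j + 1) hj
    have h4 := hpow j
    set W := ((ρ ^ (j + 1) - ρ ^ j) / C - 1) * E with hW
    have hW1 : ρ ^ (j + 1) * E / (2 * C) ≤ W := by
      rw [hW, div_le_iff₀ (by positivity)]
      have e : ((ρ ^ (j + 1) - ρ ^ j) / C - 1) * E * (2 * C) =
          (2 * (ρ ^ (j + 1) - ρ ^ j) - 2 * C) * E := by field_simp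
      rw [e]
      apply mul_le_mul_of_nonneg_right _ hE.le
      rw [pow_succ]
      nlinarith
    have hW0 : 0 ≤ W := le_trans (by positivity) hW1
    have e2 : s - ρ ^ (j + 1) * E + C * (W + E) = s - ρ ^ j * E := by
      rw [hW]
      field_simp
      ring
    have h5 := low j hj (s - ρ ^ (j + 1) * E) W (by linarith) hW0 (by
      rw [e2]
      nlinarith)
    rw [e2] at h5
    have h6 : ρ ^ (j + 1) * E / (2 * C) * Lo (j + 1) ≤ Lo j :=
      le_trans (mul_le_mul_of_nonneg_right hW1 (pos _ _)) h5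
    have e3 : 3 * C * ρ ^ j * E * Lo (j + 1) = θ * (ρ ^ (j + 1) * E / (2 * C) * Lo (j + 1)) := by
      rw [hθ, pow_succ]
      field_simp
      ring
    rw [e3]
    exact mul_le_mul_of_nonneg_left h6 hθ0
  set P : ℕ → ℝ := fun j => ∏ i ∈ range j, (3 * C * ρ ^ i * E) with hP
  have hP0 : ∀ j, 0 ≤ P j := fun j => prod_nonneg fun i _ => by positivity
  have hPs : ∀ j, P (j + 1) = P j * (3 * C * ρ ^ j * E) := fun j => prod_range_succ _ _
  have hPL : ∀ j ≤ k, P j * Lo j ≤ θ ^ j * Lo 0 := by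
    intro j hj
    induction j with
    | zero => simp [hP]
    | succ j ih =>
      have h3 := ih (by omega)
      have h4 := mul_le_mul_of_nonneg_left (hlow j (by omega)) (hP0 j)
      rw [hPs, pow_succ]
      have h5 := mul_le_mul_of_nonneg_left h3 hθ0
      nlinarith
  have hLo0 : 0 ≤ Lo 0 := pos _ _
  have hmain : ∀ j ≤ k, Hi 0 - Lo 0 ≤ 2 * θ * (1 - (1 / 2) ^ j) * Lo 0 + P j * (Hi j - Lo j) := by
    intro j hj
    induction j with
    | zero => simp [hP]
    | succ j ih =>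
      have h3 := ih (by omega)
      have h4 := mul_le_mul_of_nonneg_left (hup j (by omega)) (hP0 j)
      have h5 := hPL (j + 1) hj
      have h6 : θ ^ (j + 1) ≤ θ * (1 / 2) ^ j := by
        rw [pow_succ, mul_comm]
        exact mul_le_mul_of_nonneg_left (pow_le_pow_left₀ hθ0 hθ1 j) hθ0
      have h7 := mul_le_mul_of_nonneg_right h6 hLo0
      rw [hPs] at h5 ⊢
      have e : 2 * θ * (1 - (1 / 2) ^ (j + 1)) * Lo 0 =
          2 * θ * (1 - (1 / 2) ^ j) * Lo 0 + θ * (1 / 2) ^ j * Lo 0 := by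
        rw [pow_succ]
        ring
      rw [e]
      nlinarith
  -- the second chain
  set W := s / (4 * k * C) - E with hW
  have hW1 : s / (8 * k * C) ≤ W := by
    have h3 : E ≤ s / (8 * k * C) := by
      rw [le_div_iff₀ (by positivity)]
      linarith
    have e : s / (4 * k * C) = 2 * (s / (8 * k * C)) := by
      field_simp
      ring
    linarith
  have hchain : ∀ i ≤ k, (s / (8 * k * C)) ^ i * A k (s / 2) ≤
      A (k - i) (s / 2 + i * (s / (4 * k))) := by
    intro i hi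
    induction i with
    | zero => simp
    | succ i ih =>
      have h3 := ih (by omega)
      have e2 : s / 2 + i * (s / (4 * k)) + C * (W + E) =
          s / 2 + ((i + 1 : ℕ) : ℝ) * (s / (4 * k)) := by
        rw [hW]
        push_cast
        field_simp
        ring
      have hi' : ((i + 1 : ℕ) : ℝ) ≤ k := by exact_mod_cast hi
      have h4 := low (k - (i + 1)) (by omega) (s / 2 + i * (s / (4 * k))) W (by positivity)
        (le_trans (by positivity) hW1) (by
          rw [e2]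
          have : ((i + 1 : ℕ) : ℝ) * (s / (4 * k)) ≤ k * (s / (4 * k)) := by gcongr
          have e : (k : ℝ) * (s / (4 * k)) = s / 4 := by field_simp
          linarith)
      rw [e2, show k - (i + 1) + 1 = k - i by omega] at h4
      refine le_trans ?_ h4
      rw [pow_succ, mul_comm _ (s / (8 * k * C)), mul_assoc]
      exact mul_le_mul hW1 h3 (mul_nonneg (by positivity) (pos _ _)) (le_trans (by positivity) hW1)
  have hE8 : E ≤ s / 8 := by
    have : 1 ≤ (k : ℝ) * C := by nlinarith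
    nlinarith
  have hc2 : (s / (8 * k * C)) ^ k * A k (s / 2) ≤ Lo 0 := by
    have h3 := hchain k le_rfl
    rw [Nat.sub_self] at h3
    refine h3.trans (mono 0 ?_)
    have e : (k : ℝ) * (s / (4 * k)) = s / 4 := by field_simp
    rw [e, pow_zero]
    linarith
  have hPk : P k ≤ (3 * C * ρ ^ k * E) ^ k := by
    have := prod_le_prod (s := range k) (f := fun i => 3 * C * ρ ^ i * E)
      (g := fun _ => 3 * C * ρ ^ k * E) (fun i _ => by positivity) (fun i hi => by
        have := pow_le_pow_right₀ hρ1 (mem_range.1 hi).le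
        gcongr)
    simpa using this
  have hBk : Hi k - Lo k ≤ Γ * A k (s / 2) := by
    have h3 : Hi k ≤ A k (6 * s / 5) := mono k (by linarith)
    have h4 : 0 ≤ Lo k := pos _ _
    linarith
  have hfin : P k * (Hi k - Lo k) ≤ Γ * (24 * k * C ^ 2 * ρ ^ k * E / s) ^ k * Lo 0 := by
    have e : (3 * C * ρ ^ k * E) ^ k =
        (24 * k * C ^ 2 * ρ ^ k * E / s) ^ k * (s / (8 * k * C)) ^ k := by
      rw [← mul_pow]
      congr 1
      field_simp
      ring
    calc P k * (Hi k - Lo k) ≤ P k * (Γ * A k (s / 2)) := mul_le_mul_of_nonneg_left hBk (hP0 k)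
      _ ≤ (3 * C * ρ ^ k * E) ^ k * (Γ * A k (s / 2)) :=
          mul_le_mul_of_nonneg_right hPk (mul_nonneg hΓ (pos _ _))
      _ = Γ * (24 * k * C ^ 2 * ρ ^ k * E / s) ^ k * ((s / (8 * k * C)) ^ k * A k (s / 2)) := by
          rw [e]
          ring
      _ ≤ _ := mul_le_mul_of_nonneg_left hc2 (by positivity)
  have h3 := hmain k le_rfl
  have h4 : 2 * θ * (1 - (1 / 2) ^ k) * Lo 0 ≤ 12 * C ^ 2 / ρ * Lo 0 := by
    apply mul_le_mul_of_nonneg_right _ hLo0
    have e : 12 * C ^ 2 / ρ = 2 * θ := by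
      rw [hθ]
      ring
    rw [e]
    have : (0 : ℝ) ≤ (1 / 2) ^ k := by positivity
    nlinarith
  have e1 : Hi 0 = A 0 (s + E) := by simp [hHi]
  have e2 : Lo 0 = A 0 (s - E) := by simp [hLo]
  rw [← e1, ← e2]
  linarith

end Vale.Agent.P031
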