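import Vale.Agent.P031.Defs
import Vale.Agent.Lib.Sieve.Count

namespace Vale.Agent.P031

open Finset Real Filter

namespace BrunA

variable {ι : Type*}

/-- elementary symmetric function -/
noncomputable def es (P : Finset ι) (x : ι → ℝ) (k : ℕ) : ℝ :=
  ∑ D ∈ P.powersetCard k, ∏ p ∈ D, x p

theorem es_zero (P : Finset ι) (x : ι → ℝ) : es P x 0 = 1 := by simp [es]

theorem es_empty (x : ι → ℝ) (k : ℕ) : es ∅ x (k + 1) = 0 := by
  rw [es, powersetCard_eq_empty.2 (by simp), sum_empty]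

theorem es_insert [DecidableEq ι] {P : Finset ι} {a : ι} (h : a ∉ P) (x : ι → ℝ) (k : ℕ) :
    es (insert a P) x (k + 1) = es P x (k + 1) + x a * es P x k := by
  have hn : ∀ D ∈ P.powersetCard k, a ∉ D := fun D hD ha => h ((mem_powersetCard.1 hD).1 ha)
  rw [es, powersetCard_succ_insert h, sum_union, sum_image, es, es, mul_sum]
  · congr 1
    exact sum_congr rfl fun D hD => prod_insert (hn D hD)
  · intro D hD D' hD' e
    rw [← erase_insert (hn D hD), e, erase_insert (hn D' hD')]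
  · rw [disjoint_left]
    intro D hD hD'
    obtain ⟨D', -, rfl⟩ := mem_image.1 hD'
    exact h ((mem_powersetCard.1 hD).1 (mem_insert_self _ _))

theorem es_le (P : Finset ι) (x : ι → ℝ) (hx : ∀ p ∈ P, 0 ≤ x p) (k : ℕ) :
    es P x k ≤ (∑ p ∈ P, x p) ^ k / k.factorial := by
  classical
  induction P using Finset.induction_on generalizing k with
  | empty => cases k <;> simp [es_zero, es_empty]
  | insert a P ha ih =>
    have h1 : ∀ p ∈ P, 0 ≤ x p := fun p hp => hx p (mem_insert_of_mem hp)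
    have h2 := hx a (mem_insert_self _ _)
    have h3 : 0 ≤ ∑ p ∈ P, x p := sum_nonneg h1
    rcases k with _ | k
    · simp [es_zero]
    have h4 := pow_add_mul_le_add_pow h3 (by linarith : 0 ≤ 2 * ∑ p ∈ P, x p + x a) (k + 1)
    have h5 : (0 : ℝ) < k.factorial := by positivity
    rw [es_insert ha, sum_insert ha, add_comm (x a)]
    refine (add_le_add (ih h1 _) (mul_le_mul_of_nonneg_left (ih h1 k) h2)).trans ?_
    refine le_trans (le_of_eq ?_) (div_le_div_of_nonneg_right h4 (by positivity))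
    rw [Nat.factorial_succ, Nat.add_sub_cancel]
    push_cast
    field_simp

theorem sum_es_le (P : Finset ι) (x : ι → ℝ) (hx : ∀ p ∈ P, 0 ≤ x p) (L : ℕ) :
    ∑ i ∈ range (L + 1), es P x i ≤ (1 + ∑ p ∈ P, x p) ^ L := by
  have h3 : 0 ≤ ∑ p ∈ P, x p := sum_nonneg hx
  rw [add_comm (1 : ℝ), add_pow]
  refine sum_le_sum fun i hi => (es_le P x hx i).trans ?_
  have h1 : (1 : ℝ) ≤ L.choose i := by
    exact_mod_cast Nat.choose_pos (Nat.lt_succ_iff.1 (mem_range.1 hi))
  have h2 : (1 : ℝ) ≤ i.factorial := by exact_mod_cast i.factorial_pos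
  rw [one_pow, mul_one]
  exact (div_le_self (by positivity) h2).trans (le_mul_of_one_le_right (by positivity) h1)

/-- truncated inclusion-exclusion -/
noncomputable def al (P : Finset ι) (x : ι → ℝ) (k : ℕ) : ℝ :=
  ∑ i ∈ range (k + 1), (-1) ^ i * es P x i

theorem al_insert [DecidableEq ι] {P : Finset ι} {a : ι} (h : a ∉ P) (x : ι → ℝ) (k : ℕ) :
    al (insert a P) x (k + 1) = al P x (k + 1) - x a * al P x k := by
  rw [al, al, al, sum_range_succ', sum_range_succ' _ (k + 1), es_zero, es_zero, mul_sum,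
    add_sub_right_comm, ← sum_sub_distrib]
  congr 1
  refine sum_congr rfl fun i _ => ?_
  rw [es_insert h]
  ring

theorem bonf (P : Finset ι) (x : ι → ℝ) (hx : ∀ p ∈ P, 0 ≤ x p ∧ x p ≤ 1) (k : ℕ) :
    0 ≤ (-1) ^ k * (al P x k - ∏ p ∈ P, (1 - x p)) := by
  classical
  have h0 : ∀ P : Finset ι, (∀ p ∈ P, 0 ≤ x p ∧ x p ≤ 1) →
      0 ≤ (-1) ^ 0 * (al P x 0 - ∏ p ∈ P, (1 - x p)) := fun P h => by
    have := prod_le_one (s := P) (f := fun p => 1 - x p) (fun p hp => by linarith [(h p hp).2])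
      (fun p hp => by linarith [(h p hp).1])
    simpa [al, es_zero] using this
  induction P using Finset.induction_on generalizing k with
  | empty => simp [al, sum_range_succ', es_zero, es_empty]
  | insert a P ha ih =>
    rcases k with _ | k
    · exact h0 _ hx
    have h1 : ∀ p ∈ P, 0 ≤ x p ∧ x p ≤ 1 := fun p hp => hx p (mem_insert_of_mem hp)
    have h2 := mul_nonneg (hx a (mem_insert_self _ _)).1 (ih h1 k)
    have h3 := ih h1 (k + 1)
    rw [al_insert ha, prod_insert ha]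
    rw [pow_succ] at h3 ⊢
    linarith

theorem count (T ν : ℕ) (Ω : ℕ → Finset ℕ) (D : Finset ℕ) (hD : ∀ p ∈ D, p.Prime)
    (hΩ : ∀ p ∈ D, Ω p ⊆ range p ∧ (Ω p).card = ν) (d v : ℕ) (hd : 0 < d)
    (hc : ∀ p ∈ D, d.Coprime p) :
    |(((range T).filter fun n => n ≡ v [MOD d] ∧ ∀ p ∈ D, n % p ∈ Ω p).card : ℝ) -
      T / d * ∏ p ∈ D, (ν : ℝ) / p| ≤ ∏ _p ∈ D, (ν : ℝ) := by
  induction D using Finset.induction_on generalizing d v with
  | empty => simpa using Sieve.count_modEq T v hd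
  | insert a D ha ih =>
    have pa := hD a (mem_insert_self _ _)
    have ca := hc a (mem_insert_self _ _)
    obtain ⟨o1, o2⟩ := hΩ a (mem_insert_self _ _)
    rw [card_eq_sum_card_fiberwise (f := fun n => n % a) (t := Ω a)
      (fun n hn => (mem_filter.1 hn).2.2 a (mem_insert_self _ _)), prod_insert ha, prod_insert ha]
    have e1 : (T : ℝ) / d * ((ν : ℝ) / a * ∏ p ∈ D, (ν : ℝ) / p) =
        ∑ _r ∈ Ω a, (T : ℝ) / (d * a : ℕ) * ∏ p ∈ D, (ν : ℝ) / p := by
      rw [sum_const, o2, nsmul_eq_mul]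
      push_cast
      ring
    have e2 : (ν : ℝ) * ∏ _p ∈ D, (ν : ℝ) = ∑ _r ∈ Ω a, ∏ _p ∈ D, (ν : ℝ) := by
      rw [sum_const, o2, nsmul_eq_mul]
    rw [e1, e2, Nat.cast_sum, ← sum_sub_distrib]
    refine (abs_sum_le_sum_abs _ _).trans (sum_le_sum fun r hr => ?_)
    have hr' : r % a = r := Nat.mod_eq_of_lt (mem_range.1 (o1 hr))
    obtain ⟨w, w1, w2⟩ := Nat.chineseRemainder ca v r
    have h := ih (fun p hp => hD p (mem_insert_of_mem hp)) (fun p hp => hΩ p (mem_insert_of_mem hp))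
      (d * a) w (Nat.mul_pos hd pa.pos) fun p hp => Nat.Coprime.mul_left
        (hc p (mem_insert_of_mem hp)) ((Nat.coprime_primes pa (hD p (mem_insert_of_mem hp))).2
          fun e => ha (e ▸ hp))
    refine le_of_eq_of_le ?_ h
    rw [filter_filter]
    congr 4
    refine filter_congr fun n _ => ?_
    rw [← Nat.modEq_and_modEq_iff_modEq_mul ca, forall_mem_insert]
    constructor
    · rintro ⟨⟨h1, -, h2⟩, h3⟩
      exact ⟨⟨h1.trans w1.symm, Nat.ModEq.trans (h3.trans hr'.symm) w2.symm⟩, h2⟩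
    · rintro ⟨⟨h1, h2⟩, h3⟩
      have h4 : n % a = r := Eq.trans (h2.trans w2) hr'
      exact ⟨⟨h1.trans w1, h4 ▸ hr, h3⟩, h4⟩

end BrunA

open BrunA

theorem esym_le {ι : Type*} (P : Finset ι) (x : ι → ℝ) (hx : ∀ p ∈ P, 0 ≤ x p) (L : ℕ) :
    ∑ D ∈ P.powerset.filter (fun D => D.card ≤ L), ∏ p ∈ D, x p ≤ (1 + ∑ p ∈ P, x p) ^ L := by
  refine le_trans (le_of_eq ?_) (sum_es_le P x hx L)
  rw [← sum_fiberwise_of_maps_to (g := card) (t := range (L + 1))
    (fun D hD => mem_range.2 (Nat.lt_succ_iff.2 (mem_filter.1 hD).2))]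
  refine sum_congr rfl fun i hi => sum_congr ?_ fun _ _ => rfl
  have := Nat.lt_succ_iff.1 (mem_range.1 hi)
  ext D
  simp only [mem_filter, mem_powerset, mem_powersetCard]
  constructor
  · exact fun h => ⟨h.1.1, h.2⟩
  · exact fun h => ⟨⟨h.1, h.2 ▸ this⟩, h.2⟩

/-- Brun's pure sieve. -/
theorem brun (P : Finset ℕ) (hP : ∀ p ∈ P, p.Prime) (ν : ℕ) (Ω : ℕ → Finset ℕ)
    (hΩ : ∀ p ∈ P, Ω p ⊆ range p ∧ (Ω p).card = ν) (T m : ℕ) :
    (((range T).filter fun n => ∀ p ∈ P, n % p ∉ Ω p).card : ℝ) ≤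
      T * (exp (-∑ p ∈ P, (ν : ℝ) / p) +
        (∑ p ∈ P, (ν : ℝ) / p) ^ (2 * m + 1) / ((2 * m + 1).factorial : ℝ)) +
      (1 + (ν : ℝ) * P.card) ^ (2 * m) := by
  set I : ℕ → ℕ → ℝ := fun n p => if n % p ∈ Ω p then 1 else 0 with hI
  set x : ℕ → ℝ := fun p => (ν : ℝ) / p with hx
  have hx1 : ∀ p ∈ P, 0 ≤ x p ∧ x p ≤ 1 := fun p hp => ⟨by positivity, by
    refine div_le_one_of_le₀ ?_ (by positivity)
    have := card_le_card (hΩ p hp).1
    rw [(hΩ p hp).2, card_range] at this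
    exact_mod_cast this⟩
  have s1 : (((range T).filter fun n => ∀ p ∈ P, n % p ∉ Ω p).card : ℝ) ≤
      ∑ n ∈ range T, al P (I n) (2 * m) := by
    rw [card_filter, Nat.cast_sum]
    refine sum_le_sum fun n _ => ?_
    have h := bonf P (I n) (fun p _ => by simp only [hI]; split_ifs <;> norm_num) (2 * m)
    rw [(even_two_mul m).neg_one_pow, one_mul, sub_nonneg] at h
    refine le_trans ?_ h
    split_ifs with h1
    · rw [prod_congr rfl (g := fun _ => 1) fun p hp => by simp [hI, h1 p hp]]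
      simp
    · rw [Nat.cast_zero]
      exact prod_nonneg fun p _ => by simp only [hI]; split_ifs <;> norm_num
  have s2 : ∑ n ∈ range T, al P (I n) (2 * m) ≤
      T * al P x (2 * m) + ∑ i ∈ range (2 * m + 1), es P (fun _ => (ν : ℝ)) i := by
    simp only [al, es]
    rw [sum_comm, mul_sum, ← sum_add_distrib]
    refine sum_le_sum fun i _ => ?_
    rw [← mul_sum, sum_comm, mul_sum, mul_sum, mul_sum, ← sum_add_distrib]
    refine sum_le_sum fun D hD => ?_
    have hs := (mem_powersetCard.1 hD).1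
    have h := count T ν Ω D (fun p hp => hP p (hs hp)) (fun p hp => hΩ p (hs hp)) 1 0 one_pos
      (fun p _ => Nat.coprime_one_left p)
    have e : ∑ n ∈ range T, ∏ p ∈ D, I n p =
        (((range T).filter fun n => n ≡ 0 [MOD 1] ∧ ∀ p ∈ D, n % p ∈ Ω p).card : ℝ) := by
      rw [card_filter, Nat.cast_sum]
      refine sum_congr rfl fun n _ => ?_
      simp only [hI, prod_boole, Nat.modEq_one, true_and]
      split_ifs <;> simp
    rw [e]
    rw [Nat.cast_one, div_one, abs_le] at h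
    rcases neg_one_pow_eq_or ℝ i with h1 | h1 <;> rw [h1] <;> linarith [h.1, h.2]
  have s3 := sum_es_le P (fun _ => (ν : ℝ)) (fun _ _ => by positivity) (2 * m)
  rw [sum_const, nsmul_eq_mul, mul_comm (P.card : ℝ)] at s3
  have s4 := bonf P x hx1 (2 * m + 1)
  rw [(odd_two_mul_add_one m).neg_one_pow, al, sum_range_succ, (odd_two_mul_add_one m).neg_one_pow,
    ← al] at s4
  have s5 := es_le P x (fun p hp => (hx1 p hp).1) (2 * m + 1)
  have s6 : ∏ p ∈ P, (1 - x p) ≤ exp (-∑ p ∈ P, x p) := by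
    rw [← sum_neg_distrib, exp_sum]
    exact prod_le_prod (fun p hp => by linarith [(hx1 p hp).2]) fun p _ => one_sub_le_exp_neg _
  have s7 := mul_le_mul_of_nonneg_left (show al P x (2 * m) ≤ exp (-∑ p ∈ P, x p) +
    (∑ p ∈ P, x p) ^ (2 * m + 1) / ((2 * m + 1).factorial : ℝ) by linarith) (Nat.cast_nonneg T)
  linarith

end Vale.Agent.P031
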