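import Vale.Agent.P031.Val
import Vale.Agent.P031.Mert
import Vale.Agent.P031.Brun

namespace Vale.Agent.P031

open Finset Real Filter

theorem dbl_mass (Z W P : Finset ℕ) (L : ℕ)
    (h : ∀ z ∈ Z, ∃ D ⊆ P, D.card ≤ L ∧ ∃ w ∈ W, z = (∏ p ∈ D, (p - 1)) * w) :
    mass Z ≤ (1 + ∑ p ∈ P, 1 / ((p - 1 : ℕ) : ℝ)) ^ L * mass W := by
  refine (mass_mul_le Z ((P.powerset.filter fun D => D.card ≤ L).image fun D => ∏ p ∈ D, (p - 1))
    W fun z hz => ?_).trans (mul_le_mul_of_nonneg_right ?_ (mass_nonneg W))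
  · obtain ⟨D, h1, h2, w, hw, e⟩ := h z hz
    exact ⟨_, mem_image_of_mem _ (mem_filter.2 ⟨mem_powerset.2 h1, h2⟩), w, hw, e⟩
  · refine (sum_image_le_of_nonneg fun _ _ => by positivity).trans (le_trans (le_of_eq ?_)
      (esym_le P (fun p => 1 / ((p - 1 : ℕ) : ℝ)) (fun _ _ => by positivity) L))
    refine sum_congr rfl fun D _ => ?_
    rw [Nat.cast_prod, prod_div_distrib, prod_const_one]

theorem dbl_sum : ∀ᶠ u : ℕ in atTop,
    1 + ∑ p ∈ cells u 1 (KK u + 1), 1 / ((p - 1 : ℕ) : ℝ) ≤ 10 * (u : ℝ) ^ 10 := by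
  filter_upwards [sum_inv_pred_le, eventually_ge_atTop 1] with u h hu
  have h1 := h 1 (KK u + 1) (cells u 1 (KK u + 1)) (by omega) fun p hp => (mem_cells hu).1 hp
  have hu' : (1 : ℝ) ≤ u := by exact_mod_cast hu
  have h2 : (u : ℝ) ≤ u ^ 10 := le_self_pow₀ hu' (by norm_num)
  simp only [KK, hh] at h1 ⊢
  push_cast at h1
  nlinarith

theorem dbl_strip (u : ℕ) (S : Finset ℕ) : ∃ S' ⊆ S, (∀ p ∈ S', ∀ q ∈ S, q < p → q ∈ S') ∧
    (S \ S').card ≤ 4 ∧ ∀ j, kap u j S' ≤ kap u j S - 4 := by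
  refine ⟨S.filter fun p => 4 ≤ (S.filter fun q => p < q).card, filter_subset _ _,
    fun p hp q hq hqp => mem_filter.2 ⟨hq, (mem_filter.1 hp).2.trans (card_le_card fun r hr =>
      mem_filter.2 ⟨(mem_filter.1 hr).1, hqp.trans (mem_filter.1 hr).2⟩)⟩, ?_, fun j => ?_⟩
  · have key : ∀ p ∈ S, ∀ q ∈ S, p < q →
        (S.filter fun r => q < r).card < (S.filter fun r => p < r).card := fun p _ q hq hpq =>
      card_lt_card ⟨fun r hr => mem_filter.2 ⟨(mem_filter.1 hr).1, hpq.trans (mem_filter.1 hr).2⟩,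
        fun h => lt_irrefl _ (mem_filter.1 (h (mem_filter.2 ⟨hq, hpq⟩))).2⟩
    refine (card_le_card_of_injOn (t := range 4) (fun p => (S.filter fun q => p < q).card)
      (fun p hp => ?_) fun p hp q hq e => ?_).trans (card_range 4).le
    · have h := mem_sdiff.1 (mem_coe.1 hp)
      exact mem_coe.2 (mem_range.2 (not_le.1 fun h4 => h.2 (mem_filter.2 ⟨h.1, h4⟩)))
    · have h1 := (mem_sdiff.1 (mem_coe.1 hp)).1
      have h2 := (mem_sdiff.1 (mem_coe.1 hq)).1
      rcases lt_trichotomy p q with h | h | h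
      · exact absurd e (key p h1 q h2 h).ne'
      · exact h
      · exact absurd e (key q h2 p h1 h).ne
  · unfold kap
    rcases ((S.filter fun p => 4 ≤ (S.filter fun q => p < q).card).filter
      fun p => j ≤ lab u p).eq_empty_or_nonempty with h | h
    · rw [h]
      exact Nat.zero_le _
    obtain ⟨p, hp, hmax⟩ := exists_max_image _ id h
    have hp1 := mem_filter.1 hp
    have h1 := card_union_of_disjoint (disjoint_left.2 fun q hq
      (hq' : q ∈ S.filter fun q => p < q) => (hmax q hq).not_gt (mem_filter.1 hq').2)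
    have h2 := card_le_card (s := _ ∪ S.filter fun q => p < q) (t := S.filter fun p => j ≤ lab u p)
      (union_subset (filter_subset_filter _
        (filter_subset (fun p => 4 ≤ (S.filter fun q => p < q).card) S)) fun q hq =>
        mem_filter.2 ⟨(mem_filter.1 hq).1, hp1.2.trans (lab_mono (mem_filter.1 hq).2.le)⟩)
    have h3 := (mem_filter.1 hp1.1).2
    omega

theorem dbl : ∀ᶠ u : ℕ in atTop, ∀ s : ℝ, (u : ℝ) ^ 10 / 2 ≤ s →
    AM u 50 (6 * s / 5) ≤ (10 * (u : ℝ) ^ 10) ^ 4 * AM u 50 (s / 2) := by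
  filter_upwards [dbl_sum, mem_AA, ev_L_pow 2 (80 * (Nat.factorial 51 : ℝ)),
    eventually_ge_atTop 1] with u h1 hA hL hu s hs
  refine (dbl_mass _ (AA u 50 (s / 2)) (cells u 1 (KK u + 1)) 4 fun w hw => ?_).trans
    (mul_le_mul_of_nonneg_right (pow_le_pow_left₀ (by positivity) h1 4) (mass_nonneg _))
  obtain ⟨w₀, S, hR, hΦ⟩ := (hA _ _ _).1 hw
  obtain ⟨S', s1, s2, s3, s4⟩ := dbl_strip u S
  have hc := hR.2.2.1
  refine ⟨S \ S', fun p hp => ?_, s3, val w₀ S', (hA _ _ _).2 ⟨w₀, S', ⟨hR.1, hR.2.1.lower s1 s2,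
    by have := card_le_card s1; omega, rfl⟩, ?_⟩, ?_⟩
  · have h := hR.2.1.1 p (sdiff_subset hp)
    exact (mem_cells hu).2 ⟨h.1, h.2.1, Nat.lt_succ_of_le h.2.2.1⟩
  · have hL2 : (200 : ℝ) ≤ LL u := by exact_mod_cast le_LL u
    have h2 := Phi_lip 50 (γ := gam u S') (γ' := fun m => 1 / 3 * gam u S m)
      (δ := (MM u : ℝ) * (2 * (LL u : ℝ)) ^ 2) (by positivity) fun m hm => by
        have h3 := gam_strip hu hR.2.1 (by omega) (fun j _ => s4 j) m
        have h4 : (m : ℝ) ≤ 51 := by exact_mod_cast hm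
        have h5 : (MM u : ℝ) * ((m : ℝ) + LL u + 1) ^ 2 ≤ (MM u : ℝ) * (2 * (LL u : ℝ)) ^ 2 := by
          gcongr
          linarith
        linarith
    rw [Phi_smul 50 _ (by norm_num)] at h2
    have h3 := mul_le_mul_of_nonneg_left hL (Nat.cast_nonneg (α := ℝ) (MM u))
    have h4 : (MM u : ℝ) * u = u ^ 10 := by
      unfold MM
      push_cast
      ring
    change _ ≤ _ + (Nat.factorial 51 : ℝ) * _ at h2
    generalize (Nat.factorial 51 : ℝ) = F at h2 h3
    nlinarith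
  · rw [← hR.2.2.2, val, val, ← prod_sdiff s1]
    ring

end Vale.Agent.P031
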