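import Vale.Agent.P031.Om
import Vale.Agent.Lib.PNT.Main

namespace Vale.Agent.P031

open Finset Real Filter

theorem piR_le {t : ℝ} (ht : 2 ≤ t) : piR t ≤ 4 * (t / log t) := by
  have h := Chebyshev.pi_le_log4_mul_div (x := t) (by linarith)
  have hl : 0 < log t := log_pos (by linarith)
  have hs : 0 < √t := sqrt_pos.2 (by linarith)
  have h1 : log t ≤ √t := by
    have h2 := log_le_sub_one_of_pos (half_pos hs)
    rw [log_div hs.ne' two_ne_zero, log_sqrt (by linarith)] at h2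
    linarith [log_two_lt_d9]
  have h2 : √t ≤ t / log t := by
    rw [le_div_iff₀ hl]
    nlinarith [mul_self_sqrt (by linarith : 0 ≤ t)]
  have h3 : log 4 ≤ 3 / 2 := by
    rw [show (4 : ℝ) = 2 ^ 2 by norm_num, log_pow]
    push_cast
    linarith [log_two_lt_d9]
  have h4 : log 4 * t / log √t = 2 * log 4 * (t / log t) := by
    rw [log_sqrt (by linarith)]
    field_simp
  have h5 : 0 ≤ t / log t := by positivity
  rw [h4] at h
  unfold piR
  nlinarith

theorem cnt_card_le {t : ℝ} (P : Finset ℕ) (hP : ∀ p ∈ P, p.Prime ∧ (p : ℝ) ≤ t) :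
    (P.card : ℝ) ≤ piR t := by
  unfold piR
  rw [← Nat.primesLE_card_eq_primeCounting]
  exact_mod_cast card_le_card fun p hp => Nat.mem_primesLE.2 ⟨Nat.le_floor (hP p hp).2, (hP p hp).1⟩

theorem cnt_le {y : ℝ} {p w : ℕ} (hp : p.Prime) (hw : 1 ≤ w) (h : (((p - 1) * w : ℕ) : ℝ) ≤ y) :
    (p : ℝ) ≤ y / w + 1 := by
  have h1 : (0 : ℝ) < w := by exact_mod_cast hw
  rw [Nat.cast_mul, Nat.cast_sub hp.one_le, Nat.cast_one, ← le_div_iff₀ h1] at h
  linarith

theorem cnt (y ℓ : ℝ) (hy : 0 < y) (hℓ : 0 < ℓ) (W : Finset ℕ) (hW : ∀ w ∈ W, 1 ≤ w)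
    (Z : Finset ℕ) (hZ : ∀ v ∈ Z, (v : ℝ) ≤ y ∧ ∃ p w : ℕ, p.Prime ∧ ℓ ≤ log (p : ℝ) ∧ w ∈ W ∧
      (v = (p - 1) * w ∨ v = p * w)) :
    (Z.card : ℝ) ≤ 16 * y / ℓ * mass W := by
  classical
  obtain ⟨P, hP⟩ : ∃ P : ℕ → Finset ℕ, ∀ w p, p ∈ P w ↔
      p.Prime ∧ ℓ ≤ log (p : ℝ) ∧ (p : ℝ) ≤ y / w + 1 :=
    ⟨fun w => (Nat.primesLE ⌊y / w + 1⌋₊).filter fun p => ℓ ≤ log (p : ℝ), fun w p => by
      rw [mem_filter, Nat.mem_primesLE, Nat.le_floor_iff (by positivity)]
      tauto⟩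
  have h1 : Z ⊆ W.biUnion fun w =>
      (P w).image (fun p => (p - 1) * w) ∪ (P w).image fun p => p * w := by
    intro v hv
    obtain ⟨a, p, w, hp, hl, hw, e⟩ := hZ v hv
    have hp' : p ∈ P w := by
      refine (hP w p).2 ⟨hp, hl, cnt_le hp (hW w hw) (le_trans ?_ a)⟩
      rcases e with rfl | rfl
      · exact le_rfl
      · exact_mod_cast Nat.mul_le_mul_right _ (Nat.sub_le _ _)
    refine mem_biUnion.2 ⟨w, hw, mem_union.2 ?_⟩
    rcases e with rfl | rfl
    · exact Or.inl (mem_image_of_mem _ hp')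
    · exact Or.inr (mem_image_of_mem _ hp')
  have h2 : ∀ w ∈ W, ((P w).card : ℝ) ≤ 8 * y / ℓ * (1 / w) := by
    intro w hw
    rcases (P w).eq_empty_or_nonempty with h | ⟨p, hp⟩
    · rw [h, card_empty, Nat.cast_zero]
      positivity
    obtain ⟨a, b, c⟩ := (hP w p).1 hp
    have p2 : (2 : ℝ) ≤ p := by exact_mod_cast a.two_le
    have h3 := cnt_card_le (P w) fun q hq => ⟨((hP w q).1 hq).1, ((hP w q).1 hq).2.2⟩
    have h4 := piR_le (p2.trans c)
    have h5 : ℓ ≤ log (y / w + 1) := b.trans (log_le_log (by linarith) c)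
    have h6 : (y / w + 1) / log (y / w + 1) ≤ (2 * (y / w)) / ℓ := by
      gcongr
      linarith
    have h7 : 8 * y / ℓ * (1 / w) = 4 * (2 * (y / w) / ℓ) := by ring
    linarith
  calc (Z.card : ℝ) ≤ ((∑ w ∈ W, ((P w).card + (P w).card) : ℕ) : ℝ) := by
        exact_mod_cast (card_le_card h1).trans (card_biUnion_le.trans (sum_le_sum fun w _ =>
          (card_union_le _ _).trans (add_le_add card_image_le card_image_le)))
    _ ≤ _ := by
        rw [mass, mul_sum]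
        push_cast
        refine sum_le_sum fun w hw => ?_
        have h7 : 16 * y / ℓ * (1 / w) = 8 * y / ℓ * (1 / w) + 8 * y / ℓ * (1 / w) := by ring
        linarith [h2 w hw]

theorem cnt_pi (y : ℝ) (W : Finset ℕ) (hW : ∀ w ∈ W, 1 ≤ w) (Z : Finset ℕ)
    (hZ : ∀ v ∈ Z, (v : ℝ) ≤ y ∧ ∃ p w : ℕ, p.Prime ∧ w ∈ W ∧ v = (p - 1) * w) :
    (Z.card : ℝ) ≤ ∑ w ∈ W, piR (y / w + 1) := by
  have h1 : Z ⊆ W.biUnion fun w =>
      (Nat.primesLE ⌊y / w + 1⌋₊).image fun p => (p - 1) * w := by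
    intro v hv
    obtain ⟨a, p, w, hp, hw, rfl⟩ := hZ v hv
    exact mem_biUnion.2 ⟨w, hw, mem_image_of_mem _
      (Nat.mem_primesLE.2 ⟨Nat.le_floor (cnt_le hp (hW w hw) a), hp⟩)⟩
  unfold piR
  simp only [← Nat.primesLE_card_eq_primeCounting]
  exact_mod_cast (card_le_card h1).trans (card_biUnion_le.trans (sum_le_sum fun w _ =>
    card_image_le))

theorem cnt_pnt : Tendsto (fun t : ℝ => piR t * log t / t) atTop (nhds 1) := by
  have h1 : (fun x : ℝ => x / log x ^ 2) =o[atTop] fun x : ℝ => x / log x := by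
    have h := (Asymptotics.isBigO_refl (fun x : ℝ => x / log x) atTop).mul_isLittleO
      ((Asymptotics.isLittleO_one_iff ℝ).2 (tendsto_log_atTop.inv_tendsto_atTop))
    refine h.congr (fun x => ?_) fun x => mul_one _
    simp only [Pi.inv_apply]
    ring
  have h2 := (Chebyshev.primeCounting_sub_theta_div_log_isBigO.trans_isLittleO
    h1).tendsto_div_nhds_zero
  have h3 := h2.add PNT.theta_div_tendsto
  rw [zero_add] at h3
  refine h3.congr' ?_
  filter_upwards [eventually_gt_atTop 1] with x hx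
  have := (log_pos hx).ne'
  have : x ≠ 0 := by linarith
  unfold piR
  field_simp
  ring

/-- The prime number theorem, uniformly in a short range of `w`. -/
theorem pnt2 {ε : ℝ} (hε : 0 < ε) : ∃ δ > 0, ∃ y₀ : ℝ, ∀ y ≥ y₀, ∀ w : ℝ, 1 ≤ w →
    log w ≤ δ * log y → |piR (y / w + 1) - y / (w * log y)| ≤ ε * (y / (w * log y)) := by
  obtain ⟨η, h0, h1, h2⟩ : ∃ η : ℝ, 0 < η ∧ η ≤ 1 / 8 ∧ 8 * η ≤ ε :=
    ⟨min (1 / 8) (ε / 8), lt_min (by norm_num) (by linarith), min_le_left _ _,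
      by linarith [min_le_right (1 / 8 : ℝ) (ε / 8)]⟩
  obtain ⟨T, hT⟩ := eventually_atTop.1 (cnt_pnt.eventually
    (Icc_mem_nhds (by linarith : 1 - η < 1) (by linarith : 1 < 1 + η)))
  obtain ⟨X, x1, x2, x3⟩ : ∃ X : ℝ, T ≤ X ∧ 1 / η ≤ X ∧ 1 ≤ X :=
    ⟨max (max T (1 / η)) 1, le_max_of_le_left (le_max_left _ _),
      le_max_of_le_left (le_max_right _ _), le_max_right _ _⟩
  refine ⟨η, h0, exp (2 * X), fun y hy w hw hl => ?_⟩
  have y0 : 0 < y := (exp_pos _).trans_le hy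
  have l1 : 2 * X ≤ log y := (le_log_iff_exp_le y0).2 hy
  have w0 : 0 < w := by linarith
  have x0 : 0 < y / w := by positivity
  have l2 : (1 - η) * log y ≤ log (y / w) := by
    rw [log_div y0.ne' w0.ne']
    linarith
  have l3 : X ≤ y / w := by
    have := log_le_sub_one_of_pos x0
    nlinarith
  have l4 : log (y / w) ≤ log (y / w + 1) := log_le_log x0 (by linarith)
  have l5 : log (y / w + 1) ≤ log y + 1 := by
    have a : y / w ≤ y := div_le_self y0.le hw
    have b : log (y / w + 1) ≤ log (2 * y) := log_le_log (by linarith) (by linarith)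
    rw [log_mul two_ne_zero y0.ne'] at b
    linarith [log_two_lt_d9]
  have e1 : 1 ≤ η * X := by rwa [div_le_iff₀' h0] at x2
  obtain ⟨a1, a2⟩ := hT (y / w + 1) (by linarith)
  rw [le_div_iff₀ (by linarith)] at a1
  rw [div_le_iff₀ (by linarith)] at a2
  have e2 : y / (w * log y) = y / w / log y := by rw [div_div]
  have p0 : 0 ≤ piR (y / w + 1) := Nat.cast_nonneg _
  have ly : 0 < log y := by linarith
  rw [e2]
  generalize y / w = x at *
  generalize piR (x + 1) = A at *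
  generalize log (x + 1) = l at *
  generalize log y = L at *
  have b1 : A * ((1 - η) * L) ≤ (1 + η) * ((1 + η) * x) := by
    have c1 : A * ((1 - η) * L) ≤ A * l := mul_le_mul_of_nonneg_left (l2.trans l4) p0
    have c2 : x + 1 ≤ (1 + η) * x := by nlinarith
    have c3 := mul_le_mul_of_nonneg_left c2 (by linarith : 0 ≤ 1 + η)
    linarith
  have b2 : (1 - η) * x ≤ A * ((1 + η) * L) := by
    have c1 : l ≤ (1 + η) * L := by nlinarith
    have c2 := mul_le_mul_of_nonneg_left c1 p0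
    nlinarith
  have b3 : A * L ≤ (1 + ε) * x := by
    refine le_of_mul_le_mul_left (a := 1 - η) ?_ (by linarith)
    have c1 : (1 + η) * (1 + η) ≤ (1 - η) * (1 + ε) := by nlinarith
    have c2 := mul_le_mul_of_nonneg_right c1 x0.le
    linarith
  have b4 : (1 - ε) * x ≤ A * L := by
    refine le_of_mul_le_mul_left (a := 1 + η) ?_ (by linarith)
    have c1 : (1 + η) * (1 - ε) ≤ 1 - η := by nlinarith
    have c2 := mul_le_mul_of_nonneg_right c1 x0.le
    linarith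
  rw [abs_le]
  constructor
  · have : (1 - ε) * (x / L) ≤ A := by rwa [← mul_div_assoc, div_le_iff₀ ly]
    linarith
  · have : A ≤ (1 + ε) * (x / L) := by rwa [← mul_div_assoc, le_div_iff₀ ly]
    linarith

theorem img {α : Type*} [DecidableEq α] (Z : Finset α) (f : α → ℕ) (g : ℕ → ℝ)
    (hg : ∀ v, 0 ≤ g v) :
    ∑ z ∈ Z, g (f z) -
      ∑ zz ∈ (Z ×ˢ Z).filter (fun zz => zz.1 ≠ zz.2 ∧ f zz.1 = f zz.2), g (f zz.1) ≤
      ∑ v ∈ Z.image f, g v := by
  rw [← sum_fiberwise_of_maps_to (s := Z) (t := Z.image f) (g := f)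
      (fun z hz => mem_image_of_mem f hz),
    ← sum_fiberwise_of_maps_to (s := (Z ×ˢ Z).filter _) (t := Z.image f) (g := fun zz => f zz.1)
      (fun z hz => mem_image_of_mem f (mem_product.1 (mem_filter.1 hz).1).1), ← sum_sub_distrib]
  refine sum_le_sum fun v _ => ?_
  have e : ((Z ×ˢ Z).filter fun zz => zz.1 ≠ zz.2 ∧ f zz.1 = f zz.2).filter
      (fun zz => f zz.1 = v) = (Z.filter fun z => f z = v).offDiag := by
    ext zz
    simp only [mem_filter, mem_product, mem_offDiag]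
    constructor
    · rintro ⟨⟨⟨a, b⟩, c, d⟩, e⟩
      exact ⟨⟨a, e⟩, ⟨b, d ▸ e⟩, c⟩
    · rintro ⟨⟨a, b⟩, ⟨c, d⟩, e⟩
      exact ⟨⟨⟨a, c⟩, e, b.trans d.symm⟩, b⟩
  rw [e, sum_congr rfl (g := fun _ => g v) fun z hz => by rw [(mem_filter.1 hz).2],
    sum_congr (s₁ := offDiag _) rfl (g := fun _ => g v) fun z hz => by
      rw [(mem_filter.1 (mem_offDiag.1 hz).1).2],
    sum_const, sum_const, offDiag_card, nsmul_eq_mul, nsmul_eq_mul,
    Nat.cast_sub (Nat.le_mul_self _)]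
  push_cast
  nlinarith [mul_nonneg (hg v) (sq_nonneg (((Z.filter fun z => f z = v).card : ℝ) - 1))]

end Vale.Agent.P031
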