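import Vale.Agent.P031.Coll
import Vale.Agent.P031.Dy

namespace Vale.Agent.P031

open Finset Real Filter

theorem collm_ev (c : ℝ) (hc : 0 ≤ c) : ∀ᶠ u : ℕ in atTop,
    c * (10 * (hh u : ℝ) + LL u) ≤ exp ((MM u : ℝ) - hh u) := by
  filter_upwards [ev_L_pow 1 1, ev_pow_exp 8 (11 * c), eventually_ge_atTop 2] with u h1 h2 hu
  have u2 : (2 : ℝ) ≤ u := by exact_mod_cast hu
  have h3 : (u : ℝ) ≤ (u : ℝ) ^ 8 := le_self_pow₀ (by linarith) (by norm_num)
  simp only [hh, MM]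
  push_cast
  refine le_trans ?_ (h2.trans (Real.exp_le_exp.2 ?_))
  · rw [one_mul, pow_one] at h1
    nlinarith
  · rw [show (u : ℝ) ^ 9 = u * (u : ℝ) ^ 8 by ring]
    nlinarith

theorem collm_adm : ∀ᶠ u : ℕ in atTop, ∀ q w i : ℕ, AdmM u q w → Nat.log 2 ((q - 1) * w) = i →
    1 ≤ (q - 1) * w ∧ Adm u (2 ^ (i + 1)) q w ∧ (3 : ℝ) ≤ 2 ^ (i + 1) ∧
      log (log ((2 : ℝ) ^ (i + 1))) ≤ 2 * (u : ℝ) ^ 10 := by
  filter_upwards [collm_ev 1 zero_le_one, eventually_ge_atTop 2] with u h1 hu q w i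
    ⟨hq, hn, hl, w₀, S, hr, hT⟩ e
  have u1 : 1 ≤ u := by omega
  have u2 : (2 : ℝ) ≤ u := by exact_mod_cast hu
  have g0 : gam u S 0 ≤ TT (gam u S) := le_max_left _ _
  have M0 : (0 : ℝ) < MM u := by
    simp only [MM]
    positivity
  have l1 : 1 ≤ lab u q := by
    by_contra c
    rw [show lab u q = 0 by omega] at hT
    have := gam_nonneg u S 0
    simp only [Nat.cast_zero, mul_zero] at hT
    linarith
  have h0 : (1 : ℝ) ≤ hh u := by exact_mod_cast (show 1 ≤ hh u from Nat.one_le_pow _ _ u1)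
  have a1 := exp_le_log_of_le_lab u1 l1 le_rfl
  have a2 := exp_le_log_of_le_lab u1 le_rfl l1
  have a3 : 2 ≤ log (q : ℝ) := by
    have := Real.add_one_le_exp (((1 : ℕ) : ℝ) * hh u)
    push_cast at this a2
    linarith
  have q5 : 5 ≤ q := by
    by_contra c
    have c1 : (q : ℝ) ≤ 2 ^ 2 := by exact_mod_cast (show q ≤ 2 ^ 2 by omega)
    have := Real.log_le_log (by exact_mod_cast hq.pos) c1
    rw [Real.log_pow] at this
    push_cast at this
    linarith [Real.log_two_lt_d9]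
  have w1 := hr.pos
  have f1 : q - 1 ≤ (q - 1) * w := Nat.le_mul_of_pos_right _ w1
  have f2 := Nat.pow_log_le_self 2 (show (q - 1) * w ≠ 0 by omega)
  have f3 := Nat.lt_pow_succ_log_self (b := 2) (by norm_num) ((q - 1) * w)
  rw [e, Nat.succ_eq_add_one] at f3
  rw [e] at f2
  have i2 : 2 ≤ i := by
    have : 2 ^ 2 < 2 ^ (i + 1) := by omega
    have := (Nat.pow_lt_pow_iff_right (by norm_num)).1 this
    omega
  have qy : (q : ℝ) ≤ 2 ^ (i + 1) := by exact_mod_cast (show q ≤ 2 ^ (i + 1) by omega)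
  have q5' : (5 : ℝ) ≤ q := by exact_mod_cast q5
  have f2' : (2 : ℝ) ^ i ≤ ((q - 1) * w : ℕ) := by exact_mod_cast f2
  have lw : log (w : ℝ) ≤ log (q : ℝ) := by
    refine (hr.log_le u1).trans ?_
    rw [one_mul] at h1
    refine (mul_le_mul_of_nonneg_right h1 (Real.exp_pos _).le).trans (le_trans ?_ a1)
    rw [← Real.exp_add, Real.exp_le_exp]
    linarith
  refine ⟨by omega, ⟨hq, hn, ?_, by exact_mod_cast f3.le, w₀, S, hr, hT.trans ?_⟩, by linarith, ?_⟩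
  · refine lt_of_lt_of_le ?_ f2'
    rw [Real.sqrt_lt' (by positivity), ← pow_mul]
    exact pow_lt_pow_right₀ (by norm_num) (by omega)
  · rw [mul_comm]
    exact (lab_mul_le u1 (by omega)).trans (loglog_mono (by linarith) qy)
  · have w1' : (1 : ℝ) ≤ w := by exact_mod_cast w1
    have b1 : (2 : ℝ) ^ (i + 1) ≤ q * q * w := by
      have b2 : (((q - 1) * w : ℕ) : ℝ) ≤ q * w := by
        exact_mod_cast Nat.mul_le_mul_right w (Nat.sub_le q 1)
      rw [pow_succ]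
      nlinarith
    have b3 := Real.log_le_log (by positivity) b1
    rw [Real.log_mul (by positivity) (by positivity), Real.log_mul (by positivity) (by positivity)]
      at b3
    have b4 := log_lt_of_lab_le u1 (le_refl (lab u q))
    rw [Real.log_le_iff_le_exp (Real.log_pos (by linarith))]
    have b5 : 3 * exp (((lab u q : ℝ) + 1) * hh u) ≤ exp (2 * (u : ℝ) ^ 10) := by
      have b6 := Real.add_one_le_exp (2 : ℝ)
      refine (mul_le_mul_of_nonneg_right (show (3 : ℝ) ≤ exp 2 by linarith)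
        (Real.exp_pos _).le).trans ?_
      rw [← Real.exp_add, Real.exp_le_exp]
      have b7 : (2 : ℝ) ^ 8 ≤ (u : ℝ) ^ 8 := pow_le_pow_left₀ (by norm_num) u2 _
      have b8 : (hh u : ℝ) = (u : ℝ) ^ 8 := by simp only [hh]; push_cast; rfl
      have b9 : 4 * (u : ℝ) ^ 8 ≤ (u : ℝ) ^ 10 := by
        rw [show (u : ℝ) ^ 10 = u * u * (u : ℝ) ^ 8 by ring]
        exact mul_le_mul_of_nonneg_right (by nlinarith) (by positivity)
      linarith
    linarith

theorem coll_mass : ∀ᶠ u : ℕ in atTop, ∀ Z : Finset ((ℕ × ℕ) × (ℕ × ℕ)),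
    (∀ z ∈ Z, AdmM u z.1.1 z.1.2 ∧ AdmM u z.2.1 z.2.2 ∧ z.1.2 ≠ z.2.2 ∧
      (z.1.1 - 1) * z.1.2 = (z.2.1 - 1) * z.2.2) →
    ∑ z ∈ Z, 1 / (((z.1.1 - 1) * z.1.2 : ℕ) : ℝ) ≤ 1 := by
  filter_upwards [coll, collm_adm, ev_pow_exp 10 24, eventually_ge_atTop 2] with u h1 h2 h3 hu Z hZ
  have u2 : (2 : ℝ) ≤ u := by exact_mod_cast hu
  refine (dyadic Z (fun z => (z.1.1 - 1) * z.1.2) (fun z hz => (h2 _ _ _ (hZ z hz).1 rfl).1)
    (exp (-((MM u : ℝ) / 2))) 1 fun i ⟨z, hz, e⟩ => ?_).trans ?_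
  · obtain ⟨-, -, a1, a2⟩ := h2 _ _ _ (hZ z hz).1 e
    rw [pow_one]
    refine h1 _ _ a1 a2 fun x hx => ?_
    obtain ⟨x1, x2⟩ := Finset.mem_filter.1 hx
    obtain ⟨b1, b2, b3, b4⟩ := hZ x x1
    exact ⟨(h2 _ _ _ b1 x2).2.1, (h2 _ _ _ b2 (b4 ▸ x2)).2.1, b3, b4⟩
  · have c1 := dy_one (Z.image fun z => Nat.log 2 ((z.1.1 - 1) * z.1.2))
      (X := exp (exp (2 * (u : ℝ) ^ 10))) ?_ fun i hi => ?_
    · rw [Real.log_exp, Real.log_exp] at c1
      refine (mul_le_mul_of_nonneg_left c1 (by positivity)).trans ?_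
      have c2 : (u : ℝ) ≤ MM u / 2 := by
        simp only [MM]
        push_cast
        have : (2 : ℝ) ^ 8 ≤ (u : ℝ) ^ 8 := pow_le_pow_left₀ (by norm_num) u2 _
        rw [show (u : ℝ) ^ 9 = u * (u : ℝ) ^ 8 by ring]
        nlinarith
      have c3 := h3.trans (Real.exp_le_exp.2 c2)
      have c4 : 1 ≤ (u : ℝ) ^ 10 := one_le_pow₀ (by linarith)
      rw [Real.exp_neg, mul_comm 2, mul_assoc, inv_mul_le_iff₀ (Real.exp_pos _)]
      linarith
    · have c4 : 1 ≤ (u : ℝ) ^ 10 := one_le_pow₀ (by linarith)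
      linarith [Real.add_one_le_exp (2 * (u : ℝ) ^ 10),
        Real.add_one_le_exp (exp (2 * (u : ℝ) ^ 10))]
    · obtain ⟨z, hz, e⟩ := Finset.mem_image.1 hi
      obtain ⟨-, -, a1, a2⟩ := h2 _ _ _ (hZ z hz).1 e
      rw [Real.log_le_iff_le_exp (Real.log_pos (by linarith)),
        Real.log_le_iff_le_exp (by positivity)] at a2
      exact (pow_le_pow_right₀ (by norm_num) (Nat.le_succ i)).trans a2

end Vale.Agent.P031
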