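import Vale.Agent.P031.Val
import Vale.Agent.P031.Mert
import Vale.Agent.P031.Ab
import Vale.Agent.P031.CollM
import Vale.Agent.P031.Cnt

namespace Vale.Agent.P031

open Finset Real Filter

theorem low_ins {u j w w₀ q : ℕ} {S : Finset ℕ} (hu : 1 ≤ u) (hR : Rep u (j + 1) w w₀ S)
    (hq : q.Prime) (hq1 : 1 ≤ lab u q) (hqK : lab u q ≤ KK u) (hn : Normal u q)
    (hT : TT (gam u S) + MM u ≤ (hh u : ℝ) * lab u q) :
    Rep u j ((q - 1) * w) w₀ (insert q S) ∧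
      gam u (insert q S) = ext ((hh u : ℝ) * lab u q) (gam u S) := by
  have hM : (0 : ℝ) < MM u := by
    unfold MM
    positivity
  have hlt : ∀ p ∈ S, lab u p < lab u q := by
    intro p hp
    have h1 := lab_le_gam hp (hR.2.1.1 p hp).2.2.1
    have h2 : gam u S 0 ≤ TT (gam u S) := le_max_left _ _
    have h3 : (hh u : ℝ) * lab u p < (hh u : ℝ) * lab u q := by linarith
    exact_mod_cast lt_of_mul_lt_mul_left h3 (Nat.cast_nonneg _)
  have hpq : ∀ p ∈ S, p < q := fun p hp => not_le.1 fun h => (hlt p hp).not_ge (lab_mono h)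
  have hqS : q ∉ S := fun h => lt_irrefl _ (hpq q h)
  refine ⟨⟨hR.1, ⟨fun p hp => ?_, fun p hp => ?_⟩, ?_, ?_⟩,
    gam_insert hqS hqK fun p hp => (hlt p hp).le⟩
  · rcases mem_insert.1 hp with rfl | hp
    · exact ⟨hq, hq1, hqK, hn⟩
    · exact hR.2.1.1 p hp
  · rcases mem_insert.1 hp with rfl | hp
    · rw [filter_insert, if_neg (lt_irrefl _), filter_true_of_mem hpq]
      have h2 : gam u S 1 ≤ TT (gam u S) := le_max_right _ _
      linarith
    · rw [filter_insert, if_neg (hpq p hp).not_gt]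
      exact hR.2.1.2 p hp
  · have := hR.2.2.1
    rw [card_insert_of_notMem hqS]
    omega
  · rw [val_insert _ hqS, hR.2.2.2]

theorem low_step : ∀ᶠ u : ℕ in atTop, ∀ j < 50, ∀ a W : ℝ, 0 ≤ W →
    a + 2 * (Nat.factorial 51 : ℝ) * (W + MM u) ≤ (u : ℝ) ^ 10 → ∀ w ∈ AA u (j + 1) a,
    ∃ P : Finset ℕ, W + 1 ≤ ∑ q ∈ P, 1 / ((q - 1 : ℕ) : ℝ) ∧ ∀ q ∈ P, AdmM u q w ∧
      (q - 1) * w ∈ AA u j (a + 2 * (Nat.factorial 51 : ℝ) * (W + MM u)) := by
  classical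
  filter_upwards [mem_AA, cells_sum, ab_mass, eventually_ge_atTop 2] with u hA hc hab hu
    j hj a W hW hle w hw
  obtain ⟨w₀, S, hR, hΦ⟩ := (hA _ _ _).1 hw
  have hu' : (2 : ℝ) ≤ u := by exact_mod_cast hu
  have hh0 : (0 : ℝ) < hh u := by
    unfold hh
    positivity
  have hM2 : 2 * (hh u : ℝ) ≤ MM u := by
    simp only [hh, MM]
    push_cast
    rw [pow_succ (u : ℝ) 8, mul_comm]
    gcongr
  have hhu : (u : ℝ) + 2 ≤ hh u := by
    simp only [hh]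
    push_cast
    have h1 : (u : ℝ) ^ 2 ≤ u ^ 8 := pow_le_pow_right₀ (by linarith) (by norm_num)
    nlinarith
  have hF : (1 : ℝ) ≤ Nat.factorial 51 := by exact_mod_cast Nat.factorial_pos 51
  have hFj : ((j + 2).factorial : ℝ) ≤ Nat.factorial 51 := by
    exact_mod_cast Nat.factorial_le (by omega)
  generalize (Nat.factorial 51 : ℝ) = F at hle hF hFj ⊢
  have hTa : TT (gam u S) ≤ a := (TT_le_Phi _ _).trans hΦ
  have hT0 : 0 ≤ TT (gam u S) := (gam_nonneg u S 0).trans (le_max_left _ _)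
  obtain ⟨τ, t1, t2⟩ : ∃ τ : ℕ, TT (gam u S) + MM u ≤ hh u * τ ∧
      hh u * τ ≤ TT (gam u S) + MM u + hh u := by
    refine ⟨⌈(TT (gam u S) + MM u) / hh u⌉₊, ?_, ?_⟩
    · rw [← div_le_iff₀' hh0]
      exact Nat.le_ceil _
    · have := (Nat.ceil_lt_add_one (div_nonneg (by linarith : 0 ≤ TT (gam u S) + MM u) hh0.le)).le
      calc _ ≤ (hh u : ℝ) * ((TT (gam u S) + MM u) / hh u + 1) := by gcongr
        _ = _ := by field_simp
  obtain ⟨n, n1, n2⟩ : ∃ n : ℕ, W ≤ hh u * n ∧ hh u * n ≤ W + hh u := by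
    refine ⟨⌈W / hh u⌉₊, ?_, ?_⟩
    · rw [← div_le_iff₀' hh0]
      exact Nat.le_ceil _
    · have := (Nat.ceil_lt_add_one (div_nonneg hW hh0.le)).le
      calc _ ≤ (hh u : ℝ) * (W / hh u + 1) := by gcongr
        _ = _ := by field_simp
  have hq : ∀ q ∈ cells u τ (τ + n + 1), q.Prime ∧ 1 ≤ lab u q ∧ lab u q ≤ KK u ∧
      TT (gam u S) + MM u ≤ (hh u : ℝ) * lab u q ∧
      (hh u : ℝ) * lab u q ≤ TT (gam u S) + (W + 2 * MM u) ∧
      (hh u : ℝ) * lab u q ≤ (u : ℝ) ^ 10 := by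
    intro q hq
    obtain ⟨q1, q2, q3⟩ := (mem_cells (by omega)).1 hq
    have q4 : (τ : ℝ) ≤ lab u q := by exact_mod_cast q2
    have q5 : (lab u q : ℝ) ≤ τ + n := by exact_mod_cast Nat.lt_succ_iff.1 q3
    have q6 := mul_le_mul_of_nonneg_left q4 hh0.le
    have q7 := mul_le_mul_of_nonneg_left q5 hh0.le
    have q8 : (hh u : ℝ) * lab u q ≤ TT (gam u S) + (W + 2 * MM u) := by linarith
    have q9 : (hh u : ℝ) * lab u q ≤ (u : ℝ) ^ 10 := by nlinarith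
    refine ⟨q1, Nat.pos_of_ne_zero fun h0 => ?_, ?_, by linarith, q8, q9⟩
    · rw [h0, Nat.cast_zero, mul_zero] at q6
      linarith
    · have q10 : (hh u : ℝ) * lab u q ≤ (hh u : ℝ) * KK u := by
        refine q9.trans ?_
        simp only [hh, KK]
        push_cast
        nlinarith [pow_pos (by linarith : (0 : ℝ) < u) 10]
      exact_mod_cast le_of_mul_le_mul_left q10 hh0
  refine ⟨(cells u τ (τ + n + 1)).filter (Normal u), ?_, fun q hqP => ?_⟩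
  · have h1 := (abs_le.1 (hc τ (τ + n + 1) (by omega))).1
    have h2 := hab ((cells u τ (τ + n + 1)).filter fun q => ¬ Normal u q) fun q hq' =>
      have h := hq q (mem_filter.1 hq').1
      ⟨h.1, h.2.1, h.2.2.1, (mem_filter.1 hq').2⟩
    have h3 : exp (-(2 * (u : ℝ) ^ 2)) ≤ 1 := exp_le_one_iff.2 (by nlinarith)
    have h4 := sum_filter_add_sum_filter_not (cells u τ (τ + n + 1)) (Normal u)
      fun q => 1 / ((q - 1 : ℕ) : ℝ)
    have h5 : ∑ q ∈ cells u τ (τ + n + 1), 1 / (q : ℝ) ≤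
        ∑ q ∈ cells u τ (τ + n + 1), 1 / ((q - 1 : ℕ) : ℝ) := by
      refine sum_le_sum fun q hq' => ?_
      have := (hq q hq').1.two_le
      exact one_div_le_one_div_of_le (by exact_mod_cast (by omega : 0 < q - 1))
        (by exact_mod_cast Nat.sub_le q 1)
    push_cast at h1
    nlinarith
  · obtain ⟨hqc, hn⟩ := mem_filter.1 hqP
    obtain ⟨q1, q2, q3, q4, q5, q6⟩ := hq q hqc
    obtain ⟨r1, r2⟩ := low_ins (by omega) hR q1 q2 q3 hn q4
    refine ⟨⟨q1, hn, by nlinarith [pow_pos (by linarith : (0 : ℝ) < u) 10], w₀, S,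
      hR.mono (Nat.zero_le _), q4⟩, (hA _ _ _).2 ⟨w₀, _, r1, ?_⟩⟩
    rw [r2]
    have h1 := Phi_ext_lip j (gam u S) (by linarith : 0 ≤ W + 2 * MM u) q5
    have h2 : Phi j (ext (TT (gam u S)) (gam u S)) ≤ a := hΦ
    have h3 := mul_le_mul_of_nonneg_right hFj (by linarith : 0 ≤ W + 2 * MM u)
    nlinarith

theorem low : ∃ C : ℝ, 1 ≤ C ∧ ∀ᶠ u : ℕ in atTop, ∀ j < 50, ∀ a W : ℝ, 0 ≤ a → 0 ≤ W →
    a + C * (W + MM u) ≤ (u : ℝ) ^ 10 →
    W * AM u (j + 1) a ≤ AM u j (a + C * (W + MM u)) := by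
  classical
  have hF : (1 : ℝ) ≤ Nat.factorial 51 := by exact_mod_cast Nat.factorial_pos 51
  refine ⟨2 * (Nat.factorial 51 : ℝ), by linarith, ?_⟩
  filter_upwards [low_step, coll_mass, one_le_AM] with u hs hc h1 j hj a W ha hW hle
  choose! P hP1 hP2 using hs j hj a W hW hle
  generalize a + 2 * (Nat.factorial 51 : ℝ) * (W + MM u) = b at hP2 ⊢
  obtain ⟨Z, hZ⟩ : ∃ Z : Finset (ℕ × ℕ), ∀ z, z ∈ Z ↔ z.2 ∈ AA u (j + 1) a ∧ z.1 ∈ P z.2 :=
    ⟨((AA u (j + 1) a).biUnion P ×ˢ AA u (j + 1) a).filter fun z => z.1 ∈ P z.2, fun z => by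
      simp only [mem_filter, mem_product, mem_biUnion]
      exact ⟨fun h => ⟨h.1.2, h.2⟩, fun h => ⟨⟨⟨_, h.1, h.2⟩, h.1⟩, h.2⟩⟩⟩
  have e1 := img Z (fun z => (z.1 - 1) * z.2) (fun v => 1 / (v : ℝ)) fun v => by positivity
  have e2 := hc ((Z ×ˢ Z).filter fun zz => zz.1 ≠ zz.2 ∧
      (zz.1.1 - 1) * zz.1.2 = (zz.2.1 - 1) * zz.2.2) fun zz hzz => by
    simp only [mem_filter, mem_product, hZ] at hzz
    obtain ⟨⟨⟨a1, a2⟩, a3, a4⟩, a5, a6⟩ := hzz
    have b1 := (hP2 _ a1 _ a2).1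
    have b2 := (hP2 _ a3 _ a4).1
    refine ⟨b1, b2, fun h => a5 (Prod.ext ?_ h), a6⟩
    rw [← h] at a6
    have b3 := Nat.eq_of_mul_eq_mul_right (AA_pos a1) a6
    have := b1.1.two_le
    have := b2.1.two_le
    omega
  have e3 : mass (Z.image fun z => (z.1 - 1) * z.2) ≤ AM u j b := by
    refine mass_mono fun v hv => ?_
    obtain ⟨z, hz, rfl⟩ := mem_image.1 hv
    exact (hP2 _ ((hZ z).1 hz).1 _ ((hZ z).1 hz).2).2
  have e4 : (W + 1) * AM u (j + 1) a ≤ ∑ z ∈ Z, 1 / (((z.1 - 1) * z.2 : ℕ) : ℝ) := by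
    rw [sum_finset_product_right Z (AA u (j + 1) a) P hZ, AM, mass, mul_sum]
    refine sum_le_sum fun w hw => ?_
    refine (mul_le_mul_of_nonneg_right (hP1 w hw) (by positivity)).trans (le_of_eq ?_)
    rw [sum_mul]
    exact sum_congr rfl fun q _ => by rw [Nat.cast_mul, one_div_mul_one_div]
  have e5 := h1 (j + 1) a (by omega) ha
  rw [mass] at e3
  linarith

end Vale.Agent.P031
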