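import Vale.Agent.P031.Val
import Vale.Agent.P031.Mert

namespace Vale.Agent.P031

open Finset Real Filter

/-- The primes that can be the top prime above `w'`. -/
def UpG (u j : ℕ) (a b : ℝ) (w' q : ℕ) : Prop :=
  ∃ w₀ S, Rep u 0 w' w₀ S ∧ a < Phi j (ext ((hh u : ℝ) * lab u q) (gam u S)) ∧
    Phi j (ext ((hh u : ℝ) * lab u q) (gam u S)) ≤ b

theorem up_mass_image (P : Finset ℕ) (w : ℕ) :
    mass (P.image fun q => (q - 1) * w) ≤ (∑ q ∈ P, 1 / ((q - 1 : ℕ) : ℝ)) * (1 / (w : ℝ)) := by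
  classical
  unfold mass
  rw [Finset.sum_mul]
  refine (Finset.sum_image_le_of_nonneg (fun _ _ => by positivity)).trans (le_of_eq ?_)
  refine Finset.sum_congr rfl fun q _ => ?_
  rw [Nat.cast_mul, one_div_mul_one_div]

theorem up_dec {u j w : ℕ} {a b : ℝ} (hu : 1 ≤ u) (ha : 0 ≤ a)
    (hmem : ∀ (j : ℕ) (a : ℝ) (w : ℕ),
      w ∈ AA u j a ↔ ∃ w₀ S, Rep u j w w₀ S ∧ Phi j (gam u S) ≤ a)
    (hb : w ∈ AA u j b) (hna : w ∉ AA u j a) :
    ∃ w' ∈ AA u (j + 1) (b + ((j + 2).factorial : ℝ) * MM u),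
      ∃ q ∈ cells u 1 (KK u + 1), UpG u j a b w' q ∧ w = (q - 1) * w' := by
  classical
  obtain ⟨w₀, S, hR, hΦ⟩ := (hmem _ _ _).1 hb
  have hlt : a < Phi j (gam u S) := by
    by_contra h
    exact hna ((hmem _ _ _).2 ⟨w₀, S, hR, not_lt.1 h⟩)
  have hne : S.Nonempty := by
    rw [Finset.nonempty_iff_ne_empty]
    rintro rfl
    rw [gam_empty, Phi_zero] at hlt
    linarith
  obtain ⟨hB, hG, hc, hv⟩ := hR
  set q := S.max' hne with hq
  have hqS : q ∈ S := S.max'_mem hne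
  have hle : ∀ p ∈ S, p ≤ q := fun p hp => S.le_max' p hp
  have hins : insert q (S.erase q) = S := Finset.insert_erase hqS
  have hfil : (S.filter fun p => p < q) = S.erase q := by
    ext p
    rw [mem_filter, mem_erase]
    constructor
    · rintro ⟨h1, h2⟩
      exact ⟨h2.ne, h1⟩
    · rintro ⟨h1, h2⟩
      exact ⟨h2, lt_of_le_of_ne (hle p h2) h1⟩
  obtain ⟨hqp, hq1, hqK, -⟩ := hG.1 q hqS
  have hlab : ∀ p ∈ S.erase q, lab u p ≤ lab u q := fun p hp =>
    lab_mono (hle p (Finset.mem_of_mem_erase hp))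
  have hgam : gam u S = ext ((hh u : ℝ) * lab u q) (gam u (S.erase q)) := by
    rw [← gam_insert (Finset.notMem_erase q S) hqK hlab, hins]
  have hG' : GoodS u (S.erase q) := hG.lower (Finset.erase_subset _ _) fun p hp r hr hrp =>
    Finset.mem_erase.2 ⟨(hrp.trans_le (hle p (Finset.mem_of_mem_erase hp))).ne, hr⟩
  have hcard : (S.erase q).card + (j + 1) ≤ LL u := by
    rw [Finset.card_erase_of_mem hqS]
    have := hne.card_pos
    omega
  have hR' : Rep u (j + 1) (val w₀ (S.erase q)) w₀ (S.erase q) := ⟨hB, hG', hcard, rfl⟩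
  have hM : (0 : ℝ) ≤ MM u := by positivity
  have hT : TT (gam u (S.erase q)) ≤ (hh u : ℝ) * lab u q + MM u := by
    refine max_le ?_ ?_
    · linarith [gam_zero_le hlab]
    · have := hG.2 q hqS
      rwa [hfil] at this
  refine ⟨val w₀ (S.erase q), (hmem _ _ _).2 ⟨w₀, S.erase q, hR', ?_⟩, q,
    (mem_cells hu).2 ⟨hqp, hq1, by omega⟩,
    ⟨w₀, S.erase q, hR'.mono (Nat.zero_le _), hgam ▸ hlt, hgam ▸ hΦ⟩, ?_⟩
  · have h1 := Phi_ext_lip j (gam u (S.erase q)) hM hT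
    rw [← hgam] at h1
    show Phi j (ext (TT (gam u (S.erase q))) (gam u (S.erase q))) ≤ _
    linarith
  · rw [← val_insert w₀ (Finset.notMem_erase q S), hins, hv]

theorem up_gap {u j w' q₁ q₂ : ℕ} {a b : ℝ} (hj : j < 50)
    (hvd : ∀ (w w₀ w₀' : ℕ) (S S' : Finset ℕ),
      Rep u 0 w w₀ S → Rep u 0 w w₀' S' → ∀ m : ℕ,
      gam u S m ≤ gam u S' m + (hh u : ℝ) * ((m : ℝ) + LL u + 1) ^ 2)
    (hL : 4 * (LL u : ℝ) ^ 2 ≤ u) (h₁ : UpG u j a b w' q₁) (h₂ : UpG u j a b w' q₂)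
    (hle : lab u q₂ ≤ lab u q₁) :
    ((lab u q₁ : ℝ) - lab u q₂) * hh u ≤
      3 ^ 50 * (b - a + (Nat.factorial 51 : ℝ) * MM u) := by
  obtain ⟨w₁, S₁, hR₁, -, hb⟩ := h₁
  obtain ⟨w₂, S₂, hR₂, ha, hb₂⟩ := h₂
  have hh0 : (0 : ℝ) ≤ hh u := by positivity
  have hM : (0 : ℝ) ≤ MM u := by positivity
  have ht : (hh u : ℝ) * lab u q₂ ≤ (hh u : ℝ) * lab u q₁ := by
    gcongr
  have h1 := Phi_slope j (gam u S₁) ht
  have h200 : (200 : ℝ) ≤ LL u := by exact_mod_cast le_LL u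
  have h2 := Phi_ext_lip' j ((hh u : ℝ) * lab u q₂) (γ := gam u S₂) (γ' := gam u S₁) hM
    (fun m hm => by
      have h3 := hvd w' w₂ w₁ S₂ S₁ hR₂ hR₁ m
      have hm' : (m : ℝ) ≤ 51 := by exact_mod_cast (by omega : m ≤ 51)
      have h4 : ((m : ℝ) + LL u + 1) ^ 2 ≤ 4 * (LL u : ℝ) ^ 2 := by
        have : (m : ℝ) + LL u + 1 ≤ 2 * LL u := by linarith
        calc ((m : ℝ) + LL u + 1) ^ 2 ≤ (2 * LL u) ^ 2 := by gcongr
          _ = _ := by ring
      have h5 : (hh u : ℝ) * ((m : ℝ) + LL u + 1) ^ 2 ≤ MM u := by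
        calc (hh u : ℝ) * ((m : ℝ) + LL u + 1) ^ 2 ≤ (hh u : ℝ) * u := by
              gcongr
              exact h4.trans hL
          _ = MM u := by
              simp only [hh, MM]
              push_cast
              ring
      linarith)
  have hf : (((j + 1).factorial : ℕ) : ℝ) ≤ (Nat.factorial 51 : ℝ) := by
    exact_mod_cast Nat.factorial_le (by omega)
  have hf0 : (0 : ℝ) ≤ (Nat.factorial 51 : ℝ) := by positivity
  generalize (Nat.factorial 51 : ℝ) = F at hf hf0 ⊢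
  have h6 : (((j + 1).factorial : ℕ) : ℝ) * MM u ≤ F * MM u := by gcongr
  have h7 : ((hh u : ℝ) * lab u q₁ - (hh u : ℝ) * lab u q₂) / 3 ^ (j + 1) ≤
      b - a + F * MM u := by linarith
  rw [div_le_iff₀ (by positivity)] at h7
  have h8 : (3 : ℝ) ^ (j + 1) ≤ 3 ^ 50 := pow_le_pow_right₀ (by norm_num) (by omega)
  have h9 : 0 ≤ b - a + F * MM u := by
    have : 0 ≤ F * MM u := by positivity
    linarith
  calc ((lab u q₁ : ℝ) - lab u q₂) * hh u
      = (hh u : ℝ) * lab u q₁ - (hh u : ℝ) * lab u q₂ := by ring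
    _ ≤ (b - a + F * MM u) * 3 ^ (j + 1) := h7
    _ ≤ (b - a + F * MM u) * 3 ^ 50 := by gcongr
    _ = _ := by ring

theorem up : ∃ C : ℝ, 1 ≤ C ∧ ∀ᶠ u : ℕ in atTop, ∀ j < 50, ∀ a b : ℝ, 0 ≤ a → a ≤ b →
    AM u j b - AM u j a ≤ C * (b - a + MM u) * AM u (j + 1) (b + C * MM u) := by
  classical
  obtain ⟨F, hF⟩ : ∃ F : ℝ, F = (Nat.factorial 51 : ℝ) := ⟨_, rfl⟩
  obtain ⟨T, hT⟩ : ∃ T : ℝ, T = 3 ^ 50 := ⟨_, rfl⟩
  have hF1 : 1 ≤ F := by
    rw [hF]
    exact_mod_cast Nat.factorial_pos 51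
  have hT1 : 1 ≤ T := by
    rw [hT]
    exact one_le_pow₀ (by norm_num)
  have hTF : F ≤ T * F := by nlinarith
  refine ⟨2 * (T * F + 2), by nlinarith, ?_⟩
  filter_upwards [mem_AA, vd, sum_inv_pred_le, ev_L_pow 2 4, eventually_ge_atTop 1] with
    u hmem hvd hsum hL hu j hj a b ha hab
  have hM : (0 : ℝ) ≤ MM u := by positivity
  have hu' : (1 : ℝ) ≤ u := by exact_mod_cast hu
  have hhM : (hh u : ℝ) ≤ MM u := by
    simp only [hh, MM]
    push_cast
    exact pow_le_pow_right₀ hu' (by norm_num)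
  have huM : (u : ℝ) ≤ MM u := by
    simp only [MM]
    push_cast
    exact le_self_pow₀ hu' (by norm_num)
  set A' := AA u (j + 1) (b + ((j + 2).factorial : ℝ) * MM u) with hA'
  set P : ℕ → Finset ℕ := fun w' => (cells u 1 (KK u + 1)).filter (UpG u j a b w') with hP
  have hC0 : 0 ≤ 2 * (T * F + 2) * (b - a + MM u) := by
    have : 0 ≤ b - a + MM u := by linarith
    have : 0 ≤ T * F := by nlinarith
    positivity
  have hPs : ∀ w', ∑ q ∈ P w', 1 / ((q - 1 : ℕ) : ℝ) ≤ 2 * (T * F + 2) * (b - a + MM u) := by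
    intro w'
    rcases (P w').eq_empty_or_nonempty with h | h
    · rw [h, Finset.sum_empty]
      exact hC0
    obtain ⟨q₁, hq₁, hmax⟩ := (P w').exists_max_image (lab u) h
    obtain ⟨q₂, hq₂, hmin⟩ := (P w').exists_min_image (lab u) h
    have h12 : lab u q₂ ≤ lab u q₁ := hmax q₂ hq₂
    have h1 := hsum (lab u q₂) (lab u q₁ + 1) (P w') (by omega) fun p hp =>
      ⟨((mem_cells hu).1 (Finset.mem_filter.1 hp).1).1, hmin p hp, Nat.lt_succ_of_le (hmax p hp)⟩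
    have h2 := up_gap hj hvd hL (Finset.mem_filter.1 hq₁).2 (Finset.mem_filter.1 hq₂).2 h12
    rw [← hF, ← hT] at h2
    push_cast at h1
    have h3 : ((lab u q₁ : ℝ) + 1 - lab u q₂) * hh u =
        ((lab u q₁ : ℝ) - lab u q₂) * hh u + hh u := by ring
    have h4 : T * (b - a + F * MM u) ≤ T * F * (b - a + MM u) := by
      have : T * (b - a) ≤ T * F * (b - a) := by
        have : T ≤ T * F := by nlinarith
        exact mul_le_mul_of_nonneg_right this (by linarith)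
      nlinarith
    nlinarith
  have hsub : AA u j b \ AA u j a ⊆
      A'.biUnion fun w' => (P w').image fun q => (q - 1) * w' := by
    intro w hw
    obtain ⟨hb, hna⟩ := Finset.mem_sdiff.1 hw
    obtain ⟨w', hw', q, hq, hG, rfl⟩ := up_dec hu ha hmem hb hna
    exact Finset.mem_biUnion.2 ⟨w', hw',
      Finset.mem_image.2 ⟨q, Finset.mem_filter.2 ⟨hq, hG⟩, rfl⟩⟩
  have hf : (((j + 2).factorial : ℕ) : ℝ) ≤ F := by
    rw [hF]
    exact_mod_cast Nat.factorial_le (by omega)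
  have hmono : mass A' ≤ AM u (j + 1) (b + 2 * (T * F + 2) * MM u) := by
    refine mass_mono (AA_mono u (j + 1) ?_)
    have : (((j + 2).factorial : ℕ) : ℝ) * MM u ≤ 2 * (T * F + 2) * MM u :=
      mul_le_mul_of_nonneg_right (by nlinarith) hM
    linarith
  calc AM u j b - AM u j a = mass (AA u j b \ AA u j a) := (mass_sdiff (AA_mono u j hab)).symm
    _ ≤ ∑ w' ∈ A', mass ((P w').image fun q => (q - 1) * w') :=
        (mass_mono hsub).trans (mass_biUnion_le _ _)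
    _ ≤ ∑ w' ∈ A', 2 * (T * F + 2) * (b - a + MM u) * (1 / (w' : ℝ)) := by
        refine Finset.sum_le_sum fun w' _ => (up_mass_image _ _).trans ?_
        exact mul_le_mul_of_nonneg_right (hPs w') (by positivity)
    _ = 2 * (T * F + 2) * (b - a + MM u) * mass A' := by
        rw [← Finset.mul_sum]
        rfl
    _ ≤ _ := mul_le_mul_of_nonneg_left hmono hC0

end Vale.Agent.P031
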