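import Vale.Agent.P031.Abs
import Vale.Agent.P031.Up
import Vale.Agent.P031.Low
import Vale.Agent.P031.Dbl

namespace Vale.Agent.P031

open Finset Real Filter

theorem bd_ev (c : ℝ) : ∀ᶠ u : ℕ in atTop, c ≤ (LL u : ℝ) := by
  filter_upwards [(tendsto_log_atTop.comp tendsto_natCast_atTop_atTop).eventually_ge_atTop c,
    eventually_ge_atTop 1] with u h hu
  exact h.trans (log_le_LL hu)

theorem bd {ε : ℝ} (hε : 0 < ε) : ∀ᶠ u : ℕ in atTop, ∀ s : ℝ, (u : ℝ) ^ 10 / 2 ≤ s →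
    s ≤ (u : ℝ) ^ 10 →
    (LL u : ℝ) * (AM u 0 (s + 2 * MM u) - AM u 0 (s - 2 * MM u)) ≤
      ε * AM u 0 (s - 2 * MM u) := by
  obtain ⟨C₁, c1, hup⟩ := up
  obtain ⟨C₂, c2, hlow⟩ := low
  obtain ⟨C, a1, a2⟩ : ∃ C, C₁ ≤ C ∧ C₂ ≤ C := ⟨max C₁ C₂, le_max_left _ _, le_max_right _ _⟩
  have hC : 1 ≤ C := c1.trans a1
  filter_upwards [hup, hlow, dbl, bd_ev (12 * C ^ 2), bd_ev (24 * C ^ 2 / ε), ev_L_pow 100 20,
    ev_L_pow 0 (1600 * C), ev_L_pow 5001 (2 * 10 ^ 4 * (4800 * C ^ 2) ^ 50 / ε),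
    eventually_ge_atTop 1] with u hup hlow hd l1 l2 l3 l4 l5 hu s s1 s2
  have hu' : (1 : ℝ) ≤ u := by exact_mod_cast hu
  have hL : (200 : ℝ) ≤ LL u := by exact_mod_cast le_LL u
  have hM : (MM u : ℝ) = u ^ 9 := by
    unfold MM
    push_cast
    rfl
  have hM0 : (0 : ℝ) < MM u := by
    rw [hM]
    positivity
  have h10 : (u : ℝ) ^ 10 = MM u * u := by
    rw [hM]
    ring
  rw [pow_zero, mul_one] at l4
  have key := abs_boundary (AM u) 50 (by norm_num) C (2 * MM u) s ((LL u : ℝ) ^ 2)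
    ((10 * (u : ℝ) ^ 10) ^ 4) hC (by positivity) (by nlinarith) (by positivity)
    (by
      rw [← pow_mul]
      nlinarith [mul_le_mul_of_nonneg_left l3 hM0.le])
    (by
      push_cast
      nlinarith [mul_le_mul_of_nonneg_left l4 hM0.le])
    (AM_nonneg u) (AM_mono u)
    (fun j hj a b ha hab => (hup j hj a b ha hab).trans (mul_le_mul
      (mul_le_mul a1 (by linarith) (by linarith) (by linarith))
      (AM_mono u _ (by nlinarith)) (AM_nonneg _ _ _)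
      (mul_nonneg (by linarith) (by linarith))))
    (fun j hj a W ha hW hle => by
      have h1 : C₂ * (W + MM u) ≤ C * (W + 2 * MM u) :=
        mul_le_mul a2 (by linarith) (by linarith) (by linarith)
      exact (hlow j hj a W ha hW (by linarith)).trans (AM_mono u _ (by linarith)))
    (hd s s1)
  have b1 : (LL u : ℝ) * (12 * C ^ 2 / (LL u : ℝ) ^ 2) ≤ ε / 2 := by
    rw [div_le_iff₀ hε] at l2
    have : (LL u : ℝ) * (12 * C ^ 2 / (LL u : ℝ) ^ 2) = 12 * C ^ 2 / LL u := by field_simp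
    rw [this, div_le_iff₀ (by linarith)]
    linarith
  have s0 : 0 < s := lt_of_lt_of_le (by positivity) s1
  have b2 : 24 * ((50 : ℕ) : ℝ) * C ^ 2 * ((LL u : ℝ) ^ 2) ^ 50 * (2 * MM u) / s ≤
      4800 * C ^ 2 * (LL u : ℝ) ^ 100 / u := by
    rw [div_le_div_iff₀ s0 (by linarith), ← pow_mul]
    push_cast
    have h1 : 0 ≤ C ^ 2 * (LL u : ℝ) ^ 100 := by positivity
    nlinarith [mul_le_mul_of_nonneg_left s1 h1]
  have b3 : (LL u : ℝ) * ((10 * (u : ℝ) ^ 10) ^ 4 *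
      (4800 * C ^ 2 * (LL u : ℝ) ^ 100 / u) ^ 50) ≤ ε / 2 := by
    have e : (LL u : ℝ) * ((10 * (u : ℝ) ^ 10) ^ 4 * (4800 * C ^ 2 * (LL u : ℝ) ^ 100 / u) ^ 50) =
        ε / 2 * (2 * 10 ^ 4 * (4800 * C ^ 2) ^ 50 / ε * (LL u : ℝ) ^ 5001 / u ^ 10) := by
      rw [div_pow, mul_pow (4800 * C ^ 2), ← pow_mul]
      generalize (4800 * C ^ 2) ^ 50 = A
      rw [pow_succ (LL u : ℝ) 5000]
      generalize (LL u : ℝ) ^ 5000 = B
      field_simp
    rw [e]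
    refine mul_le_of_le_one_right (by positivity) ?_
    rw [div_le_one (by positivity)]
    exact l5.trans (le_self_pow₀ hu' (by norm_num))
  have b4 : (LL u : ℝ) * (12 * C ^ 2 / (LL u : ℝ) ^ 2 + (10 * (u : ℝ) ^ 10) ^ 4 *
      (24 * ((50 : ℕ) : ℝ) * C ^ 2 * ((LL u : ℝ) ^ 2) ^ 50 * (2 * MM u) / s) ^ 50) ≤ ε := by
    have h1 : (LL u : ℝ) * ((10 * (u : ℝ) ^ 10) ^ 4 *
        (24 * ((50 : ℕ) : ℝ) * C ^ 2 * ((LL u : ℝ) ^ 2) ^ 50 * (2 * MM u) / s) ^ 50) ≤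
        (LL u : ℝ) * ((10 * (u : ℝ) ^ 10) ^ 4 * (4800 * C ^ 2 * (LL u : ℝ) ^ 100 / u) ^ 50) := by
      gcongr
    rw [mul_add]
    linarith
  calc _ ≤ _ := mul_le_mul_of_nonneg_left key (by linarith)
    _ ≤ _ := by
      rw [← mul_assoc]
      exact mul_le_mul_of_nonneg_right b4 (AM_nonneg _ _ _)

end Vale.Agent.P031
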