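import Vale.Agent.P031.Sv
import Vale.Agent.P031.Dy

namespace Vale.Agent.P031

open Finset Real Filter

theorem sm_gen {X c ℓ : ℝ} {ν : ℕ} {P : Finset ℕ} (c0 : 0 ≤ c)
    (hP : ∀ r ∈ P, ℓ ≤ log (r : ℝ) ∧ 2 * (r : ℝ) ≤ X ∧ r.Prime)
    (h : ∀ (t : ℝ) (R : Finset ℕ), 2 ≤ t → t ≤ X → R ⊆ P → (∀ r ∈ R, (r : ℝ) ≤ t) →
      (R.card : ℝ) ≤ c * (t / log t ^ ν)) {b : ℝ}
    (hb : ∀ I : Finset ℕ, (∀ i ∈ I, ℓ ≤ log ((2 : ℝ) ^ (i + 1))) →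
      ∑ i ∈ I, 1 / log ((2 : ℝ) ^ (i + 1)) ^ ν ≤ b) : mass P ≤ 2 * c * b := by
  have k1 : ∀ r ∈ P, (r : ℝ) ≤ 2 ^ (Nat.log 2 r + 1) := fun r _ => by
    exact_mod_cast (Nat.lt_pow_succ_log_self (by norm_num) r).le
  refine (dyadic P id (fun r hr => (hP r hr).2.2.one_le) c ν fun i ⟨r, hr, e⟩ => ?_).trans
    (mul_le_mul_of_nonneg_left (hb _ fun i hi => ?_) (by positivity))
  · refine h _ _ (le_self_pow₀ (by norm_num) (by omega)) ?_ (Finset.filter_subset _ _)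
      fun w hw => ?_
    · have h1 := Nat.pow_log_le_self 2 (hP r hr).2.2.ne_zero
      have h2 : (2 : ℝ) ^ Nat.log 2 r ≤ r := by exact_mod_cast h1
      rw [← e, pow_succ]
      have := (hP r hr).2.1
      simp only [id]
      linarith
    · obtain ⟨w1, w2⟩ := Finset.mem_filter.1 hw
      rw [← w2]
      exact k1 w w1
  · obtain ⟨r, hr, rfl⟩ := Finset.mem_image.1 hi
    exact (hP r hr).1.trans (Real.log_le_log (by exact_mod_cast (hP r hr).2.2.pos) (k1 r hr))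

theorem sm_fin {u : ℕ} (hu : 2 ≤ u) {x : ℝ} (hx : 0 < x) :
    2 * (u : ℝ) ^ 70 * (4 / x) ≤ (u : ℝ) ^ 80 / x := by
  have h1 : (2 : ℝ) ^ 10 ≤ (u : ℝ) ^ 10 := pow_le_pow_left₀ (by norm_num) (by exact_mod_cast hu) _
  rw [← mul_div_assoc]
  refine div_le_div_of_nonneg_right ?_ hx.le
  rw [show (u : ℝ) ^ 80 = (u : ℝ) ^ 70 * (u : ℝ) ^ 10 by ring]
  have : (0 : ℝ) ≤ (u : ℝ) ^ 70 := by positivity
  nlinarith

theorem sm2 : ∀ᶠ u : ℕ in atTop, ∀ (ℓ : ℝ) (A : ℕ) (P : Finset ℕ), 1 ≤ ℓ →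
    1 ≤ A → (A : ℝ) ≤ XX u →
    (∀ r ∈ P, ℓ ≤ log (r : ℝ) ∧ 2 * (r : ℝ) ≤ XX u ∧ r.Prime ∧ (A * r + 1).Prime) →
    mass P ≤ (u : ℝ) ^ 80 / ℓ := by
  filter_upwards [sv2, eventually_ge_atTop 2] with u h hu ℓ A P l1 A1 AX hP
  refine (sm_gen (X := XX u) (c := (u : ℝ) ^ 70) (ℓ := ℓ) (ν := 2) (by positivity)
    (fun r hr => ⟨(hP r hr).1, (hP r hr).2.1, (hP r hr).2.2.1⟩)
    (fun t R t2 tX hR hRt => h t A R t2 tX A1 AX fun r hr => ⟨hRt r hr, (hP r (hR hr)).2.2⟩)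
    fun I hI => dy_two I l1 hI).trans (sm_fin hu (by linarith))

theorem sm3 : ∀ᶠ u : ℕ in atTop, ∀ (ℓ : ℝ) (A B : ℕ) (P : Finset ℕ), 1 ≤ ℓ →
    1 ≤ A → (A : ℝ) ≤ XX u → 1 ≤ B → (B : ℝ) ≤ XX u → A ≠ B →
    (∀ r ∈ P, ℓ ≤ log (r : ℝ) ∧ 2 * (r : ℝ) ≤ XX u ∧ r.Prime ∧ (A * r + 1).Prime ∧
      (B * r + 1).Prime) →
    mass P ≤ (u : ℝ) ^ 80 / ℓ ^ 2 := by
  filter_upwards [sv3, eventually_ge_atTop 2] with u h hu ℓ A B P l1 A1 AX B1 BX AB hP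
  refine (sm_gen (X := XX u) (c := (u : ℝ) ^ 70) (ℓ := ℓ) (ν := 3) (by positivity)
    (fun r hr => ⟨(hP r hr).1, (hP r hr).2.1, (hP r hr).2.2.1⟩)
    (fun t R t2 tX hR hRt =>
      h t A B R t2 tX A1 AX B1 BX AB fun r hr => ⟨hRt r hr, (hP r (hR hr)).2.2⟩)
    fun I hI => dy_three I l1 hI).trans (sm_fin hu (by positivity))

end Vale.Agent.P031
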