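import Vale.Agent.P031.Om
import Vale.Agent.P031.Sm

namespace Vale.Agent.P031

open Finset Real Filter

/-- Remove the factor `r` from row `a` of the first and row `b` of the second factorization. -/
def eindPeel {R : ℕ} (a b : Fin R) (r : ℕ) (c : (Fin R → ℕ) × (Fin R → ℕ)) :
    (Fin R → ℕ) × (Fin R → ℕ) :=
  (Function.update c.1 a (c.1 a / r), Function.update c.2 b (c.2 b / r))

theorem eind_prod_update {R : ℕ} (d : Fin R → ℕ) (a : Fin R) {r : ℕ} (hr : r ∣ d a) :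
    ∏ i, d i = r * ∏ i, Function.update d a (d a / r) i := by
  rw [Finset.prod_update_of_mem (Finset.mem_univ a), ← mul_assoc, Nat.mul_div_cancel' hr,
    ← Finset.mul_prod_erase _ _ (Finset.mem_univ a), Finset.sdiff_singleton_eq_erase]

theorem eind_cmass_nonneg {R : ℕ} (Z : Finset ((Fin R → ℕ) × (Fin R → ℕ))) : 0 ≤ cmass Z :=
  Finset.sum_nonneg fun _ _ => by positivity

theorem eind_peel {R : ℕ} (Z : Finset ((Fin R → ℕ) × (Fin R → ℕ))) (a b : Fin R)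
    (r : (Fin R → ℕ) × (Fin R → ℕ) → ℕ) (hr : ∀ c ∈ Z, r c ∣ c.1 a ∧ r c ∣ c.2 b) (m : ℝ)
    (hm : ∀ (A B : ℕ) (P : Finset ℕ),
      (∀ x ∈ P, ∃ c ∈ Z, r c = x ∧ c.1 a = A * x ∧ c.2 b = B * x) → mass P ≤ m) :
    cmass Z ≤ m * cmass (Z.image fun c => eindPeel a b (r c) c) := by
  classical
  unfold cmass
  rw [← Finset.sum_fiberwise_of_maps_to (s := Z) (t := Z.image fun c => eindPeel a b (r c) c)
    (g := fun c => eindPeel a b (r c) c) (fun c hc => Finset.mem_image_of_mem _ hc), Finset.mul_sum]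
  refine Finset.sum_le_sum fun e _ => ?_
  have h1 : ∀ c ∈ Z.filter (fun c => eindPeel a b (r c) c = e), c.1 a = e.1 a * r c := by
    intro c hc
    obtain ⟨hcZ, rfl⟩ := Finset.mem_filter.1 hc
    simp only [eindPeel, Function.update_self]
    exact (Nat.div_mul_cancel (hr c hcZ).1).symm
  have h2 : ∀ c ∈ Z.filter (fun c => eindPeel a b (r c) c = e), c.2 b = e.2 b * r c := by
    intro c hc
    obtain ⟨hcZ, rfl⟩ := Finset.mem_filter.1 hc
    simp only [eindPeel, Function.update_self]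
    exact (Nat.div_mul_cancel (hr c hcZ).2).symm
  have hinj : Set.InjOn r (Z.filter (fun c => eindPeel a b (r c) c = e) : Set _) := by
    intro c hc c' hc' hcc
    have hc0 := Finset.mem_coe.1 hc
    have hc0' := Finset.mem_coe.1 hc'
    have he := (Finset.mem_filter.1 hc0).2
    have he' := (Finset.mem_filter.1 hc0').2
    refine Prod.ext (funext fun i => ?_) (funext fun i => ?_)
    · by_cases hi : i = a
      · subst hi
        rw [h1 c hc0, h1 c' hc0', hcc]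
      · have := congrFun (congrArg Prod.fst (he.trans he'.symm)) i
        simpa [eindPeel, Function.update_of_ne hi] using this
    · by_cases hi : i = b
      · subst hi
        rw [h2 c hc0, h2 c' hc0', hcc]
      · have := congrFun (congrArg Prod.snd (he.trans he'.symm)) i
        simpa [eindPeel, Function.update_of_ne hi] using this
  have h3 : ∑ c ∈ Z.filter (fun c => eindPeel a b (r c) c = e), 1 / ((∏ i, c.1 i : ℕ) : ℝ) =
      mass ((Z.filter (fun c => eindPeel a b (r c) c = e)).image r) *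
        (1 / ((∏ i, e.1 i : ℕ) : ℝ)) := by
    unfold mass
    rw [Finset.sum_image hinj, Finset.sum_mul]
    refine Finset.sum_congr rfl fun c hc => ?_
    obtain ⟨hcZ, rfl⟩ := Finset.mem_filter.1 hc
    rw [eind_prod_update c.1 a (hr c hcZ).1]
    simp only [eindPeel]
    push_cast
    rw [one_div_mul_one_div]
  rw [h3]
  refine mul_le_mul_of_nonneg_right (hm (e.1 a) (e.2 b) _ fun x hx => ?_) (by positivity)
  obtain ⟨c, hc, rfl⟩ := Finset.mem_image.1 hx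
  exact ⟨c, (Finset.mem_filter.1 hc).1, rfl, h1 c hc, h2 c hc⟩

theorem eind_rowOK {u R : ℕ} {ξ d : Fin R → ℕ} (h : RowOK u ξ d) (a : Fin R) {r : ℕ}
    (hr : r ∣ d a) : RowOK u ξ (Function.update d a (d a / r)) := by
  intro i
  by_cases hi : i = a
  · subst hi
    obtain ⟨h1, h2, h3, h4⟩ := h i
    have hd : d i / r ∣ d i := Nat.div_dvd_of_dvd hr
    have h0 : d i ≠ 0 := by omega
    rw [Function.update_self]
    exact ⟨Nat.pos_of_dvd_of_pos hd h1, h2.of_dvd hd h0, (OmC_mono u 0 hd h0).trans h3,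
      fun j hj => (OmC_mono u j hd h0).trans (h4 j hj)⟩
  · rw [Function.update_of_ne hi]
    exact h i

theorem eind_con {u R : ℕ} {ξ d : Fin R → ℕ} {C : Finset (Fin R)} (h : Con u ξ C d) (a : Fin R)
    (x : ℕ) : Con u ξ (C.erase a) (Function.update d a x) := by
  intro i hi
  obtain ⟨hia, hi⟩ := Finset.mem_erase.1 hi
  rw [Function.update_of_ne hia]
  exact h i hi

theorem eind_cfg {u R : ℕ} {ξ ξ' : Fin R → ℕ} {C C' : Finset (Fin R)}
    {c : (Fin R → ℕ) × (Fin R → ℕ)} (h : Cfg u ξ ξ' C C' c) (a b : Fin R) {r : ℕ} (hr0 : 0 < r)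
    (ha : r ∣ c.1 a) (hb : r ∣ c.2 b) :
    Cfg u ξ ξ' (C.erase a) (C'.erase b) (eindPeel a b r c) := by
  obtain ⟨⟨h1, h2, h3⟩, h4, h5, h6⟩ := h
  refine ⟨⟨eind_rowOK h1 a ha, eind_rowOK h2 b hb, ?_⟩, eind_con h4 a _, eind_con h5 b _, ?_⟩
  · rw [eind_prod_update c.1 a ha, eind_prod_update c.2 b hb] at h3
    exact Nat.eq_of_mul_eq_mul_left hr0 h3
  · intro i hi j hj
    obtain ⟨hia, hi⟩ := Finset.mem_erase.1 hi
    obtain ⟨hjb, hj⟩ := Finset.mem_erase.1 hj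
    simp only [eindPeel, Function.update_of_ne hia, Function.update_of_ne hjb]
    exact h6 i hi j hj

theorem eind_Om_le {u R : ℕ} (hu : 1 ≤ u) {ξ d : Fin R → ℕ} (h : RowOK u ξ d) (a : Fin R)
    (hξ : ξ a ≤ KK u) : Om (d a) ≤ BB u := by
  obtain ⟨-, h2, h3, h4⟩ := h a
  have hD : DD u ≤ hh u := Nat.pow_le_pow_right hu (by norm_num)
  rw [Om_eq_sum (h2.mono hξ), Finset.sum_range_succ']
  have h5 : ∑ j ∈ range (KK u), OmC u (j + 1) (d a) ≤ KK u * (hh u + DD u) := by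
    have := Finset.sum_le_card_nsmul (range (KK u)) (fun j => OmC u (j + 1) (d a)) (hh u + DD u)
      (fun j _ => h4 (j + 1) (by omega))
    simpa using this
  unfold BB
  nlinarith

/-- The size facts for a constrained row `d = A * x`. -/
theorem eind_row {u : ℕ} (hu : 2 ≤ u) {ξ d A x : ℕ} (hξK : ξ ≤ KK u) (hξ : 1 ≤ ξ)
    (hl : lab u (d + 1) = ξ) (hd : d = A * x) (hx : x.Prime) (hOm : Om d ≤ BB u)
    (hlog : log (d : ℝ) ≤ (Om d : ℝ) * log (x : ℝ)) :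
    1 ≤ A ∧ (A : ℝ) ≤ XX u ∧ 2 * (x : ℝ) ≤ XX u ∧
      exp ((ξ : ℝ) * hh u) / (80 * (u : ℝ) ^ 10) ≤ log (x : ℝ) := by
  have h3 : 3 ≤ d + 1 := three_le_of_lab (u := u) (by omega)
  have hX := two_mul_le_XX hu (p := d + 1) (by omega)
  have hA : 1 ≤ A := by
    rcases Nat.eq_zero_or_pos A with h | h
    · subst h; simp at hd; omega
    · exact h
  have hx1 := hx.one_lt
  have hAd : A ≤ d := by rw [hd]; exact Nat.le_mul_of_pos_right _ (by omega)
  have hxd : x ≤ d := by rw [hd]; exact Nat.le_mul_of_pos_left _ hA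
  have hAd' : (A : ℝ) ≤ d := by exact_mod_cast hAd
  have hxd' : (x : ℝ) ≤ d := by exact_mod_cast hxd
  have hd2 : (2 : ℝ) ≤ d := by exact_mod_cast (by omega : 2 ≤ d)
  push_cast at hX
  refine ⟨hA, by linarith, by linarith, ?_⟩
  have he := exp_le_log_of_le_lab (u := u) (p := d + 1) (j := ξ) (by omega) hξ hl.ge
  have h4 : log ((d + 1 : ℕ) : ℝ) ≤ 2 * log (d : ℝ) := by
    have : log ((d : ℝ) ^ 2) = 2 * log (d : ℝ) := by rw [Real.log_pow]; norm_num
    rw [← this]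
    refine Real.log_le_log (by positivity) ?_
    push_cast
    nlinarith
  have hB := BB_le (u := u) (by omega)
  have hOm' : (Om d : ℝ) ≤ 40 * (u : ℝ) ^ 10 := le_trans (by exact_mod_cast hOm) hB
  have hlx : 0 ≤ log (x : ℝ) := Real.log_natCast_nonneg x
  have hupos : (0 : ℝ) < u := by exact_mod_cast (by omega : 0 < u)
  rw [div_le_iff₀ (by positivity)]
  have := mul_le_mul_of_nonneg_right hOm' hlx
  nlinarith

/-- Existence of the top prime and of its class. -/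
theorem eind_class {u R : ℕ} {ξ ξ' : Fin R → ℕ} {C C' : Finset (Fin R)}
    (hne : 1 ≤ C.card + C'.card) {c : (Fin R → ℕ) × (Fin R → ℕ)} (h : Cfg u ξ ξ' C C' c) :
    ∃ a b : Fin R, (a ∈ C ∨ b ∈ C') ∧ ∃ r : ℕ, r.Prime ∧ r ∣ c.1 a ∧ r ∣ c.2 b ∧
      (a ∈ C → log (c.1 a : ℝ) ≤ (Om (c.1 a) : ℝ) * log (r : ℝ)) ∧
      (b ∈ C' → log (c.2 b : ℝ) ≤ (Om (c.2 b) : ℝ) * log (r : ℝ)) := by
  obtain ⟨⟨h1, h2, h3⟩, h4, h5, -⟩ := h
  set N := (∏ a ∈ C, c.1 a) * ∏ b ∈ C', c.2 b with hN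
  have hp1 : 0 < ∏ a ∈ C, c.1 a := Finset.prod_pos fun a _ => (h1 a).1
  have hp2 : 0 < ∏ b ∈ C', c.2 b := Finset.prod_pos fun b _ => (h2 b).1
  have hN0 : 0 < N := Nat.mul_pos hp1 hp2
  have hd1 : ∀ a ∈ C, c.1 a ∣ N := fun a ha => (Finset.dvd_prod_of_mem _ ha).mul_right _
  have hd2 : ∀ b ∈ C', c.2 b ∣ N := fun b hb => (Finset.dvd_prod_of_mem _ hb).mul_left _
  have hN2 : 2 ≤ N := by
    rcases C.eq_empty_or_nonempty with hC | ⟨a, ha⟩
    · have : C'.Nonempty := by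
        rw [← Finset.card_pos]
        rw [hC, Finset.card_empty, zero_add] at hne
        exact hne
      obtain ⟨b, hb⟩ := this
      obtain ⟨-, h7, h8⟩ := h5 b hb
      have := three_le_of_lab (u := u) (p := c.2 b + 1) (by omega)
      have := Nat.le_of_dvd hN0 (hd2 b hb)
      omega
    · obtain ⟨-, h7, h8⟩ := h4 a ha
      have := three_le_of_lab (u := u) (p := c.1 a + 1) (by omega)
      have := Nat.le_of_dvd hN0 (hd1 a ha)
      omega
  obtain ⟨r, hr, hrN, htop, -⟩ := exists_top_prime hN2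
  have key : ∀ d : ℕ, d ∣ N → log (d : ℝ) ≤ (Om d : ℝ) * log (r : ℝ) := by
    intro d hd
    refine log_le_Om_mul fun q hq => ?_
    have hq1 := Nat.prime_of_mem_primeFactors hq
    have hq2 := htop q hq1 ((Nat.dvd_of_mem_primeFactors hq).trans hd)
    exact Real.log_le_log (by exact_mod_cast hq1.pos) (by exact_mod_cast hq2)
  rcases (Nat.Prime.dvd_mul hr).1 hrN with h7 | h7
  · obtain ⟨a, ha, hra⟩ := (Prime.dvd_finsetProd_iff hr.prime _).1 h7
    have h8 : r ∣ ∏ b, c.2 b := h3 ▸ hra.trans (Finset.dvd_prod_of_mem _ (Finset.mem_univ a))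
    obtain ⟨b, -, hrb⟩ := (Prime.dvd_finsetProd_iff hr.prime _).1 h8
    exact ⟨a, b, Or.inl ha, r, hr, hra, hrb, fun h => key _ (hd1 a h), fun h => key _ (hd2 b h)⟩
  · obtain ⟨b, hb, hrb⟩ := (Prime.dvd_finsetProd_iff hr.prime _).1 h7
    have h8 : r ∣ ∏ a, c.1 a := h3 ▸ hrb.trans (Finset.dvd_prod_of_mem _ (Finset.mem_univ b))
    obtain ⟨a, -, hra⟩ := (Prime.dvd_finsetProd_iff hr.prime _).1 h8
    exact ⟨a, b, Or.inr hb, r, hr, hra, hrb, fun h => key _ (hd1 a h), fun h => key _ (hd2 b h)⟩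

theorem eind_mass : ∀ᶠ u : ℕ in atTop, ∀ (R : ℕ) (ξ ξ' : Fin R → ℕ) (C C' : Finset (Fin R))
    (a b : Fin R), (∀ a, ξ a ≤ KK u) → (∀ a, ξ' a ≤ KK u) → (a ∈ C ∨ b ∈ C') →
    ∀ (A B : ℕ) (P : Finset ℕ), (∀ x ∈ P, ∃ c : (Fin R → ℕ) × (Fin R → ℕ),
      Cfg u ξ ξ' C C' c ∧ x.Prime ∧ c.1 a = A * x ∧ c.2 b = B * x ∧
      (a ∈ C → log (c.1 a : ℝ) ≤ (Om (c.1 a) : ℝ) * log (x : ℝ)) ∧
      (b ∈ C' → log (c.2 b : ℝ) ≤ (Om (c.2 b) : ℝ) * log (x : ℝ))) →
    mass P ≤ 6400 * (u : ℝ) ^ 100 *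
      exp (-((hh u : ℝ) * ((if a ∈ C then (ξ a : ℝ) else 0) +
        (if b ∈ C' then (ξ' b : ℝ) else 0)))) := by
  filter_upwards [sm2, sm3, ev_pow_exp 10 80, eventually_ge_atTop 2] with u h2 h3 hexp hu
  intro R ξ ξ' C C' a b hξ hξ' hab A B P hP
  have hu1 : (1 : ℝ) ≤ u := by exact_mod_cast (by omega : 1 ≤ u)
  have hupos : (0 : ℝ) < u := by linarith
  rcases P.eq_empty_or_nonempty with rfl | ⟨x₀, hx₀⟩
  · unfold mass
    rw [Finset.sum_empty]
    positivity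
  have hrow : a ∈ C → ∀ x ∈ P, 1 ≤ ξ a ∧ x.Prime ∧ (A * x + 1).Prime ∧ 1 ≤ A ∧ (A : ℝ) ≤ XX u ∧
      2 * (x : ℝ) ≤ XX u ∧ exp ((ξ a : ℝ) * hh u) / (80 * (u : ℝ) ^ 10) ≤ log (x : ℝ) := by
    intro ha x hx
    obtain ⟨c, hc, hxp, hA, -, hl, -⟩ := hP x hx
    obtain ⟨h4, h5, h6⟩ := hc.2.1 a ha
    exact ⟨h6, hxp, hA ▸ h4, eind_row hu (hξ a) h6 h5 hA hxp
      (eind_Om_le (by omega) hc.1.1 a (hξ a)) (hl ha)⟩
  have hcol : b ∈ C' → ∀ x ∈ P, 1 ≤ ξ' b ∧ x.Prime ∧ (B * x + 1).Prime ∧ 1 ≤ B ∧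
      (B : ℝ) ≤ XX u ∧ 2 * (x : ℝ) ≤ XX u ∧
      exp ((ξ' b : ℝ) * hh u) / (80 * (u : ℝ) ^ 10) ≤ log (x : ℝ) := by
    intro hb x hx
    obtain ⟨c, hc, hxp, -, hB, -, hl⟩ := hP x hx
    obtain ⟨h4, h5, h6⟩ := hc.2.2.1 b hb
    exact ⟨h6, hxp, hB ▸ h4, eind_row hu (hξ' b) h6 h5 hB hxp
      (eind_Om_le (by omega) hc.1.2.1 b (hξ' b)) (hl hb)⟩
  have hone : ∀ k : ℕ, 1 ≤ k → 1 ≤ exp ((k : ℝ) * hh u) / (80 * (u : ℝ) ^ 10) := by
    intro k hk
    rw [le_div_iff₀ (by positivity), one_mul]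
    refine hexp.trans (Real.exp_le_exp.2 ?_)
    have h4 : (1 : ℝ) ≤ k := by exact_mod_cast hk
    have h5 : (u : ℝ) ≤ hh u := by
      unfold hh
      push_cast
      exact le_self_pow₀ hu1 (by norm_num)
    nlinarith
  have hsingle : ∀ k : ℕ, (u : ℝ) ^ 80 / (exp ((k : ℝ) * hh u) / (80 * (u : ℝ) ^ 10)) ≤
      6400 * (u : ℝ) ^ 100 * exp (-((hh u : ℝ) * k)) := by
    intro k
    rw [Real.exp_neg, mul_comm (hh u : ℝ) k, div_div_eq_mul_div, div_eq_mul_inv]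
    refine mul_le_mul_of_nonneg_right ?_ (by positivity)
    have h4 : (u : ℝ) ^ 90 ≤ (u : ℝ) ^ 100 := pow_le_pow_right₀ hu1 (by norm_num)
    have h5 : (0 : ℝ) ≤ (u : ℝ) ^ 100 := by positivity
    calc (u : ℝ) ^ 80 * (80 * (u : ℝ) ^ 10) = 80 * (u : ℝ) ^ 90 := by ring
      _ ≤ _ := by linarith
  by_cases ha : a ∈ C
  · by_cases hb : b ∈ C'
    · simp only [ha, hb, if_true]
      obtain ⟨hk, -, -, hA1, hAX, -, -⟩ := hrow ha x₀ hx₀
      obtain ⟨hk', -, -, hB1, hBX, -, -⟩ := hcol hb x₀ hx₀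
      have hAB : A ≠ B := by
        obtain ⟨c, hc, -, hA, hB, -⟩ := hP x₀ hx₀
        intro h
        exact hc.2.2.2 a ha b hb (by rw [hA, hB, h])
      set s := exp ((ξ a : ℝ) * hh u) / (80 * (u : ℝ) ^ 10) with hs
      set t := exp ((ξ' b : ℝ) * hh u) / (80 * (u : ℝ) ^ 10) with ht
      have hs1 : 1 ≤ s := hone _ hk
      have ht1 : 1 ≤ t := hone _ hk'
      have h4 := h3 (max s t) A B P (le_max_of_le_left hs1) hA1 hAX hB1 hBX hAB fun x hx => by
        obtain ⟨-, h5, h6, -, -, h7, h8⟩ := hrow ha x hx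
        obtain ⟨-, -, h9, -, -, -, h10⟩ := hcol hb x hx
        exact ⟨max_le h8 h10, h7, h5, h6, h9⟩
      refine h4.trans ?_
      have h5 : s * t ≤ (max s t) ^ 2 := by
        rw [sq]
        exact mul_le_mul (le_max_left _ _) (le_max_right _ _) (by linarith)
          (le_max_of_le_left (by linarith))
      refine (div_le_div_of_nonneg_left (by positivity) (by positivity) h5).trans (le_of_eq ?_)
      rw [hs, ht, mul_add, neg_add, Real.exp_add, Real.exp_neg, Real.exp_neg,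
        mul_comm (hh u : ℝ) (ξ a), mul_comm (hh u : ℝ) (ξ' b)]
      field_simp
      ring
    · simp only [ha, hb, if_true, if_false, add_zero]
      obtain ⟨hk, -, -, hA1, hAX, -, -⟩ := hrow ha x₀ hx₀
      refine (h2 _ A P (hone _ hk) hA1 hAX fun x hx => ?_).trans (hsingle _)
      obtain ⟨-, h5, h6, -, -, h7, h8⟩ := hrow ha x hx
      exact ⟨h8, h7, h5, h6⟩
  · have hb : b ∈ C' := hab.resolve_left ha
    simp only [ha, hb, if_true, if_false, zero_add]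
    obtain ⟨hk, -, -, hA1, hAX, -, -⟩ := hcol hb x₀ hx₀
    refine (h2 _ B P (hone _ hk) hA1 hAX fun x hx => ?_).trans (hsingle _)
    obtain ⟨-, h5, h6, -, -, h7, h8⟩ := hcol hb x hx
    exact ⟨h8, h7, h5, h6⟩

theorem eind_sum_erase {R : ℕ} (C : Finset (Fin R)) (a : Fin R) (f : Fin R → ℝ) :
    ∑ i ∈ C, f i = (if a ∈ C then f a else 0) + ∑ i ∈ C.erase a, f i := by
  by_cases h : a ∈ C
  · rw [if_pos h, Finset.add_sum_erase _ _ h]
  · rw [if_neg h, Finset.erase_eq_of_notMem h, zero_add]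

theorem eind_cover {R : ℕ} {ι : Type*} [Fintype ι] (Z : Finset ((Fin R → ℕ) × (Fin R → ℕ)))
    (p : ι → (Fin R → ℕ) × (Fin R → ℕ) → Prop) [∀ i, DecidablePred (p i)]
    (h : ∀ c ∈ Z, ∃ i, p i c) : cmass Z ≤ ∑ i, cmass (Z.filter (p i)) := by
  unfold cmass
  simp only [Finset.sum_filter]
  rw [Finset.sum_comm]
  refine Finset.sum_le_sum fun c hc => ?_
  obtain ⟨i, hi⟩ := h c hc
  refine le_trans ?_ (Finset.single_le_sum (f := fun i => if p i c then
    1 / ((∏ a, c.1 a : ℕ) : ℝ) else 0) (fun j _ => by split_ifs <;> positivity) (Finset.mem_univ i))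
  simp only [hi, if_true, le_refl]

theorem eind : ∀ᶠ u : ℕ in atTop, ∀ (R : ℕ) (ξ ξ' : Fin R → ℕ) (Bnd : ℝ), R ≤ u →
    (∀ a, ξ a ≤ KK u) → (∀ a, ξ' a ≤ KK u) →
    (∀ Z : Finset ((Fin R → ℕ) × (Fin R → ℕ)), (∀ c ∈ Z, Cfg0 u ξ ξ' c) → cmass Z ≤ Bnd) →
    ∀ (C C' : Finset (Fin R)) (Z : Finset ((Fin R → ℕ) × (Fin R → ℕ))),
    (∀ c ∈ Z, Cfg u ξ ξ' C C' c) →
    cmass Z ≤ ((u : ℝ) ^ 200) ^ (C.card + C'.card) *
      exp (-((hh u : ℝ) * (∑ a ∈ C, (ξ a : ℝ) + ∑ b ∈ C', (ξ' b : ℝ)))) * Bnd := by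
  classical
  filter_upwards [eind_mass, eventually_ge_atTop 2] with u hmass hu
  intro R ξ ξ' Bnd hR hξ hξ' hB
  have hu2 : (2 : ℝ) ≤ u := by exact_mod_cast hu
  have hu1 : (1 : ℝ) ≤ u := by linarith
  have hB0 : 0 ≤ Bnd := (eind_cmass_nonneg _).trans (hB ∅ (by simp))
  have main : ∀ n : ℕ, ∀ (C C' : Finset (Fin R)), C.card + C'.card = n →
      ∀ Z : Finset ((Fin R → ℕ) × (Fin R → ℕ)), (∀ c ∈ Z, Cfg u ξ ξ' C C' c) →
      cmass Z ≤ ((u : ℝ) ^ 200) ^ n *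
        exp (-((hh u : ℝ) * (∑ a ∈ C, (ξ a : ℝ) + ∑ b ∈ C', (ξ' b : ℝ)))) * Bnd := by
    intro n
    induction n using Nat.strong_induction_on with
    | _ n ih =>
    intro C C' hn Z hZ
    rcases n with _ | n
    · have hC : C = ∅ := Finset.card_eq_zero.1 (by omega)
      have hC' : C' = ∅ := Finset.card_eq_zero.1 (by omega)
      subst hC hC'
      simpa using hB Z fun c hc => (hZ c hc).1
    set E := exp (-((hh u : ℝ) * (∑ a ∈ C, (ξ a : ℝ) + ∑ b ∈ C', (ξ' b : ℝ)))) with hE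
    have hE0 : 0 < E := Real.exp_pos _
    let p : Fin R × Fin R → (Fin R → ℕ) × (Fin R → ℕ) → Prop := fun i c =>
      (i.1 ∈ C ∨ i.2 ∈ C') ∧ ∃ r : ℕ, r.Prime ∧ r ∣ c.1 i.1 ∧ r ∣ c.2 i.2 ∧
        (i.1 ∈ C → log (c.1 i.1 : ℝ) ≤ (Om (c.1 i.1) : ℝ) * log (r : ℝ)) ∧
        (i.2 ∈ C' → log (c.2 i.2 : ℝ) ≤ (Om (c.2 i.2) : ℝ) * log (r : ℝ))
    have hcls : ∀ i : Fin R × Fin R, cmass (Z.filter (p i)) ≤
        6400 * (u : ℝ) ^ 100 * (((u : ℝ) ^ 200) ^ n * E * Bnd) := by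
      rintro ⟨a, b⟩
      by_cases hab : a ∈ C ∨ b ∈ C'
      swap
      · have : Z.filter (p (a, b)) = ∅ :=
          Finset.filter_eq_empty_iff.2 fun c _ hc => hab hc.1
        rw [this]
        unfold cmass
        rw [Finset.sum_empty]
        positivity
      have hex : ∀ c : (Fin R → ℕ) × (Fin R → ℕ), ∃ r : ℕ, c ∈ Z.filter (p (a, b)) →
          r.Prime ∧ r ∣ c.1 a ∧ r ∣ c.2 b ∧
          (a ∈ C → log (c.1 a : ℝ) ≤ (Om (c.1 a) : ℝ) * log (r : ℝ)) ∧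
          (b ∈ C' → log (c.2 b : ℝ) ≤ (Om (c.2 b) : ℝ) * log (r : ℝ)) := by
        intro c
        by_cases hc : c ∈ Z.filter (p (a, b))
        · obtain ⟨r, hr⟩ := (Finset.mem_filter.1 hc).2.2
          exact ⟨r, fun _ => hr⟩
        · exact ⟨0, fun h => absurd h hc⟩
      choose r hr using hex
      have h1 := eind_peel (Z.filter (p (a, b))) a b r
        (fun c hc => ⟨(hr c hc).2.1, (hr c hc).2.2.1⟩) _ fun A B P hP =>
          hmass R ξ ξ' C C' a b hξ hξ' hab A B P fun x hx => by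
            obtain ⟨c, hc, rfl, hA, hB⟩ := hP x hx
            exact ⟨c, hZ c (Finset.mem_filter.1 hc).1, (hr c hc).1, hA, hB, (hr c hc).2.2.2⟩
      have hlt : (C.erase a).card + (C'.erase b).card ≤ n := by
        have h2 := Finset.card_erase_le (s := C) (a := a)
        have h3 := Finset.card_erase_le (s := C') (a := b)
        rcases hab with h | h
        · have := Finset.card_erase_lt_of_mem h
          omega
        · have := Finset.card_erase_lt_of_mem h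
          omega
      have h2 := ih _ (Nat.lt_succ_of_le hlt) (C.erase a) (C'.erase b) rfl
        ((Z.filter (p (a, b))).image fun c => eindPeel a b (r c) c) fun e he => by
          obtain ⟨c, hc, rfl⟩ := Finset.mem_image.1 he
          exact eind_cfg (hZ c (Finset.mem_filter.1 hc).1) a b (hr c hc).1.pos (hr c hc).2.1
            (hr c hc).2.2.1
      refine h1.trans ((mul_le_mul_of_nonneg_left h2 (by positivity)).trans ?_)
      have h3 : ((u : ℝ) ^ 200) ^ ((C.erase a).card + (C'.erase b).card) ≤ ((u : ℝ) ^ 200) ^ n :=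
        pow_le_pow_right₀ (one_le_pow₀ hu1) hlt
      have h4 : E = exp (-((hh u : ℝ) * ((if a ∈ C then (ξ a : ℝ) else 0) +
          (if b ∈ C' then (ξ' b : ℝ) else 0)))) * exp (-((hh u : ℝ) *
            (∑ i ∈ C.erase a, (ξ i : ℝ) + ∑ i ∈ C'.erase b, (ξ' i : ℝ)))) := by
        rw [hE, ← Real.exp_add, eind_sum_erase C a, eind_sum_erase C' b]
        congr 1
        ring
      rw [h4]
      set E₁ := exp (-((hh u : ℝ) * ((if a ∈ C then (ξ a : ℝ) else 0) +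
          (if b ∈ C' then (ξ' b : ℝ) else 0)))) with hE₁
      set E₂ := exp (-((hh u : ℝ) *
            (∑ i ∈ C.erase a, (ξ i : ℝ) + ∑ i ∈ C'.erase b, (ξ' i : ℝ)))) with hE₂
      have h5 : 0 ≤ 6400 * (u : ℝ) ^ 100 * (E₁ * E₂ * Bnd) := by positivity
      have h6 := mul_le_mul_of_nonneg_right h3 h5
      calc _ = ((u : ℝ) ^ 200) ^ ((C.erase a).card + (C'.erase b).card) *
            (6400 * (u : ℝ) ^ 100 * (E₁ * E₂ * Bnd)) := by ring
        _ ≤ _ := h6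
        _ = _ := by ring
    have hcov := eind_cover Z p fun c hc => by
      obtain ⟨a, b, h⟩ := eind_class (by omega) (hZ c hc)
      exact ⟨(a, b), h⟩
    refine hcov.trans ((Finset.sum_le_sum fun i _ => hcls i).trans ?_)
    rw [Finset.sum_const, Finset.card_univ, Fintype.card_prod, Fintype.card_fin, nsmul_eq_mul]
    have h1 : ((R * R : ℕ) : ℝ) ≤ (u : ℝ) ^ 2 := by
      rw [sq]
      exact_mod_cast Nat.mul_le_mul hR hR
    have h2 : (6400 : ℝ) ≤ (u : ℝ) ^ 98 := by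
      refine le_trans ?_ (pow_le_pow_left₀ (by norm_num) hu2 98)
      norm_num
    have h3 : 0 ≤ ((u : ℝ) ^ 200) ^ n * E * Bnd := by positivity
    have h4 : ((R * R : ℕ) : ℝ) * (6400 * (u : ℝ) ^ 100) ≤ (u : ℝ) ^ 200 := by
      calc _ ≤ (u : ℝ) ^ 2 * ((u : ℝ) ^ 98 * (u : ℝ) ^ 100) := by gcongr
        _ = _ := by ring
    calc _ = ((R * R : ℕ) : ℝ) * (6400 * (u : ℝ) ^ 100) * (((u : ℝ) ^ 200) ^ n * E * Bnd) := by ring
      _ ≤ (u : ℝ) ^ 200 * (((u : ℝ) ^ 200) ^ n * E * Bnd) := mul_le_mul_of_nonneg_right h4 h3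
      _ = _ := by ring
  intro C C' Z hZ
  exact main _ C C' rfl Z hZ

end Vale.Agent.P031
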