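import Vale.Agent.P031.Defs

namespace Vale.Agent.P031

open Finset Real Filter

theorem Q_one : Q 1 = 0 := by simp [Q]

theorem Q_mono {x y : ℝ} (hx : 1 ≤ x) (h : x ≤ y) : Q x ≤ Q y := by
  unfold Q
  have hx0 : 0 < x := by linarith
  have hy0 : 0 < y := by linarith
  have h1 : log (x / y) ≤ x / y - 1 := Real.log_le_sub_one_of_pos (by positivity)
  rw [Real.log_div hx0.ne' hy0.ne'] at h1
  have h2 : y * (log x - log y) ≤ x - y := by
    have := mul_le_mul_of_nonneg_left h1 hy0.le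
    have e : y * (x / y - 1) = x - y := by field_simp
    linarith
  have h3 : 0 ≤ log x := Real.log_nonneg hx
  nlinarith

theorem Q_nonneg {x : ℝ} (hx : 1 ≤ x) : 0 ≤ Q x := Q_one ▸ Q_mono le_rfl hx

theorem Q_le_sq {x : ℝ} (hx : 1 ≤ x) : Q x ≤ x ^ 2 := by
  unfold Q
  have h1 : log x ≤ x - 1 := Real.log_le_sub_one_of_pos (by linarith)
  nlinarith

theorem four_le_Q_five : 4 ≤ Q 5 := by
  unfold Q
  have h1 : (8 : ℝ) / 5 ≤ log 5 := by
    have h2 := Real.log_two_gt_d9
    have h3 : log (5 : ℝ) = 2 * log 2 + log (5 / 4) := by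
      rw [show (2 : ℝ) * log 2 = log 4 by
        rw [show (4 : ℝ) = 2 ^ 2 by norm_num, Real.log_pow]; norm_num,
        ← Real.log_mul (by norm_num) (by norm_num)]
      norm_num
    have h4 : log (5 / 4 : ℝ) = 2 * log (√(5 / 4)) := by
      rw [Real.log_sqrt (by norm_num)]
      ring
    have h5 : (2 : ℝ) / 9 ≤ log (5 / 4) := by
      have := Real.le_log_one_add_of_nonneg (x := (1 / 4 : ℝ)) (by norm_num)
      norm_num at this ⊢
      exact this
    linarith
  linarith

theorem aa_nonneg {m : ℕ} (hm : 1 ≤ m) : 0 ≤ aa m := by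
  unfold aa
  have : (1 : ℝ) ≤ m := by exact_mod_cast hm
  linarith [Q_mono this (by linarith : (m : ℝ) ≤ m + 1)]

theorem aa_le {m : ℕ} (hm : 1 ≤ m) : aa m ≤ m := by
  unfold aa Q
  have h0 : (1 : ℝ) ≤ m := by exact_mod_cast hm
  have h1 : log (((m : ℝ) + 1) / m) ≤ ((m : ℝ) + 1) / m - 1 :=
    Real.log_le_sub_one_of_pos (by positivity)
  rw [Real.log_div (by positivity) (by positivity)] at h1
  have h2 : (m : ℝ) * (log ((m : ℝ) + 1) - log m) ≤ 1 := by
    have := mul_le_mul_of_nonneg_left h1 (by linarith : (0 : ℝ) ≤ m)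
    have e : (m : ℝ) * (((m : ℝ) + 1) / m - 1) = 1 := by field_simp; ring
    linarith
  have h3 : log ((m : ℝ) + 1) ≤ (m : ℝ) + 1 - 1 := Real.log_le_sub_one_of_pos (by positivity)
  nlinarith

theorem aa_one_ge : 1 / 3 ≤ aa 1 := by
  unfold aa Q
  have := Real.log_two_gt_d9
  norm_num
  linarith

theorem ext_zero (t : ℝ) (γ : ℕ → ℝ) : ext t γ 0 = t := by simp [ext]

theorem ext_succ (t : ℝ) (γ : ℕ → ℝ) (m : ℕ) :
    ext t γ (m + 1) = aa (m + 1) * t + γ (m + 1 + 1) := by simp [ext]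

theorem TT_lip {γ γ' : ℕ → ℝ} {δ : ℝ} (h0 : γ 0 ≤ γ' 0 + δ) (h1 : γ 1 ≤ γ' 1 + δ) :
    TT γ ≤ TT γ' + δ := by
  unfold TT
  exact max_le (h0.trans (by gcongr; exact le_max_left _ _))
    (h1.trans (by gcongr; exact le_max_right _ _))

theorem Phi_lip (j : ℕ) {γ γ' : ℕ → ℝ} {δ : ℝ} (hδ : 0 ≤ δ)
    (h : ∀ m ≤ j + 1, γ m ≤ γ' m + δ) :
    Phi j γ ≤ Phi j γ' + ((j + 1).factorial : ℝ) * δ := by
  induction j generalizing γ γ' δ with
  | zero =>
    simpa [Phi] using TT_lip (h 0 (by omega)) (h 1 (by omega))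
  | succ j ih =>
    have hT := TT_lip (h 0 (by omega)) (h 1 (by omega))
    have := ih (γ := ext (TT γ) γ) (γ' := ext (TT γ') γ') (δ := ((j : ℝ) + 2) * δ)
      (by positivity) (by
        intro m hm
        rcases m with _ | m
        · rw [ext_zero, ext_zero]
          have : (0 : ℝ) ≤ j := by positivity
          nlinarith
        · rw [ext_succ, ext_succ]
          have h1 := h (m + 1 + 1) (by omega)
          have h2 := aa_nonneg (m := m + 1) (by omega)
          have h3 := aa_le (m := m + 1) (by omega)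
          have h4 : ((m + 1 : ℕ) : ℝ) ≤ (j : ℝ) + 1 := by exact_mod_cast hm
          have h5 := mul_le_mul_of_nonneg_left hT h2
          have h6 : aa (m + 1) * δ ≤ ((j : ℝ) + 1) * δ :=
            mul_le_mul_of_nonneg_right (h3.trans h4) hδ
          nlinarith)
    simp only [Phi]
    rw [Nat.factorial_succ (j + 1)]
    push_cast
    linarith

theorem Phi_ext_lip (j : ℕ) (γ : ℕ → ℝ) {t t' δ : ℝ} (hδ : 0 ≤ δ) (h : t ≤ t' + δ) :
    Phi j (ext t γ) ≤ Phi j (ext t' γ) + ((j + 2).factorial : ℝ) * δ := by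
  have := Phi_lip j (γ := ext t γ) (γ' := ext t' γ) (δ := ((j : ℝ) + 2) * δ) (by positivity) (by
    intro m hm
    rcases m with _ | m
    · rw [ext_zero, ext_zero]
      have : (0 : ℝ) ≤ j := by positivity
      nlinarith
    · rw [ext_succ, ext_succ]
      have h2 := aa_nonneg (m := m + 1) (by omega)
      have h3 := aa_le (m := m + 1) (by omega)
      have h4 : ((m + 1 : ℕ) : ℝ) ≤ (j : ℝ) + 1 := by exact_mod_cast hm
      have h5 := mul_le_mul_of_nonneg_left h h2
      have h6 : aa (m + 1) * δ ≤ ((j : ℝ) + 1) * δ :=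
        mul_le_mul_of_nonneg_right (h3.trans h4) hδ
      nlinarith)
  rw [show j + 2 = (j + 1) + 1 by ring, Nat.factorial_succ (j + 1)]
  push_cast
  linarith

theorem Phi_ext_lip' (j : ℕ) (t : ℝ) {γ γ' : ℕ → ℝ} {δ : ℝ} (hδ : 0 ≤ δ)
    (h : ∀ m ≤ j + 2, γ m ≤ γ' m + δ) :
    Phi j (ext t γ) ≤ Phi j (ext t γ') + ((j + 1).factorial : ℝ) * δ := by
  refine Phi_lip j hδ fun m hm => ?_
  rcases m with _ | m
  · rw [ext_zero, ext_zero]
    linarith
  · rw [ext_succ, ext_succ]
    linarith [h (m + 1 + 1) (by omega)]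

theorem Phi_slope_aux (j : ℕ) {γ γ' : ℕ → ℝ} {δ : ℝ} (hδ : 0 ≤ δ) (h : ∀ m, γ m ≤ γ' m)
    (h0 : γ 0 + δ ≤ γ' 0) (h1 : γ 1 + δ / 3 ≤ γ' 1) :
    Phi j γ + δ / 3 ^ (j + 1) ≤ Phi j γ' := by
  induction j generalizing γ γ' δ with
  | zero =>
    have := TT_lip (γ := γ) (γ' := γ') (δ := -(δ / 3)) (by linarith) (by linarith)
    simp only [Phi, zero_add, pow_one]
    linarith
  | succ j ih =>
    have hT := TT_lip (γ := γ) (γ' := γ') (δ := -(δ / 3)) (by linarith) (by linarith)
    have := ih (γ := ext (TT γ) γ) (γ' := ext (TT γ') γ') (δ := δ / 3) (by positivity) (by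
        intro m
        rcases m with _ | m
        · rw [ext_zero, ext_zero]
          linarith
        · rw [ext_succ, ext_succ]
          have h2 := aa_nonneg (m := m + 1) (by omega)
          have h3 : TT γ ≤ TT γ' := by linarith
          have := mul_le_mul_of_nonneg_left h3 h2
          linarith [h (m + 1 + 1)])
      (by rw [ext_zero, ext_zero]; linarith)
      (by
        rw [ext_succ (m := 0), ext_succ (m := 0)]
        have h2 := aa_one_ge
        have h3 := h (0 + 1 + 1)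
        simp only [zero_add] at h3 ⊢
        nlinarith)
    simp only [Phi]
    have e : δ / 3 ^ (j + 1 + 1) = δ / 3 / 3 ^ (j + 1) := by
      rw [pow_succ]
      field_simp
    rw [e]
    exact this

theorem Phi_slope (j : ℕ) (γ : ℕ → ℝ) {t t' : ℝ} (h : t' ≤ t) :
    Phi j (ext t' γ) + (t - t') / 3 ^ (j + 1) ≤ Phi j (ext t γ) := by
  refine Phi_slope_aux j (by linarith) (fun m => ?_) (by rw [ext_zero, ext_zero]; linarith) ?_
  · rcases m with _ | m
    · rwa [ext_zero, ext_zero]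
    · rw [ext_succ, ext_succ]
      have h2 := aa_nonneg (m := m + 1) (by omega)
      have := mul_le_mul_of_nonneg_left h h2
      linarith
  · rw [ext_succ (m := 0), ext_succ (m := 0)]
    have h2 := aa_one_ge
    simp only [zero_add]
    nlinarith

theorem Phi_smul (j : ℕ) (γ : ℕ → ℝ) {c : ℝ} (hc : 0 ≤ c) :
    Phi j (fun m => c * γ m) = c * Phi j γ := by
  have hT : ∀ γ : ℕ → ℝ, TT (fun m => c * γ m) = c * TT γ := fun γ => by
    unfold TT
    exact (mul_max_of_nonneg _ _ hc).symm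
  induction j generalizing γ with
  | zero => exact hT γ
  | succ j ih =>
    simp only [Phi]
    rw [← ih, hT]
    congr 1
    funext m
    rcases m with _ | m
    · rw [ext_zero, ext_zero]
    · rw [ext_succ, ext_succ]
      ring

theorem Phi_zero (j : ℕ) : Phi j (fun _ => 0) = 0 := by
  have := Phi_smul j (fun _ => 0) (c := 0) le_rfl
  simpa using this

theorem TT_le_Phi (j : ℕ) (γ : ℕ → ℝ) : TT γ ≤ Phi j γ := by
  induction j generalizing γ with
  | zero => exact le_rfl
  | succ j ih =>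
    simp only [Phi]
    refine le_trans ?_ (ih _)
    exact le_trans (ext_zero _ _).ge (le_max_left _ _)

end Vale.Agent.P031
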