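import Vale.Agent.P031.Ebase
import Vale.Agent.P031.Eind
import Vale.Agent.P031.Phi

namespace Vale.Agent.P031

open Finset Real Filter

theorem ecomb_sum_kr {R τ : ℕ} (ξ : Fin R → ℕ) (h : ∀ a, ξ a ≤ τ) :
    ∑ j ∈ Icc 1 τ, kr ξ j = ∑ a, ξ a := by
  classical
  unfold kr
  simp only [Finset.card_filter]
  rw [Finset.sum_comm]
  refine Finset.sum_congr rfl fun a _ => ?_
  rw [← Finset.card_filter]
  have : (Icc 1 τ).filter (fun j => j ≤ ξ a) = Icc 1 (ξ a) := by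
    ext j
    have := h a
    simp only [Finset.mem_filter, Finset.mem_Icc]
    omega
  rw [this]
  simp

theorem ecomb_sum {R τ : ℕ} {ξ : Fin (R + 2) → ℕ} {C : Finset (Fin (R + 2))} (h : Shape τ ξ C) :
    ∑ a ∈ C, (ξ a : ℝ) = ∑ j ∈ Icc 1 τ, ((kr ξ j : ℝ) - 1) := by
  obtain ⟨h0, h1, h2, h3⟩ := h
  have h4 : ∑ a, ξ a = τ + ∑ a ∈ C, ξ a := by
    rw [← h0, ← Finset.sum_insert h1]
    refine (Finset.sum_subset (Finset.subset_univ _) fun a _ ha => ?_).symm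
    rw [Finset.mem_insert, not_or] at ha
    exact (h3 a ha.1).resolve_left ha.2
  have h5 := ecomb_sum_kr ξ h2
  rw [h4] at h5
  have h6 : ∑ j ∈ Icc 1 τ, (kr ξ j : ℝ) = τ + ∑ a ∈ C, (ξ a : ℝ) := by exact_mod_cast h5
  rw [Finset.sum_sub_distrib, h6]
  simp

theorem ecomb_kr_pos {R τ : ℕ} {ξ : Fin (R + 2) → ℕ} {C : Finset (Fin (R + 2))} (h : Shape τ ξ C)
    {j : ℕ} (hj : j ≤ τ) : 1 ≤ kr ξ j :=
  Finset.card_pos.2 ⟨0, Finset.mem_filter.2 ⟨Finset.mem_univ _, h.1 ▸ hj⟩⟩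

theorem ecomb_log {x y : ℝ} (hx : 0 < x) (hy : 0 < y) : x * log y - y ≤ x * log x - x := by
  have h1 : log (y / x) ≤ y / x - 1 := Real.log_le_sub_one_of_pos (by positivity)
  rw [Real.log_div hy.ne' hx.ne'] at h1
  have h2 := mul_le_mul_of_nonneg_left h1 hx.le
  have e : x * (y / x - 1) = y - x := by field_simp
  linarith

theorem ecomb : ∀ᶠ u : ℕ in atTop, ∀ (τ : ℕ) (ξ ξ' : Fin (LL u + 2) → ℕ)
    (C C' : Finset (Fin (LL u + 2))), τ ≤ KK u → Shape τ ξ C → Shape τ ξ' C' →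
    ∀ Z : Finset ((Fin (LL u + 2) → ℕ) × (Fin (LL u + 2) → ℕ)), (∀ c ∈ Z, Cfg u ξ ξ' C C' c) →
    cmass Z ≤ exp ((τ : ℝ) * hh u + (hh u : ℝ) * ∑ j ∈ Icc 1 τ, Q (kr ξ j) + (MM u : ℝ) / 5) := by
  filter_upwards [eind, ebase, ev_L_pow 1 2, ev_L_pow 2 640, ev_pow_L 400, eventually_ge_atTop 1]
    with u hind hbase hL1 hL2 hP hu
  intro τ ξ ξ' C C' hτ hS hS' Z hZ
  have hL := le_LL u
  have hu1 : (1 : ℝ) ≤ u := by exact_mod_cast hu
  have hRu : LL u + 2 ≤ u := by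
    have : ((2 * LL u : ℕ) : ℝ) ≤ u := by push_cast; linarith
    have : 2 * LL u ≤ u := by exact_mod_cast this
    omega
  have h1 := hind (LL u + 2) ξ ξ' _ hRu (fun a => (hS.2.2.1 a).trans hτ)
    (fun a => (hS'.2.2.1 a).trans hτ)
    (hbase (LL u + 2) τ ξ ξ' (by omega) hRu hS.2.2.1 fun j _ hj => ecomb_kr_pos hS' hj) C C' Z hZ
  refine h1.trans ?_
  set R : ℝ := ((LL u + 2 : ℕ) : ℝ) with hR
  have hR1 : 1 ≤ R := by rw [hR]; exact_mod_cast (by omega : 1 ≤ LL u + 2)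
  have hR2 : R ≤ 2 * LL u := by rw [hR]; exact_mod_cast (by omega : LL u + 2 ≤ 2 * LL u)
  have h2 : ((u : ℝ) ^ 200) ^ (C.card + C'.card) ≤ exp u := by
    refine le_trans ?_ hP
    have h3 : C.card ≤ LL u + 2 := (Finset.card_le_univ _).trans (by simp)
    have h4 : C'.card ≤ LL u + 2 := (Finset.card_le_univ _).trans (by simp)
    rw [← pow_mul, ← pow_mul]
    exact pow_le_pow_right₀ hu1 (by omega)
  rw [mul_assoc]
  refine (mul_le_mul_of_nonneg_right h2 (by positivity)).trans ?_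
  rw [← Real.exp_add, ← Real.exp_add, Real.exp_le_exp, ecomb_sum hS, ecomb_sum hS']
  have h3 : ∀ j ∈ Icc 1 τ, ((kr ξ j : ℝ) * ((hh u : ℝ) + DD u) * log (kr ξ' j : ℝ) +
      (kr ξ j : ℝ) * ((hh u : ℝ) + u)) ≤ (hh u : ℝ) * (((kr ξ j : ℝ) - 1) + ((kr ξ' j : ℝ) - 1) +
        Q (kr ξ j) + 1) + 2 * (u : ℝ) ^ 6 * R ^ 2 := by
    intro j hj
    have hj2 := (Finset.mem_Icc.1 hj).2
    have k1 : (1 : ℝ) ≤ kr ξ j := by exact_mod_cast ecomb_kr_pos hS hj2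
    have k2 : (1 : ℝ) ≤ kr ξ' j := by exact_mod_cast ecomb_kr_pos hS' hj2
    have k3 : (kr ξ j : ℝ) ≤ R := by rw [hR]; exact_mod_cast ebase_kr_le ξ j
    have k4 : (kr ξ' j : ℝ) ≤ R := by rw [hR]; exact_mod_cast ebase_kr_le ξ' j
    have k5 := ecomb_log (x := kr ξ j) (y := kr ξ' j) (by linarith) (by linarith)
    have k6 : log (kr ξ' j : ℝ) ≤ R := by
      linarith [Real.log_le_sub_one_of_pos (x := (kr ξ' j : ℝ)) (by linarith)]
    have k7 : (kr ξ j : ℝ) * log (kr ξ' j : ℝ) ≤ R ^ 2 := by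
      rw [sq]
      exact mul_le_mul k3 k6 (Real.log_nonneg k2) (by linarith)
    have k8 : (kr ξ j : ℝ) * u ≤ R ^ 2 * (u : ℝ) ^ 6 :=
      mul_le_mul (k3.trans (le_self_pow₀ hR1 (by norm_num))) (le_self_pow₀ hu1 (by norm_num))
        (by positivity) (by positivity)
    have k9 := mul_le_mul_of_nonneg_left k5 (by positivity : (0 : ℝ) ≤ hh u)
    have k10 := mul_le_mul_of_nonneg_left k7 (by positivity : (0 : ℝ) ≤ (u : ℝ) ^ 6)
    have hD : (DD u : ℝ) = (u : ℝ) ^ 6 := by simp [DD]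
    unfold Q
    rw [hD]
    linarith
  have h4 := Finset.sum_le_sum h3
  rw [Finset.sum_add_distrib (f := fun j => (hh u : ℝ) * _), ← Finset.mul_sum,
    Finset.sum_add_distrib (g := fun _ => (1 : ℝ)), Finset.sum_add_distrib (g := fun j => Q _),
    Finset.sum_add_distrib (f := fun j => (kr ξ j : ℝ) - 1)] at h4
  simp only [Finset.sum_const, Nat.card_Icc, add_tsub_cancel_right, nsmul_eq_mul, mul_one] at h4
  have h5 : (τ : ℝ) ≤ 3 * (u : ℝ) ^ 2 := by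
    have : (τ : ℝ) ≤ KK u := by exact_mod_cast hτ
    simpa [KK] using this
  have h6 : (τ : ℝ) * (2 * (u : ℝ) ^ 6 * R ^ 2) ≤ 6 * ((u : ℝ) ^ 8 * R ^ 2) := by
    calc _ ≤ 3 * (u : ℝ) ^ 2 * (2 * (u : ℝ) ^ 6 * R ^ 2) := by gcongr
      _ = _ := by ring
  have h7 : (u : ℝ) ≤ (u : ℝ) ^ 8 * R ^ 2 :=
    (le_self_pow₀ hu1 (by norm_num)).trans
      (le_mul_of_one_le_right (by positivity) (one_le_pow₀ hR1))
  have h8 : 160 * R ^ 2 ≤ u := by
    have := pow_le_pow_left₀ (zero_le_one.trans hR1) hR2 2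
    linarith only [this, hL2]
  have h9 : (u : ℝ) ^ 8 * (160 * R ^ 2) ≤ (u : ℝ) ^ 8 * u := by gcongr
  have hh' : (hh u : ℝ) = (u : ℝ) ^ 8 := by simp [hh]
  have hM : (MM u : ℝ) = (u : ℝ) ^ 8 * u := by simp [MM]; ring
  rw [hM]
  rw [hh'] at h4 ⊢
  linarith only [h4, h6, h7, h9]

end Vale.Agent.P031
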