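import Vale.Agent.P031.CollA
import Vale.Agent.P031.Ecomb
import Vale.Agent.P031.Sv
import Vale.Agent.P031.Mert

namespace Vale.Agent.P031

open Finset Real Filter

theorem coll_aux1 {u R : ℕ} {y ℓ E : ℝ} {g : ℕ} (hg : 1 ≤ g) (hℓ : 0 < ℓ) (hy0 : 0 ≤ y)
    (hy : y ≤ XX u) {ξ ξ' : Fin (R + 2) → ℕ} {C C' : Finset (Fin (R + 2))}
    (hsv : ∀ (t : ℝ) (A B : ℕ) (P : Finset ℕ), 2 ≤ t → t ≤ XX u →
      1 ≤ A → (A : ℝ) ≤ XX u → 1 ≤ B → (B : ℝ) ≤ XX u → A ≠ B →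
      (∀ r ∈ P, (r : ℝ) ≤ t ∧ r.Prime ∧ (A * r + 1).Prime ∧ (B * r + 1).Prime) →
      (P.card : ℝ) ≤ (u : ℝ) ^ 70 * (t / log t ^ 3))
    (hE : ∀ Z : Finset ((Fin (R + 2) → ℕ) × (Fin (R + 2) → ℕ)), (∀ c ∈ Z, Cfg u ξ ξ' C C' c) →
      cmass Z ≤ E)
    (W : Finset (((Fin (R + 2) → ℕ) × (Fin (R + 2) → ℕ)) × ℕ))
    (hW : ∀ x ∈ W, Cfg u ξ ξ' C C' x.1 ∧ x.2.Prime ∧ ℓ ≤ log (x.2 : ℝ) ∧
      (x.1.1 0 * x.2 + 1).Prime ∧ (x.1.2 0 * x.2 + 1).Prime ∧ x.1.1 0 ≠ x.1.2 0 ∧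
      ((x.2 * g * ∏ a, x.1.1 a : ℕ) : ℝ) ≤ y) :
    (W.card : ℝ) ≤ (u : ℝ) ^ 70 * (y / ℓ ^ 3) * E * (1 / g) := by
  classical
  have hg' : (1 : ℝ) ≤ g := by exact_mod_cast hg
  have h1 : ∀ c ∈ W.image Prod.fst, ((W.filter fun x => x.1 = c).card : ℝ) ≤
      (u : ℝ) ^ 70 * (y / ℓ ^ 3) * (1 / g) * (1 / ((∏ a, c.1 a : ℕ) : ℝ)) := by
    intro c hc
    obtain ⟨x0, hx0, rfl⟩ := mem_image.1 hc
    obtain ⟨⟨⟨r1, r2, r3⟩, -⟩, p0, l0, -, -, hne, hle⟩ := hW x0 hx0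
    have hP : 1 ≤ ∏ a, x0.1.1 a := one_le_prod' fun a _ => (r1 a).1
    have hP' : (1 : ℝ) ≤ ((∏ a, x0.1.1 a : ℕ) : ℝ) := by exact_mod_cast hP
    have hA : x0.1.1 0 ≤ ∏ a, x0.1.1 a := single_le_prod' (fun a _ => (r1 a).1) (mem_univ 0)
    have hB : x0.1.2 0 ≤ ∏ a, x0.1.1 a :=
      r3 ▸ single_le_prod' (fun a _ => (r2 a).1) (mem_univ 0)
    obtain ⟨Pr, hPr⟩ : ∃ Pr, Pr = ∏ a, x0.1.1 a := ⟨_, rfl⟩
    rw [← hPr] at hP hP' hA hB hle ⊢
    have hgP : (0 : ℝ) < g * Pr := by positivity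
    have key : ∀ r : ℕ, ((r * g * Pr : ℕ) : ℝ) ≤ y → (r : ℝ) ≤ y / (g * Pr) := by
      intro r hr
      rw [le_div_iff₀ hgP]
      push_cast at hr
      linarith
    have h2 : (2 : ℝ) ≤ x0.2 := by exact_mod_cast p0.two_le
    have h3 := key _ hle
    have h4 : y / (g * Pr) ≤ y := div_le_self hy0 (one_le_mul_of_one_le_of_one_le hg' hP')
    have h5 : (Pr : ℝ) ≤ y := by
      refine le_trans ?_ hle
      exact_mod_cast Nat.le_mul_of_pos_left _ (Nat.mul_pos p0.pos hg)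
    have h6 : ℓ ≤ log (y / (g * Pr)) := l0.trans (log_le_log (by linarith) h3)
    have h7 := hsv (y / (g * Pr)) (x0.1.1 0) (x0.1.2 0)
      ((W.filter fun x => x.1 = x0.1).image Prod.snd) (h2.trans h3) (h4.trans hy) (r1 0).1
      (le_trans (by exact_mod_cast hA) (h5.trans hy)) (r2 0).1
      (le_trans (by exact_mod_cast hB) (h5.trans hy)) hne (by
        intro r hr
        obtain ⟨x, hx, rfl⟩ := mem_image.1 hr
        obtain ⟨hx1, hx2⟩ := mem_filter.1 hx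
        obtain ⟨-, q1, -, q2, q3, -, q4⟩ := hW x hx1
        rw [hx2] at q2 q3 q4
        exact ⟨key _ (hPr ▸ q4), q1, q2, q3⟩)
    rw [card_image_of_injOn fun x hx x' hx' e => Prod.ext
      ((mem_filter.1 hx).2.trans (mem_filter.1 hx').2.symm) e] at h7
    refine h7.trans ?_
    have h8 : y / (g * Pr) / log (y / (g * Pr)) ^ 3 ≤ y / (g * Pr) / ℓ ^ 3 :=
      div_le_div_of_nonneg_left (by positivity) (by positivity) (pow_le_pow_left₀ hℓ.le h6 3)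
    refine (mul_le_mul_of_nonneg_left h8 (pow_nonneg (Nat.cast_nonneg u) 70)).trans (le_of_eq ?_)
    field_simp
  rw [card_eq_sum_card_image Prod.fst W, Nat.cast_sum]
  refine (sum_le_sum h1).trans ?_
  rw [← mul_sum, mul_right_comm]
  refine mul_le_mul_of_nonneg_right (mul_le_mul_of_nonneg_left (hE _ fun c hc => ?_)
    (by positivity)) (by positivity)
  obtain ⟨x, hx, rfl⟩ := mem_image.1 hc
  exact (hW x hx).1

theorem coll_aux2 : ∀ᶠ u : ℕ in atTop,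
    (u : ℝ) ^ 70 * (2 * ((LL u : ℝ) + 2) * BB u) ^ 3 * exp (1 - 4 * (MM u : ℝ) / 5) *
      ((1 + 2 * ((KK u : ℝ) * hh u + u)) ^ LL u *
        (((KK u + 1) ^ (LL u + 2) * ((KK u + 1) ^ (LL u + 2) *
          (2 ^ (LL u + 2) * 2 ^ (LL u + 2))) : ℕ) : ℝ)) ≤ exp (-((MM u : ℝ) / 2)) := by
  filter_upwards [ev_L_pow 1 2, ev_pow_exp 103 (80 ^ 3), ev_pow_L 11, ev_pow_L 6,
    eventually_ge_atTop 10] with u h1 h2 h3 h4 hu
  have hu' : (10 : ℝ) ≤ u := by exact_mod_cast hu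
  have hL : (200 : ℝ) ≤ LL u := by exact_mod_cast le_LL u
  have hB := BB_le (u := u) (by omega)
  have a1 : 2 * ((LL u : ℝ) + 2) * BB u ≤ 80 * (u : ℝ) ^ 11 := by
    have : ((LL u : ℝ) + 2) * BB u ≤ u * (40 * (u : ℝ) ^ 10) :=
      mul_le_mul (by linarith) hB (by positivity) (by positivity)
    linarith
  have a2 : (u : ℝ) ^ 70 * (2 * ((LL u : ℝ) + 2) * BB u) ^ 3 ≤ exp u := by
    refine le_trans ?_ h2
    refine (mul_le_mul_of_nonneg_left (pow_le_pow_left₀ (by positivity) a1 3)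
      (by positivity)).trans (le_of_eq ?_)
    ring
  have u1 : (1 : ℝ) ≤ u := by linarith
  have a3 : 1 + 2 * ((KK u : ℝ) * hh u + u) ≤ (u : ℝ) ^ 11 := by
    simp only [KK, hh]
    push_cast
    have b1 : (u : ℝ) ≤ (u : ℝ) ^ 10 := le_self_pow₀ u1 (by norm_num)
    have b2 : 10 * (u : ℝ) ^ 10 ≤ u * (u : ℝ) ^ 10 := by gcongr
    nlinarith
  have a4 : (1 + 2 * ((KK u : ℝ) * hh u + u)) ^ LL u ≤ exp u :=
    ((pow_le_pow_left₀ (by positivity) a3 _).trans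
      (pow_le_pow_right₀ (one_le_pow₀ u1) (by omega))).trans h3
  have a5 : (((KK u + 1) ^ (LL u + 2) * ((KK u + 1) ^ (LL u + 2) *
      (2 ^ (LL u + 2) * 2 ^ (LL u + 2))) : ℕ) : ℝ) ≤ exp u := by
    refine le_trans ?_ h4
    rw [← mul_pow, ← mul_pow, ← mul_pow, Nat.cast_pow]
    refine pow_le_pow_left₀ (by positivity) ?_ _
    simp only [KK]
    push_cast
    have b1 : (100 : ℝ) ≤ (u : ℝ) ^ 2 := by nlinarith
    have b2 : 3 * (u : ℝ) ^ 2 + 1 ≤ 4 * (u : ℝ) ^ 2 := by linarith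
    have b3 : (3 * (u : ℝ) ^ 2 + 1) * (3 * (u : ℝ) ^ 2 + 1) ≤ 4 * (u : ℝ) ^ 2 * (4 * (u : ℝ) ^ 2) :=
      mul_le_mul b2 b2 (by positivity) (by positivity)
    have b4 : 100 * (u : ℝ) ^ 4 ≤ (u : ℝ) ^ 2 * (u : ℝ) ^ 4 := by gcongr
    have b5 : (0 : ℝ) ≤ (u : ℝ) ^ 4 := by positivity
    nlinarith
  refine (mul_le_mul (mul_le_mul_of_nonneg_right a2 (exp_pos _).le)
    (mul_le_mul a4 a5 (by positivity) (exp_pos _).le) (by positivity) (by positivity)).trans ?_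
  rw [← exp_add, ← exp_add, ← exp_add, exp_le_exp]
  simp only [MM]
  push_cast
  have b1 : (10 : ℝ) ^ 8 ≤ (u : ℝ) ^ 8 := by gcongr
  have b2 : (10 : ℝ) ^ 8 * u ≤ (u : ℝ) ^ 8 * u := by gcongr
  nlinarith

theorem coll : ∀ᶠ u : ℕ in atTop, ∀ (y : ℝ) (Z : Finset ((ℕ × ℕ) × (ℕ × ℕ))), 3 ≤ y →
    log (log y) ≤ 2 * (u : ℝ) ^ 10 →
    (∀ z ∈ Z, Adm u y z.1.1 z.1.2 ∧ Adm u y z.2.1 z.2.2 ∧ z.1.2 ≠ z.2.2 ∧
      (z.1.1 - 1) * z.1.2 = (z.2.1 - 1) * z.2.2) →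
    (Z.card : ℝ) ≤ exp (-((MM u : ℝ) / 2)) * (y / log y) := by
  classical
  filter_upwards [coll_struct, ecomb, sv3, sum_inv_pred_le, coll_aux2, eventually_ge_atTop 1]
    with u hst hec hsv hsum hnum hu y Z hy hll hZ
  have hly : 1 < log y := by
    rw [lt_log_iff_exp_lt (by linarith)]
    exact lt_of_lt_of_le (exp_one_lt_d9.trans (by norm_num)) hy
  have hyX : y ≤ XX u := by
    have h1 : log y ≤ exp (4 * (u : ℝ) ^ 10) := by
      rw [← log_le_iff_le_exp (by linarith)]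
      have : (0 : ℝ) ≤ (u : ℝ) ^ 10 := by positivity
      linarith
    rwa [XX, ← log_le_iff_le_exp (by linarith)]
  have hβ : (0 : ℝ) < 2 * ((LL u : ℝ) + 2) * BB u := by
    have : 0 < BB u := by
      unfold BB hh
      positivity
    positivity
  have hτ := tauY_le_KK hu hy hll
  choose! r Gs ξ ξ' C C' c hd using fun z (hz : z ∈ Z) =>
    hst y z.1.1 z.1.2 z.2.1 z.2.2 hy hll (hZ z hz).1 (hZ z hz).2.1 (hZ z hz).2.2.1 (hZ z hz).2.2.2
  obtain ⟨T, hT⟩ : ∃ T, T = (u : ℝ) ^ 70 * (y / (log y / (2 * ((LL u : ℝ) + 2) * BB u)) ^ 3) *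
    exp (2 * log (log y) + (1 - 4 * (MM u : ℝ) / 5)) := ⟨_, rfl⟩
  have hT0 : 0 ≤ T := by rw [hT]; positivity
  set PG := (cells u 1 (KK u + 1)).powerset.filter fun D => D.card ≤ LL u with hPG
  set PI : Finset (Fin (LL u + 2) → ℕ) := Fintype.piFinset fun _ => range (KK u + 1) with hPI
  have hmap : ∀ z ∈ Z, (Gs z, ξ z, ξ' z, C z, C' z) ∈ PG ×ˢ PI ×ˢ PI ×ˢ univ ×ˢ univ := by
    intro z hz
    obtain ⟨-, -, -, -, -, -, g1, g2, -, s1, s2, -⟩ := hd z hz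
    simp only [hPG, hPI, mem_product, mem_filter, mem_powerset, Fintype.mem_piFinset, mem_range,
      mem_univ, and_true]
    exact ⟨⟨g1, g2⟩, fun a => Nat.lt_succ_of_le ((s1.2.2.1 a).trans hτ),
      fun a => Nat.lt_succ_of_le ((s2.2.2.1 a).trans hτ)⟩
  have hfib : ∀ k ∈ PG ×ˢ PI ×ˢ PI ×ˢ (univ : Finset (Finset (Fin (LL u + 2)))) ×ˢ
      (univ : Finset (Finset (Fin (LL u + 2)))),
      ((Z.filter fun z => (Gs z, ξ z, ξ' z, C z, C' z) = k).card : ℝ) ≤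
        T * ∏ q ∈ k.1, 1 / ((q - 1 : ℕ) : ℝ) := by
    intro k hk
    rcases (Z.filter fun z => (Gs z, ξ z, ξ' z, C z, C' z) = k).eq_empty_or_nonempty with h0 | h0
    · rw [h0, card_empty, Nat.cast_zero]
      exact mul_nonneg hT0 (prod_nonneg fun _ _ => by positivity)
    obtain ⟨z0, h0⟩ := h0
    rw [mem_filter] at h0
    obtain ⟨hz0, rfl⟩ := h0
    obtain ⟨-, -, -, -, -, -, g1, -, -, s1, s2, hQ⟩ := hd z0 hz0
    have hg : 1 ≤ ∏ q ∈ Gs z0, (q - 1) := one_le_prod' fun q hq => by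
      have := ((mem_cells hu).1 (g1 hq)).1.two_le
      omega
    have hE : ∀ Z' : Finset ((Fin (LL u + 2) → ℕ) × (Fin (LL u + 2) → ℕ)),
        (∀ c ∈ Z', Cfg u (ξ z0) (ξ' z0) (C z0) (C' z0) c) →
        cmass Z' ≤ exp (2 * log (log y) + (1 - 4 * (MM u : ℝ) / 5)) := by
      intro Z' hZ'
      refine (hec _ _ _ _ _ hτ s1 s2 Z' hZ').trans (exp_le_exp.2 ?_)
      have := tauY_mul_le hu hy
      linarith
    have h1 := coll_aux1 hg (div_pos (zero_lt_one.trans hly) hβ) (le_trans (by norm_num) hy) hyX hsv hE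
      ((Z.filter fun z => (Gs z, ξ z, ξ' z, C z, C' z) =
        (Gs z0, ξ z0, ξ' z0, C z0, C' z0)).image fun z => (c z, r z)) (by
      intro x hx
      obtain ⟨z, hz, rfl⟩ := mem_image.1 hx
      obtain ⟨hz, e⟩ := mem_filter.1 hz
      simp only [Prod.mk.injEq] at e
      obtain ⟨e1, e2, e3, e4, e5⟩ := e
      obtain ⟨q1, q2, q3, q4, q5, q6, -, -, q7, -⟩ := hd z hz
      rw [← e1, ← e2, ← e3, ← e4, ← e5]
      exact ⟨q7, q1, q2, q3 ▸ (hZ z hz).1.1, q4 ▸ (hZ z hz).2.1.1, q5, q6 ▸ (hZ z hz).1.2.2.2.1⟩)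
    rw [card_image_of_injOn] at h1
    · rw [hT, prod_div_distrib, prod_const_one, ← Nat.cast_prod]
      exact h1
    intro z hz z' hz' e
    obtain ⟨hz, e1⟩ := mem_filter.1 hz
    obtain ⟨hz', e2⟩ := mem_filter.1 hz'
    have e3 : Gs z = Gs z' := congrArg Prod.fst (e1.trans e2.symm)
    simp only [Prod.mk.injEq] at e
    obtain ⟨-, -, q3, q4, -, q6, -⟩ := hd z hz
    obtain ⟨-, -, q3', q4', -, q6', -⟩ := hd z' hz'
    rw [← e.1, ← e.2] at q3' q4' q6'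
    rw [← e3] at q6'
    have f1 : z.1.1 = z'.1.1 := q3.trans q3'.symm
    have f2 : z.2.1 = z'.2.1 := q4.trans q4'.symm
    have f3 := (hZ z hz).2.2.2
    have f4 := (hZ z' hz').2.2.2
    have p1 := (hZ z hz).1.1.two_le
    have p2 := (hZ z hz).2.1.1.two_le
    have f5 := q6.trans q6'.symm
    refine Prod.ext (Prod.ext f1 ?_) (Prod.ext f2 ?_)
    · rw [← f1] at f5
      exact Nat.eq_of_mul_eq_mul_left (by omega) f5
    · rw [f3, f4, ← f2] at f5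
      exact Nat.eq_of_mul_eq_mul_left (by omega) f5
  rw [card_eq_sum_card_fiberwise hmap, Nat.cast_sum]
  refine (sum_le_sum hfib).trans ?_
  rw [← mul_sum, sum_product]
  simp only [sum_const, nsmul_eq_mul]
  rw [← mul_sum, card_product, card_product, card_product, hPI, Fintype.card_piFinset_const,
    card_range, card_univ, Fintype.card_finset, Fintype.card_fin]
  have h2 := esym_le (cells u 1 (KK u + 1)) (fun q => 1 / ((q - 1 : ℕ) : ℝ))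
    (fun _ _ => by positivity) (LL u)
  have h3 := hsum 1 (KK u + 1) (cells u 1 (KK u + 1)) (by omega) fun p hp => (mem_cells hu).1 hp
  have h4 : (((KK u + 1 : ℕ) : ℝ) - (1 : ℕ)) = KK u := by push_cast; ring
  rw [h4] at h3
  have h5 := h2.trans (pow_le_pow_left₀ (add_nonneg zero_le_one
    (sum_nonneg fun _ _ => by positivity)) (add_le_add_right h3 1) (LL u))
  refine (mul_le_mul_of_nonneg_left (mul_le_mul_of_nonneg_left h5 (by positivity)) hT0).trans ?_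
  refine le_trans (le_of_eq ?_) (mul_le_mul_of_nonneg_right hnum (by positivity))
  have h6 : exp (2 * log (log y)) = log y ^ 2 := by
    rw [two_mul, exp_add, exp_log (by linarith), sq]
  rw [hT, exp_add, h6]
  field_simp

end Vale.Agent.P031
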