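import Vale.Agent.P031.Val

namespace Vale.Agent.P031

open Finset Real Filter

theorem colla_bij (L : ℕ) (T : Finset ℕ) (hT : T.card ≤ L) :
    ∃ (B : Finset (Fin L)) (f : Fin L → ℕ), Set.BijOn f B T := by
  classical
  obtain ⟨B, -, hB⟩ := exists_subset_card_eq (s := (univ : Finset (Fin L))) (n := T.card)
    (by simpa using hT)
  have e := equivOfCardEq hB
  refine ⟨B, fun i => if h : i ∈ B then (e ⟨i, h⟩ : ℕ) else 0, fun i hi => ?_,
    fun i hi j hj hij => ?_, fun q hq => ?_⟩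
  · have hi' : i ∈ B := hi
    simp only [dif_pos hi']
    exact (e ⟨i, hi'⟩).2
  · have hi' : i ∈ B := hi
    have hj' : j ∈ B := hj
    simp only [dif_pos hi', dif_pos hj'] at hij
    exact congrArg Subtype.val (e.injective (Subtype.ext hij))
  · refine ⟨(e.symm ⟨q, hq⟩).1, (e.symm ⟨q, hq⟩).2, ?_⟩
    simp only [dif_pos (e.symm ⟨q, hq⟩).2, Subtype.coe_eta, Equiv.apply_symm_apply]

theorem colla_row {u n p τ : ℕ} (hu : 1 ≤ u) (hp : p.Prime) (hn : Normal u p) (hd : n ∣ p - 1)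
    (hτ : lab u p ≤ τ) : 1 ≤ n ∧ LabLE u τ n ∧ OmC u 0 n ≤ 10 * hh u ∧
      ∀ j, 1 ≤ j → OmC u j n ≤ hh u + DD u := by
  have h2 := hp.two_le
  have h0 : p - 1 ≠ 0 := by omega
  have hD : DD u ≤ hh u := Nat.pow_le_pow_right hu (by norm_num)
  refine ⟨Nat.pos_of_dvd_of_pos hd (by omega),
    (labLE_of_le ((Nat.le_of_dvd (by omega) hd).trans (Nat.sub_le _ _))).mono hτ, ?_,
    fun j _ => (OmC_mono u j hd h0).trans (hn.1 j)⟩
  have := (OmC_mono u 0 hd h0).trans (hn.1 0)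
  omega

theorem colla_rows {u L τ p r w₀ : ℕ} (hu : 1 ≤ u) (hp : p.Prime) (hn : Normal u p)
    (hr : r ∣ p - 1) (hτ : lab u p ≤ τ) (hw : Base u w₀) (T : Finset ℕ) (hT : T.card ≤ L)
    (hq : ∀ q ∈ T, q.Prime ∧ 1 ≤ lab u q ∧ lab u q ≤ τ ∧ Normal u q) :
    ∃ (ξ : Fin (L + 2) → ℕ) (C : Finset (Fin (L + 2))) (d : Fin (L + 2) → ℕ),
      RowOK u ξ d ∧ Con u ξ C d ∧ Shape τ ξ C ∧ p = d 0 * r + 1 ∧
      ∏ a, d a = d 0 * (w₀ * ∏ q ∈ T, (q - 1)) ∧ (∀ a ∈ C, d a + 1 ∈ T) ∧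
      ∀ j, 1 ≤ j → j ≤ τ → kr ξ j = 1 + kap u j T := by
  classical
  obtain ⟨B, f, hf⟩ := colla_bij L T hT
  have hfT : ∀ i ∈ B, f i ∈ T := fun i hi => hf.mapsTo hi
  have hf1 : ∀ i ∈ B, f i - 1 + 1 = f i := fun i hi => by
    have := (hq _ (hfT i hi)).1.two_le
    omega
  refine ⟨Fin.cons τ (Fin.cons 0 fun i => if i ∈ B then lab u (f i) else 0),
    B.image fun i => i.succ.succ,
    Fin.cons ((p - 1) / r) (Fin.cons w₀ fun i => if i ∈ B then f i - 1 else 1),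
    ?_, ?_, ⟨rfl, ?_, ?_, ?_⟩, ?_, ?_, ?_, ?_⟩
  · intro a
    refine Fin.cases ?_ (fun a => Fin.cases ?_ (fun i => ?_) a) a
    · exact colla_row hu hp hn (Nat.div_dvd_of_dvd hr) hτ
    · obtain ⟨m, h1, h2, h3, h4⟩ := id hw
      refine ⟨hw.pos, hw.labLE, (OmC_le_Om _ _ _).trans h4, fun j hj => ?_⟩
      simp only [Fin.cons_succ, Fin.cons_zero]
      rw [OmC_eq_zero hw.labLE hj]
      exact Nat.zero_le _
    · simp only [Fin.cons_succ]
      split_ifs with hi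
      · obtain ⟨a1, -, -, a4⟩ := hq _ (hfT i hi)
        exact colla_row hu a1 a4 dvd_rfl le_rfl
      · refine ⟨le_rfl, fun q hq => by simp at hq, ?_, fun j _ => ?_⟩ <;>
          rw [OmC_one] <;> exact Nat.zero_le _
  · intro a ha
    obtain ⟨i, hi, rfl⟩ := mem_image.1 ha
    simp only [Fin.cons_succ, if_pos hi, hf1 i hi]
    exact ⟨(hq _ (hfT i hi)).1, trivial, (hq _ (hfT i hi)).2.1⟩
  · intro h
    obtain ⟨i, -, hi⟩ := mem_image.1 h
    exact Fin.succ_ne_zero _ hi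
  · intro a
    refine Fin.cases le_rfl (fun a => Fin.cases (Nat.zero_le _) (fun i => ?_) a) a
    simp only [Fin.cons_succ]
    split_ifs with hi
    · exact (hq _ (hfT i hi)).2.2.1
    · exact Nat.zero_le _
  · intro a
    refine Fin.cases (fun h => absurd rfl h)
      (fun a => Fin.cases (fun _ => Or.inr rfl) (fun i _ => ?_) a) a
    by_cases hi : i ∈ B
    · exact Or.inl (mem_image_of_mem _ hi)
    · exact Or.inr (by simp only [Fin.cons_succ, if_neg hi])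
  · have := hp.two_le
    simp only [Fin.cons_zero]
    rw [Nat.div_mul_cancel hr]
    omega
  · rw [Fin.prod_univ_succ, Fin.prod_univ_succ]
    simp only [Fin.cons_succ, Fin.cons_zero]
    rw [prod_ite_mem, univ_inter]
    congr 2
    exact prod_nbij f hfT hf.injOn hf.surjOn fun _ _ => rfl
  · intro a ha
    obtain ⟨i, hi, rfl⟩ := mem_image.1 ha
    simp only [Fin.cons_succ, if_pos hi, hf1 i hi]
    exact hfT i hi
  · intro j h1 h2
    rw [kr, kap, card_filter, card_filter, Fin.sum_univ_succ, Fin.sum_univ_succ]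
    simp only [Fin.cons_succ, Fin.cons_zero]
    rw [if_pos h2, if_neg (by omega), zero_add]
    congr 1
    rw [← sum_nbij (s := B) (f := fun i => if j ≤ lab u (f i) then 1 else 0) f hfT hf.injOn
      hf.surjOn fun _ _ => rfl, ← sum_subset (subset_univ B)]
    · exact sum_congr rfl fun i hi => by rw [if_pos hi]
    · intro i _ hi
      rw [if_neg hi, if_neg (by omega)]

theorem colla_ev : ∀ᶠ u : ℕ in atTop,
    2 * ((LL u : ℝ) + 2) * BB u ≤ exp ((MM u : ℝ) - hh u) := by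
  filter_upwards [ev_L_pow 1 2, ev_pow_exp 11 80, eventually_ge_atTop 2] with u h1 h2 hu
  have h3 := BB_le (show 1 ≤ u by omega)
  have h4 : (200 : ℝ) ≤ LL u := by exact_mod_cast le_LL u
  have hu' : (2 : ℝ) ≤ u := by exact_mod_cast hu
  have h5 : (u : ℝ) ≤ (MM u : ℝ) - hh u := by
    simp only [MM, hh]
    push_cast
    have h6 : (u : ℝ) ≤ u ^ 8 := le_self_pow₀ (by linarith) (by norm_num)
    have h7 : (u : ℝ) ^ 9 = u ^ 8 * u := by ring
    nlinarith [pow_pos (by linarith : (0 : ℝ) < u) 8]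
  calc 2 * ((LL u : ℝ) + 2) * BB u ≤ 2 * u * (40 * u ^ 10) := by
        gcongr
        linarith
    _ = 80 * (u : ℝ) ^ 11 := by ring
    _ ≤ exp u := h2
    _ ≤ _ := exp_le_exp.2 h5

theorem colla_le {u p w : ℕ} {y : ℝ} (h : Adm u y p w) : (p : ℝ) ≤ y + 1 ∧ (w : ℝ) ≤ y := by
  obtain ⟨hp, -, -, h2, w₀, S, hR, -⟩ := h
  have h3 := hp.two_le
  have h4 := hR.pos
  have h5 : ((p - 1 : ℕ) : ℝ) ≤ (((p - 1) * w : ℕ) : ℝ) := by
    exact_mod_cast Nat.le_mul_of_pos_right _ h4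
  have h6 : (w : ℝ) ≤ (((p - 1) * w : ℕ) : ℝ) := by
    exact_mod_cast Nat.le_mul_of_pos_left _ (by omega)
  rw [Nat.cast_sub hp.one_le, Nat.cast_one] at h5
  constructor <;> linarith

theorem colla_lab {u w w₀ : ℕ} {S : Finset ℕ} {y : ℝ} (hy : 3 ≤ y) (h : Rep u 0 w w₀ S)
    (hw : (w : ℝ) ≤ y) : ∀ q ∈ S, lab u q ≤ tauY u y := by
  intro q hq
  have h1 : q - 1 ∣ w := by
    rw [← h.2.2.2, val]
    exact (dvd_prod_of_mem _ hq).mul_left _
  have h2 : ((q - 1 : ℕ) : ℝ) ≤ w := by exact_mod_cast Nat.le_of_dvd h.pos h1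
  rw [Nat.cast_sub (h.2.1.1 q hq).1.one_le, Nat.cast_one] at h2
  exact lab_le_tauY hy (by linarith)

theorem colla_not_dvd {u w w₀ r : ℕ} {S : Finset ℕ} {y : ℝ} (hu : 1 ≤ u) (hy : 3 ≤ y)
    (hev : 2 * ((LL u : ℝ) + 2) * BB u ≤ exp ((MM u : ℝ) - hh u)) (h : Rep u 0 w w₀ S)
    (hT : TT (gam u S) + MM u ≤ log (log y)) (hr : r.Prime)
    (hl : log y ≤ 2 * ((LL u : ℝ) + 2) * BB u * log (r : ℝ)) : ¬ r ∣ w := by
  intro hd
  have h1 := h.log_prime_lt hu hr hd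
  have h2 : gam u S 0 ≤ TT (gam u S) := le_max_left _ _
  have h3 : 0 < log y := log_pos (by linarith)
  have h4 : 0 ≤ log (r : ℝ) := log_natCast_nonneg r
  have h5 : exp ((MM u : ℝ) - hh u) * exp (gam u S 0 + hh u) ≤ log y := by
    rw [← exp_add, ← exp_log h3]
    exact exp_le_exp.2 (by linarith)
  have h6 := mul_lt_mul_of_pos_left h1 (exp_pos ((MM u : ℝ) - hh u))
  have h7 := mul_le_mul_of_nonneg_right hev h4
  linarith

/-- Structure of a collision. -/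
theorem coll_struct : ∀ᶠ u : ℕ in atTop, ∀ (y : ℝ) (p w p' w' : ℕ), 3 ≤ y →
    log (log y) ≤ 2 * (u : ℝ) ^ 10 → Adm u y p w → Adm u y p' w' → w ≠ w' →
    (p - 1) * w = (p' - 1) * w' →
    ∃ (r : ℕ) (Gs : Finset ℕ) (ξ ξ' : Fin (LL u + 2) → ℕ) (C C' : Finset (Fin (LL u + 2)))
      (c : (Fin (LL u + 2) → ℕ) × (Fin (LL u + 2) → ℕ)),
      r.Prime ∧ log y / (2 * ((LL u : ℝ) + 2) * BB u) ≤ log (r : ℝ) ∧
      p = c.1 0 * r + 1 ∧ p' = c.2 0 * r + 1 ∧ c.1 0 ≠ c.2 0 ∧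
      (p - 1) * w = r * (∏ q ∈ Gs, (q - 1)) * ∏ a, c.1 a ∧
      Gs ⊆ cells u 1 (KK u + 1) ∧ Gs.card ≤ LL u ∧
      Cfg u ξ ξ' C C' c ∧ Shape (tauY u y) ξ C ∧ Shape (tauY u y) ξ' C' ∧
      (hh u : ℝ) * ∑ j ∈ Icc 1 (tauY u y), Q (kr ξ j) + MM u ≤ log (log y) := by
  filter_upwards [colla_ev, eventually_ge_atTop 1] with u hev hu y p w p' w' hy hyy hA hA' hne heq
  obtain ⟨hpy, hwy⟩ := colla_le hA
  obtain ⟨hpy', hwy'⟩ := colla_le hA'
  obtain ⟨hp, hn, hlo, -, w₀, S, hR, hT⟩ := hA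
  obtain ⟨hp', hn', -, -, w₀', S', hR', hT'⟩ := hA'
  have p2 := hp.two_le
  have p2' := hp'.two_le
  have hw1 := hR.pos
  have hsq : (1 : ℝ) < √y := by
    rw [lt_sqrt (by norm_num)]
    linarith
  have hv2 : 2 ≤ (p - 1) * w := by
    have : (1 : ℝ) < (((p - 1) * w : ℕ) : ℝ) := hsq.trans hlo
    exact_mod_cast this
  obtain ⟨r, hr, hrd, -, hlog⟩ := exists_top_prime hv2
  have hOm : Om ((p - 1) * w) ≤ (LL u + 2) * BB u := by
    rw [Om_mul (by omega) (by omega)]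
    have h1 := hn.Om_le hu (lab_le_KK hu hy hyy hpy)
    have h2 := hR.Om_le hu
    have h3 : 2 * (KK u + 1) * hh u ≤ BB u := by
      unfold BB
      gcongr
      norm_num
    have h4 : (LL u + 2) * BB u = (LL u + 1) * BB u + BB u := by ring
    omega
  have hl : log y ≤ 2 * ((LL u : ℝ) + 2) * BB u * log (r : ℝ) := by
    have h1 := log_le_log (by linarith) hlo.le
    rw [log_sqrt (by linarith)] at h1
    have h2 : (Om ((p - 1) * w) : ℝ) ≤ ((LL u : ℝ) + 2) * BB u := by exact_mod_cast hOm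
    have h3 := mul_le_mul_of_nonneg_right h2 (log_natCast_nonneg r)
    linarith
  have hrp : r ∣ p - 1 :=
    ((Nat.Prime.dvd_mul hr).1 hrd).resolve_right (colla_not_dvd hu hy hev hR hT hr hl)
  have hrp' : r ∣ p' - 1 :=
    ((Nat.Prime.dvd_mul hr).1 (heq ▸ hrd)).resolve_right (colla_not_dvd hu hy hev hR' hT' hr hl)
  have hS := colla_lab hy hR hwy
  have hS' := colla_lab hy hR' hwy'
  have hc : S.card ≤ LL u := hR.2.2.1
  have hc' : S'.card ≤ LL u := hR'.2.2.1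
  obtain ⟨ξ, C, d, a1, a2, a3, a4, a5, a6, a7⟩ := colla_rows (L := LL u) hu hp hn hrp
    (lab_le_tauY hy hpy) hR.1 (S \ S') ((card_le_card sdiff_subset).trans hc) fun q hq =>
      have h := hR.2.1.1 q (sdiff_subset hq)
      ⟨h.1, h.2.1, hS q (sdiff_subset hq), h.2.2.2⟩
  obtain ⟨ξ', C', d', b1, b2, b3, b4, b5, b6, -⟩ := colla_rows (L := LL u) hu hp' hn' hrp'
    (lab_le_tauY hy hpy') hR'.1 (S' \ S) ((card_le_card sdiff_subset).trans hc') fun q hq =>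
      have h := hR'.2.1.1 q (sdiff_subset hq)
      ⟨h.1, h.2.1, hS' q (sdiff_subset hq), h.2.2.2⟩
  have e1 : (p - 1) * w = r * (∏ q ∈ S ∩ S', (q - 1)) * ∏ a, d a := by
    rw [a5, ← hR.2.2.2, val, ← prod_inter_mul_prod_diff S S', show p - 1 = d 0 * r by omega]
    ring
  have e2 : (p' - 1) * w' = r * (∏ q ∈ S ∩ S', (q - 1)) * ∏ a, d' a := by
    rw [b5, ← hR'.2.2.2, val, ← prod_inter_mul_prod_diff S' S, show p' - 1 = d' 0 * r by omega,
      inter_comm S' S]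
    ring
  have e3 : ∏ a, d a = ∏ a, d' a := by
    have h1 := e1.symm.trans (heq.trans e2)
    refine Nat.eq_of_mul_eq_mul_left (Nat.pos_of_ne_zero fun h0 => ?_) h1
    rw [e1, h0, zero_mul] at hv2
    omega
  have hB : (0 : ℝ) < BB u := by
    have : 0 < BB u := by
      unfold BB hh
      positivity
    exact_mod_cast this
  refine ⟨r, S ∩ S', ξ, ξ', C, C', (d, d'), hr, ?_, a4, b4, fun h => hne ?_, e1, fun q hq => ?_,
    (card_le_card inter_subset_left).trans hc, ⟨⟨a1, b1, e3⟩, a2, b2, fun a ha b hb h => ?_⟩,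
    a3, b3, ?_⟩
  · rw [div_le_iff₀ (by positivity)]
    linarith
  · have h1 : p' = p := by
      rw [a4, b4]
      exact congrArg (· * r + 1) h.symm
    rw [h1] at heq
    exact Nat.eq_of_mul_eq_mul_left (by omega) heq
  · have h := hR.2.1.1 q (inter_subset_left hq)
    exact (mem_cells hu).2 ⟨h.1, h.2.1, Nat.lt_succ_of_le h.2.2.1⟩
  · have h1 := (mem_sdiff.1 (a6 a ha)).2
    have h2 := (mem_sdiff.1 (b6 b hb)).1
    exact h1 ((show d a = d' b from h) ▸ h2)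
  · have h1 : gam u S 1 ≤ TT (gam u S) := le_max_right _ _
    rw [gam_one_eq hS (tauY_le_KK hu hy hyy)] at h1
    have h2 : ∑ j ∈ Icc 1 (tauY u y), Q (kr ξ j) ≤
        ∑ j ∈ Icc 1 (tauY u y), Q (1 + (kap u j S : ℝ)) := by
      refine sum_le_sum fun j hj => ?_
      rw [mem_Icc] at hj
      rw [a7 j hj.1 hj.2]
      have h3 : (kap u j (S \ S') : ℝ) ≤ kap u j S := by
        exact_mod_cast kap_mono u j sdiff_subset
      have h4 : (0 : ℝ) ≤ kap u j (S \ S') := Nat.cast_nonneg _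
      push_cast
      exact Q_mono (by linarith) (by linarith)
    have h3 := mul_le_mul_of_nonneg_left h2 (Nat.cast_nonneg (α := ℝ) (hh u))
    linarith

end Vale.Agent.P031
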