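import Mathlib

/-! P031: definitions.  `V` is the only definition used in the final statement. -/

namespace Vale.Agent.P031

open Finset Real

/-- `V x` is the number of distinct values `v ≤ x` of Euler's totient function. -/
noncomputable def V (x : ℝ) : ℕ :=
  Set.ncard {v : ℕ | (v : ℝ) ≤ x ∧ ∃ n : ℕ, 1 ≤ n ∧ Nat.totient n = v}

/-- `v` is a totient value. -/
def IsTot (v : ℕ) : Prop := ∃ n : ℕ, 1 ≤ n ∧ Nat.totient n = v

open scoped Classical in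
/-- The totient values up to `x`, as a finset. -/
noncomputable def totF (x : ℝ) : Finset ℕ := (Icc 1 ⌊x⌋₊).filter IsTot

/-- Reciprocal sum. -/
noncomputable def mass (S : Finset ℕ) : ℝ := ∑ w ∈ S, 1 / (w : ℝ)

/-- Number of primes `≤ t`. -/
noncomputable def piR (t : ℝ) : ℝ := (Nat.primeCounting ⌊t⌋₊ : ℝ)

/-! Parameters, all functions of one large natural number `u` (`u ^ 10 ≈ log log x`). -/

/-- cell length (in the `log log` scale) -/
def hh (u : ℕ) : ℕ := u ^ 8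
/-- tolerance -/
def DD (u : ℕ) : ℕ := u ^ 6
/-- margin -/
def MM (u : ℕ) : ℕ := u ^ 9
/-- top cell index -/
def KK (u : ℕ) : ℕ := 3 * u ^ 2
/-- bound for the number of large primes -/
def LL (u : ℕ) : ℕ := 200 * (Nat.log 2 u + 1)
/-- bound for the total number of prime factors -/
def BB (u : ℕ) : ℕ := 10 * (KK u + 1) * hh u
/-- global size bound -/
noncomputable def XX (u : ℕ) : ℝ := exp (exp (4 * (u : ℝ) ^ 10))

/-- The cell (label) of `p`: `⌊log log p / h⌋`. -/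
noncomputable def lab (u p : ℕ) : ℕ := ⌊log (log (p : ℝ)) / (hh u : ℝ)⌋₊

/-- Number of prime factors of `n` (with multiplicity). -/
def Om (n : ℕ) : ℕ := n.primeFactorsList.length

open scoped Classical in
/-- Number of prime factors of `n` (with multiplicity) in cell `j`. -/
noncomputable def OmC (u j n : ℕ) : ℕ := n.primeFactorsList.countP fun q => lab u q = j

/-- The completely multiplicative function with values `f q` at primes `q`. -/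
noncomputable def wt (f : ℕ → ℝ) (n : ℕ) : ℝ := (n.primeFactorsList.map f).prod

/-- All prime factors of `n` have label `≤ τ`. -/
def LabLE (u τ n : ℕ) : Prop := ∀ q ∈ n.primeFactors, lab u q ≤ τ

open scoped Classical in
/-- The primes with label in `[j₁, j₂)`. -/
noncomputable def cells (u j₁ j₂ : ℕ) : Finset ℕ :=
  (range (⌈exp (exp ((j₂ : ℝ) * hh u))⌉₊ + 1)).filter fun p => p.Prime ∧ j₁ ≤ lab u p ∧ lab u p < j₂

/-- Normal primes. -/
def Normal (u p : ℕ) : Prop :=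
  (∀ j, OmC u j (p - 1) ≤ hh u + DD u) ∧ ∀ j < lab u p, hh u ≤ OmC u j (p - 1) + DD u

/-- `Q κ = κ log κ - κ + 1`. -/
noncomputable def Q (κ : ℝ) : ℝ := κ * log κ - κ + 1

/-- `a m = Q (m+1) - Q m`. -/
noncomputable def aa (m : ℕ) : ℝ := Q ((m : ℝ) + 1) - Q m

/-- The cell cost. -/
noncomputable def G (m κ : ℕ) : ℝ := if m = 0 then ((min κ 1 : ℕ) : ℝ) else Q ((m : ℝ) + κ) - Q m

/-- Number of elements of `S` with label `≥ j`. -/
noncomputable def kap (u j : ℕ) (S : Finset ℕ) : ℕ := (S.filter fun p => j ≤ lab u p).card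

/-- The cost vector of a set of primes. -/
noncomputable def gam (u : ℕ) (S : Finset ℕ) (m : ℕ) : ℝ :=
  (hh u : ℝ) * ∑ j ∈ Icc 1 (KK u), G m (kap u j S)

/-- Minimal admissible position of the next prime. -/
noncomputable def TT (γ : ℕ → ℝ) : ℝ := max (γ 0) (γ 1)

/-- Cost vector after adding a top prime at position `t`. -/
noncomputable def ext (t : ℝ) (γ : ℕ → ℝ) (m : ℕ) : ℝ := if m = 0 then t else aa m * t + γ (m + 1)

/-- Iterated minimal extension. -/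
noncomputable def Phi : ℕ → (ℕ → ℝ) → ℝ
  | 0, γ => TT γ
  | j + 1, γ => Phi j (ext (TT γ) γ)

/-- Values `φ m` with `m` composed of primes of cell `0`, with few prime factors. -/
def Base (u w₀ : ℕ) : Prop :=
  ∃ m : ℕ, 1 ≤ m ∧ LabLE u 0 m ∧ Nat.totient m = w₀ ∧ Om w₀ ≤ 10 * hh u

/-- Good sets of large primes. -/
def GoodS (u : ℕ) (S : Finset ℕ) : Prop :=
  (∀ p ∈ S, p.Prime ∧ 1 ≤ lab u p ∧ lab u p ≤ KK u ∧ Normal u p) ∧
    ∀ p ∈ S, gam u (S.filter fun q => q < p) 1 ≤ (hh u : ℝ) * lab u p + MM u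

/-- The value of a representation. -/
def val (w₀ : ℕ) (S : Finset ℕ) : ℕ := w₀ * ∏ p ∈ S, (p - 1)

/-- `(w₀, S)` is a good representation of `w` with at most `LL u - j` large primes. -/
def Rep (u j w w₀ : ℕ) (S : Finset ℕ) : Prop :=
  Base u w₀ ∧ GoodS u S ∧ S.card + j ≤ LL u ∧ val w₀ S = w

open scoped Classical in
/-- Good values of level `j` and cost at most `a`. -/
noncomputable def AA (u j : ℕ) (a : ℝ) : Finset ℕ :=
  (Icc 1 ⌊XX u⌋₊).filter fun w => ∃ w₀ S, Rep u j w w₀ S ∧ Phi j (gam u S) ≤ a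

/-- Their mass. -/
noncomputable def AM (u j : ℕ) (a : ℝ) : ℝ := mass (AA u j a)

/-- Integers with too many prime factors. -/
def BigOm (u e : ℕ) : Prop := 1 ≤ e ∧ ∃ j ≤ KK u, LabLE u j e ∧ 10 * (j + 1) * hh u < Om e

/-- Integers whose prime factors violate a face inequality. -/
def Face (u e : ℕ) : Prop :=
  1 ≤ e ∧ ∃ τ ≤ KK u, ∃ κ : ℕ → ℕ, (∀ j, κ j ≤ LL u) ∧ LabLE u τ e ∧
    (∀ j, 1 ≤ j → j < τ → (1 + κ (j + 1)) * (hh u - DD u) ≤ OmC u j e + 1) ∧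
    (τ : ℝ) * hh u + MM u ≤ (hh u : ℝ) * ∑ j ∈ Icc 1 τ, Q (1 + (κ j : ℝ))

/-- The bad values. -/
def Bad (u e : ℕ) : Prop :=
  (∃ p a : ℕ, p.Prime ∧ 1 ≤ lab u p ∧ 2 ≤ a ∧ e = Nat.totient (p ^ a)) ∨
    (∃ p : ℕ, p.Prime ∧ 1 ≤ lab u p ∧ lab u p ≤ KK u ∧ ¬ Normal u p ∧ e = p - 1) ∨
    BigOm u e ∨ Face u e

/-- Rows of a factorization, with labels `ξ`. -/
def RowOK (u : ℕ) {R : ℕ} (ξ d : Fin R → ℕ) : Prop :=
  ∀ a, 1 ≤ d a ∧ LabLE u (ξ a) (d a) ∧ OmC u 0 (d a) ≤ 10 * hh u ∧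
    ∀ j, 1 ≤ j → OmC u j (d a) ≤ hh u + DD u

/-- The rows in `C` are shifted primes of the given labels. -/
def Con (u : ℕ) {R : ℕ} (ξ : Fin R → ℕ) (C : Finset (Fin R)) (d : Fin R → ℕ) : Prop :=
  ∀ a ∈ C, (d a + 1).Prime ∧ lab u (d a + 1) = ξ a ∧ 1 ≤ ξ a

/-- Two factorizations of the same number. -/
def Cfg0 (u : ℕ) {R : ℕ} (ξ ξ' : Fin R → ℕ) (c : (Fin R → ℕ) × (Fin R → ℕ)) : Prop :=
  RowOK u ξ c.1 ∧ RowOK u ξ' c.2 ∧ ∏ a, c.1 a = ∏ a, c.2 a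

/-- Two factorizations with primality constraints. -/
def Cfg (u : ℕ) {R : ℕ} (ξ ξ' : Fin R → ℕ) (C C' : Finset (Fin R))
    (c : (Fin R → ℕ) × (Fin R → ℕ)) : Prop :=
  Cfg0 u ξ ξ' c ∧ Con u ξ C c.1 ∧ Con u ξ' C' c.2 ∧ ∀ a ∈ C, ∀ b ∈ C', c.1 a ≠ c.2 b

/-- Weight of a set of configurations. -/
noncomputable def cmass {R : ℕ} (Z : Finset ((Fin R → ℕ) × (Fin R → ℕ))) : ℝ :=
  ∑ c ∈ Z, 1 / ((∏ a, c.1 a : ℕ) : ℝ)

/-- Number of rows with label `≥ j`. -/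
def kr {R : ℕ} (ξ : Fin R → ℕ) (j : ℕ) : ℕ := (univ.filter fun a => j ≤ ξ a).card

/-- Row `0` is free with the top label `τ`; every other row is constrained or has label `0`. -/
def Shape {R : ℕ} (τ : ℕ) (ξ : Fin (R + 2) → ℕ) (C : Finset (Fin (R + 2))) : Prop :=
  ξ 0 = τ ∧ 0 ∉ C ∧ (∀ a, ξ a ≤ τ) ∧ ∀ a, a ≠ 0 → a ∈ C ∨ ξ a = 0

/-- The top label at height `y`. -/
noncomputable def tauY (u : ℕ) (y : ℝ) : ℕ := ⌊log (log (y + 1)) / (hh u : ℝ)⌋₊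

/-- The range of the parameters `s` and `y`. -/
def Rng (u : ℕ) (s y : ℝ) : Prop :=
  (u : ℝ) ^ 10 / 2 ≤ s ∧ s ≤ (u : ℝ) ^ 10 ∧ 3 ≤ y ∧ s ≤ log (log y) ∧ log (log y) ≤ s + 1

/-- Admissible pairs `(p, w)` at height `y`. -/
def Adm (u : ℕ) (y : ℝ) (p w : ℕ) : Prop :=
  p.Prime ∧ Normal u p ∧ √y < (((p - 1) * w : ℕ) : ℝ) ∧ (((p - 1) * w : ℕ) : ℝ) ≤ y ∧
    ∃ w₀ S, Rep u 0 w w₀ S ∧ TT (gam u S) + MM u ≤ log (log y)

/-- Admissible pairs `(q, w)`, mass version. -/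
def AdmM (u q w : ℕ) : Prop :=
  q.Prime ∧ Normal u q ∧ (hh u : ℝ) * lab u q ≤ 3 / 2 * (u : ℝ) ^ 10 ∧
    ∃ w₀ S, Rep u 0 w w₀ S ∧ TT (gam u S) + MM u ≤ (hh u : ℝ) * lab u q

end Vale.Agent.P031
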