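import Vale.Agent.P031.Val

namespace Vale.Agent.P031

open Finset Real Filter

theorem dich_tot (v : ℕ → ℕ) (F : Finset ℕ) (hF : ∀ q ∈ F, q.Prime) :
    Nat.totient (∏ q ∈ F, q ^ v q) = ∏ q ∈ F, Nat.totient (q ^ v q) := by
  induction F using Finset.induction_on with
  | empty => simp
  | insert a s ha ih =>
    rw [prod_insert ha, prod_insert ha, Nat.totient_mul, ih fun q hq => hF q (mem_insert_of_mem hq)]
    refine Nat.Coprime.prod_right fun q hq => Nat.Coprime.pow _ _ ?_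
    exact (Nat.coprime_primes (hF a (mem_insert_self _ _)) (hF q (mem_insert_of_mem hq))).2
      fun h => ha (h ▸ hq)

theorem dich_tot_eq {n : ℕ} (hn : 1 ≤ n) :
    Nat.totient n = ∏ q ∈ n.primeFactors, Nat.totient (q ^ n.factorization q) := by
  rw [← dich_tot _ _ fun q hq => Nat.prime_of_mem_primeFactors hq]
  congr 1
  exact (Nat.factorization_prod_pow_eq_self (by omega)).symm

theorem dich_pos (v : ℕ → ℕ) (F : Finset ℕ) (hF : ∀ q ∈ F, q.Prime) : 1 ≤ ∏ q ∈ F, q ^ v q :=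
  prod_pos fun q hq => pow_pos (hF q hq).pos _

theorem dich_tpos {q : ℕ} (hq : q.Prime) (k : ℕ) : 0 < Nat.totient (q ^ k) :=
  Nat.totient_pos.2 (pow_pos hq.pos _)

theorem dich_lab {u τ : ℕ} (v : ℕ → ℕ) (F : Finset ℕ) (hF : ∀ q ∈ F, q.Prime ∧ lab u q ≤ τ) :
    LabLE u τ (∏ q ∈ F, q ^ v q) := by
  refine LabLE.prod _ _ fun q hq r hr => ?_
  have h1 := Nat.prime_of_mem_primeFactors hr
  have h2 := (Nat.prime_dvd_prime_iff_eq h1 (hF q hq).1).1
    (h1.dvd_of_dvd_pow (Nat.dvd_of_mem_primeFactors hr))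
  rw [h2]
  exact (hF q hq).2

theorem dich_lab' {u τ : ℕ} (v : ℕ → ℕ) (F : Finset ℕ) (hF : ∀ q ∈ F, q.Prime ∧ lab u q ≤ τ) :
    LabLE u τ (∏ q ∈ F, Nat.totient (q ^ v q)) := by
  rw [← dich_tot _ _ fun q hq => (hF q hq).1]
  exact (dich_lab v F hF).totient

theorem dich_bad {u n : ℕ} (hn : 1 ≤ n) {F : Finset ℕ} (hF : F ⊆ n.primeFactors)
    (hb : Bad u (∏ q ∈ F, Nat.totient (q ^ n.factorization q))) :
    ∃ e n' : ℕ, Bad u e ∧ 1 ≤ n' ∧ Nat.totient n = e * Nat.totient n' := by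
  have h : ∀ q ∈ n.primeFactors \ F, q.Prime :=
    fun q hq => Nat.prime_of_mem_primeFactors (sdiff_subset hq)
  refine ⟨_, _, hb, dich_pos n.factorization _ h, ?_⟩
  rw [dich_tot _ _ h, mul_comm, prod_sdiff hF]
  exact dich_tot_eq hn

theorem dich_card {u : ℕ} (hu : 2 ≤ u) (S : Finset ℕ)
    (hS : ∀ q ∈ S, 1 ≤ lab u q ∧ lab u q ≤ KK u ∧ Normal u q)
    (h : ∀ j ≤ KK u, ∑ q ∈ S with lab u q ≤ j, Om (q - 1) ≤ 10 * (j + 1) * hh u) :
    S.card ≤ LL u := by
  have hD : 2 * DD u ≤ hh u := by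
    unfold DD hh
    have : u ^ 8 = u ^ 2 * u ^ 6 := by ring
    rw [this]
    exact Nat.mul_le_mul_right _ (by nlinarith)
  have hh0 : 0 < hh u := by
    unfold hh
    positivity
  have h1 := card_le_mul_card_image_of_maps_to (s := S) (t := range (2 * Nat.log 2 u + 4))
    (f := fun q => Nat.log 2 (lab u q)) (fun q hq => ?_) 40 fun i _ => ?_
  · rw [card_range] at h1
    unfold LL
    omega
  · obtain ⟨a, b, -⟩ := hS q hq
    rw [mem_range, Nat.log_lt_iff_lt_pow (by norm_num) (by omega)]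
    refine b.trans_lt ?_
    have h2 := Nat.lt_pow_succ_log_self (b := 2) (by norm_num) u
    have h3 : 2 ^ (2 * Nat.log 2 u + 4) = 4 * (2 ^ (Nat.log 2 u).succ) ^ 2 := by
      rw [Nat.succ_eq_add_one]
      ring
    rw [h3, KK]
    nlinarith [Nat.pow_le_pow_left h2.le 2, pow_pos (show 0 < u by omega) 2]
  · have h2 := h (min (2 ^ (i + 1) - 1) (KK u)) (min_le_right _ _)
    have h3 : (S.filter fun q => Nat.log 2 (lab u q) = i) ⊆
        S.filter fun q => lab u q ≤ min (2 ^ (i + 1) - 1) (KK u) := by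
      intro q hq
      rw [mem_filter] at hq ⊢
      refine ⟨hq.1, le_min ?_ (hS q hq.1).2.1⟩
      have := Nat.lt_pow_succ_log_self (b := 2) (by norm_num) (lab u q)
      rw [hq.2, Nat.succ_eq_add_one] at this
      omega
    have h4 := card_nsmul_le_sum (S.filter fun q => Nat.log 2 (lab u q) = i)
      (fun q => Om (q - 1)) (2 ^ i * (hh u - DD u)) fun q hq => by
        rw [mem_filter] at hq
        obtain ⟨a, -, c⟩ := hS q hq.1
        refine le_trans (Nat.mul_le_mul_right _ ?_) c.le_Om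
        rw [← hq.2]
        exact Nat.pow_log_le_self 2 (by omega)
    have h5 := (h4.trans (sum_le_sum_of_subset h3)).trans h2
    have h6 : min (2 ^ (i + 1) - 1) (KK u) + 1 ≤ 2 * 2 ^ i := by
      have := min_le_left (2 ^ (i + 1) - 1) (KK u)
      have h7 : 0 < 2 ^ i := by positivity
      rw [pow_succ] at this ⊢
      omega
    generalize (S.filter fun q => Nat.log 2 (lab u q) = i).card = c at h5 ⊢
    have h7 : c * (2 ^ i * (hh u - DD u)) ≤ 10 * (2 * 2 ^ i) * hh u :=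
      h5.trans (Nat.mul_le_mul_right _ (Nat.mul_le_mul_left _ h6))
    have h8 : 2 ^ i * (c * (hh u - DD u)) ≤ 2 ^ i * (20 * hh u) := by
      calc _ = c * (2 ^ i * (hh u - DD u)) := by ring
        _ ≤ _ := h7
        _ = _ := by ring
    have h9 := Nat.le_of_mul_le_mul_left h8 (by positivity)
    have h10 : hh u ≤ 2 * (hh u - DD u) := by omega
    have h11 : c * hh u ≤ 40 * hh u := by nlinarith
    exact Nat.le_of_mul_le_mul_right h11 hh0

theorem dich : ∀ᶠ u : ℕ in atTop, ∀ n : ℕ, 1 ≤ n → LabLE u (KK u) n →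
    (∃ w₀ S, Rep u 0 (Nat.totient n) w₀ S ∧ S ⊆ n.primeFactors) ∨
      ∃ e n' : ℕ, Bad u e ∧ 1 ≤ n' ∧ Nat.totient n = e * Nat.totient n' := by
  filter_upwards [eventually_ge_atTop 2] with u hu n hn hK
  have hpr : ∀ q ∈ n.primeFactors, q.Prime := fun q hq => Nat.prime_of_mem_primeFactors hq
  by_cases h1 : ∃ p ∈ n.primeFactors, 1 ≤ lab u p ∧ 2 ≤ n.factorization p
  · obtain ⟨p, hp, a, b⟩ := h1
    exact Or.inr (dich_bad hn (singleton_subset_iff.2 hp)
      (Or.inl ⟨p, _, hpr p hp, a, b, prod_singleton _ _⟩))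
  have ht : ∀ p ∈ n.primeFactors, 1 ≤ lab u p →
      Nat.totient (p ^ n.factorization p) = p - 1 := by
    intro p hp a
    have b : ¬ 2 ≤ n.factorization p := fun b => h1 ⟨p, hp, a, b⟩
    have c := (hpr p hp).factorization_pos_of_dvd (by omega) (Nat.dvd_of_mem_primeFactors hp)
    rw [show n.factorization p = 1 by omega, pow_one, Nat.totient_prime (hpr p hp)]
  by_cases h2 : ∃ p ∈ n.primeFactors, 1 ≤ lab u p ∧ ¬ Normal u p
  · obtain ⟨p, hp, a, b⟩ := h2
    exact Or.inr (dich_bad hn (singleton_subset_iff.2 hp) (Or.inr (Or.inl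
      ⟨p, hpr p hp, a, hK p hp, b, (prod_singleton _ _).trans (ht p hp a)⟩)))
  have hN : ∀ p ∈ n.primeFactors, 1 ≤ lab u p → Normal u p := fun p hp a =>
    by_contra fun b => h2 ⟨p, hp, a, b⟩
  have hpos : ∀ F ⊆ n.primeFactors, 1 ≤ ∏ q ∈ F, Nat.totient (q ^ n.factorization q) :=
    fun F hF => prod_pos fun q hq => dich_tpos (hpr q (hF hq)) _
  by_cases h3 : ∃ j ≤ KK u, 10 * (j + 1) * hh u <
      Om (∏ q ∈ n.primeFactors with lab u q ≤ j, Nat.totient (q ^ n.factorization q))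
  · obtain ⟨j, a, b⟩ := h3
    exact Or.inr (dich_bad hn (filter_subset _ _) (Or.inr (Or.inr (Or.inl
      ⟨hpos _ (filter_subset _ _), j, a, dich_lab' _ _ fun q hq =>
        ⟨hpr q (mem_filter.1 hq).1, (mem_filter.1 hq).2⟩, b⟩))))
  have hO : ∀ j ≤ KK u,
      Om (∏ q ∈ n.primeFactors with lab u q ≤ j, Nat.totient (q ^ n.factorization q)) ≤
        10 * (j + 1) * hh u := fun j a => not_lt.1 fun b => h3 ⟨j, a, b⟩
  obtain ⟨S, hS⟩ : ∃ S, S = n.primeFactors.filter fun q => 1 ≤ lab u q := ⟨_, rfl⟩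
  have hSm : ∀ q, q ∈ S ↔ q ∈ n.primeFactors ∧ 1 ≤ lab u q := fun q => by rw [hS, mem_filter]
  have hSg : ∀ q ∈ S, q.Prime ∧ 1 ≤ lab u q ∧ lab u q ≤ KK u ∧ Normal u q := fun q hq =>
    have h := (hSm q).1 hq
    ⟨hpr q h.1, h.2, hK q h.1, hN q h.1 h.2⟩
  have hcard : S.card ≤ LL u := by
    refine dich_card hu S (fun q hq => (hSg q hq).2) fun j hj => le_trans ?_ (hO j hj)
    rw [Om_prod _ _ fun q hq => (dich_tpos (hpr q (mem_filter.1 hq).1) _).ne']
    refine le_trans (le_of_eq (sum_congr rfl fun q hq => ?_))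
      (sum_le_sum_of_subset (filter_subset_filter _ fun q hq => ((hSm q).1 hq).1))
    have h := (hSm q).1 (mem_filter.1 hq).1
    rw [ht q h.1 h.2]
  by_cases h4 : ∀ p ∈ S, gam u (S.filter fun q => q < p) 1 ≤ (hh u : ℝ) * lab u p + MM u
  · have hF : ∀ q ∈ n.primeFactors.filter fun q => lab u q ≤ 0, q.Prime ∧ lab u q ≤ 0 :=
      fun q hq => ⟨hpr q (mem_filter.1 hq).1, (mem_filter.1 hq).2⟩
    refine Or.inl ⟨_, S, ⟨⟨_, dich_pos n.factorization _ fun q hq => (hF q hq).1,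
      dich_lab _ _ hF, dich_tot _ _ fun q hq => (hF q hq).1, by simpa using hO 0 (Nat.zero_le _)⟩,
      ⟨hSg, h4⟩, hcard, ?_⟩, fun q hq => ((hSm q).1 hq).1⟩
    rw [dich_tot_eq hn, val, ← prod_filter_mul_prod_filter_not n.primeFactors fun q => lab u q ≤ 0]
    congr 1
    refine prod_congr ?_ fun q hq => ?_
    · rw [hS]
      exact filter_congr fun q _ => by omega
    · rw [mem_filter] at hq
      exact (ht q hq.1 (by omega)).symm
  push Not at h4
  obtain ⟨p, hp, h4⟩ := h4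
  have hlab : ∀ q ∈ S.filter fun q => q < p, lab u q ≤ lab u p :=
    fun q hq => lab_mono (mem_filter.1 hq).2.le
  refine Or.inr (dich_bad hn (filter_subset (fun q => q ≤ p) _) (Or.inr (Or.inr (Or.inr
    ⟨hpos _ (filter_subset _ _), lab u p, (hSg p hp).2.2.1,
      fun j => kap u j (S.filter fun q => q < p), fun j => (kap_le_card _ _ _).trans
        ((card_filter_le _ _).trans hcard), dich_lab' _ _ fun q hq =>
        ⟨hpr q (mem_filter.1 hq).1, lab_mono (mem_filter.1 hq).2⟩, fun j hj hjp => ?_, ?_⟩))))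
  · rw [OmC_prod _ _ _ _ fun q hq => (dich_tpos (hpr q (mem_filter.1 hq).1) _).ne']
    have hnot : p ∉ (S.filter fun q => q < p).filter fun q => j + 1 ≤ lab u q := by simp
    have hmem : ∀ q ∈ insert p ((S.filter fun q => q < p).filter fun q => j + 1 ≤ lab u q),
        q ∈ S ∧ q ≤ p ∧ j < lab u q := by
      intro q hq
      rcases mem_insert.1 hq with rfl | hq
      · exact ⟨hp, le_rfl, hjp⟩
      · simp only [mem_filter] at hq
        exact ⟨hq.1.1, hq.1.2.le, hq.2⟩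
    have h5 := card_nsmul_le_sum _ (fun q => OmC u j (Nat.totient (q ^ n.factorization q)))
      (hh u - DD u) fun q hq => by
        obtain ⟨a, -, c⟩ := hmem q hq
        have := (hSg q a).2.2.2.2 j c
        rw [ht q ((hSm q).1 a).1 ((hSm q).1 a).2]
        omega
    rw [card_insert_of_notMem hnot, smul_eq_mul, add_comm] at h5
    refine h5.trans ((sum_le_sum_of_subset fun q hq => ?_).trans (Nat.le_succ _))
    exact mem_filter.2 ⟨((hSm q).1 (hmem q hq).1).1, (hmem q hq).2.1⟩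
  · rw [gam_one_eq hlab (hSg p hp).2.2.1] at h4
    linarith

end Vale.Agent.P031
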