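import Vale.Agent.P031.Rank

namespace Vale.Agent.P031

open Finset Real Filter

theorem ebase_wt_nonneg {f : ℕ → ℝ} (hf : ∀ q, 0 ≤ f q) (n : ℕ) : 0 ≤ wt f n := by
  unfold wt
  refine List.prod_nonneg fun x hx => ?_
  obtain ⟨q, -, rfl⟩ := List.mem_map.1 hx
  exact hf q

theorem ebase_prod_update {R : ℕ} (d : Fin R → ℕ) (a : Fin R) {r : ℕ} (hr : r ∣ d a) :
    ∏ i, d i = r * ∏ i, Function.update d a (d a / r) i := by
  rw [Finset.prod_update_of_mem (Finset.mem_univ a), ← mul_assoc, Nat.mul_div_cancel' hr,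
    ← Finset.mul_prod_erase _ _ (Finset.mem_univ a), Finset.sdiff_singleton_eq_erase]

/-- Counting factorizations with support constraints. -/
theorem fact_count (u : ℕ) {R : ℕ} (ξ : Fin R → ℕ) (U : ℕ) (hU : 1 ≤ U) (F : Finset (Fin R → ℕ))
    (hF : ∀ d ∈ F, ∏ a, d a = U ∧ ∀ a, LabLE u (ξ a) (d a)) :
    (F.card : ℝ) ≤ wt (fun q => (kr ξ (lab u q) : ℝ)) U := by
  classical
  induction U using Nat.strong_induction_on generalizing F with
  | _ U ih =>
  rcases eq_or_lt_of_le hU with rfl | hU1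
  · have h1 : F ⊆ {fun _ => 1} := by
      intro d hd
      rw [Finset.mem_singleton]
      funext a
      exact Nat.dvd_one.1 ((hF d hd).1 ▸ Finset.dvd_prod_of_mem _ (Finset.mem_univ a))
    have h2 := Finset.card_le_card h1
    rw [Finset.card_singleton] at h2
    simp only [wt, Nat.primeFactorsList_one, List.map_nil, List.prod_nil]
    exact_mod_cast h2
  obtain ⟨q, hq, U', rfl⟩ := Nat.exists_prime_and_dvd hU1.ne'
  have hU' : 1 ≤ U' := Nat.pos_of_mul_pos_left (by omega : 0 < q * U') |> id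
  have hlt : U' < q * U' := by
    have := hq.two_le
    nlinarith
  have hne : ∀ d ∈ F, ∀ a, d a ≠ 0 := by
    intro d hd a h0
    have := (hF d hd).1
    rw [Finset.prod_eq_zero (Finset.mem_univ a) h0] at this
    omega
  have h1 : F ⊆ (univ.filter fun a => lab u q ≤ ξ a).biUnion
      fun a => F.filter fun d => q ∣ d a := by
    intro d hd
    have h2 : q ∣ ∏ a, d a := (hF d hd).1 ▸ Dvd.intro _ rfl
    obtain ⟨a, -, ha⟩ := (Prime.dvd_finsetProd_iff hq.prime _).1 h2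
    exact Finset.mem_biUnion.2 ⟨a, Finset.mem_filter.2 ⟨Finset.mem_univ _,
      (hF d hd).2 a q (Nat.mem_primeFactors.2 ⟨hq, ha, hne d hd a⟩)⟩, Finset.mem_filter.2 ⟨hd, ha⟩⟩
  have h2 : ∀ a, (((F.filter fun d => q ∣ d a).card : ℕ) : ℝ) ≤
      wt (fun q => (kr ξ (lab u q) : ℝ)) U' := by
    intro a
    have hinj : Set.InjOn (fun d : Fin R → ℕ => Function.update d a (d a / q))
        (F.filter fun d => q ∣ d a : Set _) := by
      intro d hd d' hd' h
      have hd0 := (Finset.mem_filter.1 (Finset.mem_coe.1 hd)).2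
      have hd0' := (Finset.mem_filter.1 (Finset.mem_coe.1 hd')).2
      funext i
      have hi' := congrFun h i
      by_cases hi : i = a
      · subst hi
        simp only [Function.update_self] at hi'
        rw [← Nat.div_mul_cancel hd0, ← Nat.div_mul_cancel hd0', hi']
      · simpa [Function.update_of_ne hi] using hi'
    rw [← Finset.card_image_of_injOn hinj]
    refine ih U' hlt hU' _ fun e he => ?_
    obtain ⟨d, hd', rfl⟩ := Finset.mem_image.1 he
    obtain ⟨hd, hqd⟩ := Finset.mem_filter.1 hd'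
    refine ⟨?_, fun i => ?_⟩
    · have := (hF d hd).1
      rw [ebase_prod_update d a hqd] at this
      exact Nat.eq_of_mul_eq_mul_left hq.pos this
    · by_cases hi : i = a
      · subst hi
        rw [Function.update_self]
        exact ((hF d hd).2 i).of_dvd (Nat.div_dvd_of_dvd hqd) (hne d hd i)
      · rw [Function.update_of_ne hi]
        exact (hF d hd).2 i
  have h3 := (Finset.card_le_card h1).trans Finset.card_biUnion_le
  have h4 : (F.card : ℝ) ≤ ∑ a ∈ univ.filter fun a => lab u q ≤ ξ a,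
      (((F.filter fun d => q ∣ d a).card : ℕ) : ℝ) := by exact_mod_cast h3
  refine h4.trans ((Finset.sum_le_sum fun a _ => h2 a).trans (le_of_eq ?_))
  rw [Finset.sum_const, nsmul_eq_mul, wt_mul _ hq.ne_zero (by omega)]
  congr 1
  simp [wt, Nat.primeFactorsList_prime hq, kr]

theorem ebase_kr_le {R : ℕ} (ξ : Fin R → ℕ) (j : ℕ) : kr ξ j ≤ R := by
  unfold kr
  exact (Finset.card_filter_le _ _).trans (by simp)

theorem ebase_OmC {u R : ℕ} {ξ d : Fin R → ℕ} (h : RowOK u ξ d) {j : ℕ} (hj : 1 ≤ j) :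
    OmC u j (∏ a, d a) ≤ kr ξ j * (hh u + DD u) := by
  classical
  rw [OmC_prod u j _ _ fun a _ => by have := (h a).1; omega]
  unfold kr
  rw [Finset.card_filter, Finset.sum_mul]
  refine Finset.sum_le_sum fun a _ => ?_
  split_ifs with ha
  · rw [one_mul]
    exact (h a).2.2.2 j hj
  · rw [OmC_eq_zero (h a).2.1 (by omega)]
    omega

theorem ebase_OmC_zero {u R : ℕ} {ξ d : Fin R → ℕ} (h : RowOK u ξ d) :
    OmC u 0 (∏ a, d a) ≤ R * (10 * hh u) := by
  rw [OmC_prod u 0 _ _ fun a _ => by have := (h a).1; omega]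
  have := Finset.sum_le_card_nsmul univ (fun a => OmC u 0 (d a)) (10 * hh u)
    fun a _ => (h a).2.2.1
  simpa using this

theorem ebase_range (τ : ℕ) {M : Type*} [CommMonoid M] (f : ℕ → M) :
    ∏ j ∈ range (τ + 1), f j = f 0 * ∏ j ∈ Icc 1 τ, f j := by
  rw [Finset.range_eq_Ico, Finset.prod_eq_prod_Ico_succ_bot (by omega)]
  rfl

theorem ebase_range_sum (τ : ℕ) (f : ℕ → ℝ) :
    ∑ j ∈ range (τ + 1), f j = f 0 + ∑ j ∈ Icc 1 τ, f j := by
  rw [Finset.range_eq_Ico, Finset.sum_eq_sum_Ico_succ_bot (by omega)]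
  rfl

theorem ebase : ∀ᶠ u : ℕ in atTop, ∀ (R τ : ℕ) (ξ ξ' : Fin R → ℕ), 1 ≤ R → R ≤ u →
    (∀ a, ξ a ≤ τ) → (∀ j, 1 ≤ j → j ≤ τ → 1 ≤ kr ξ' j) →
    ∀ Z : Finset ((Fin R → ℕ) × (Fin R → ℕ)), (∀ c ∈ Z, Cfg0 u ξ ξ' c) →
    cmass Z ≤ exp (∑ j ∈ Icc 1 τ, ((kr ξ j : ℝ) * ((hh u : ℝ) + DD u) * log (kr ξ' j : ℝ) +
      (kr ξ j : ℝ) * ((hh u : ℝ) + u)) + 25 * (hh u : ℝ) * (R : ℝ) ^ 2) := by
  classical
  filter_upwards [rankin_cells, eventually_ge_atTop 10] with u hrk hu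
  intro R τ ξ ξ' hR1 hRu hξ hξ' Z hZ
  have hu10 : (10 : ℝ) ≤ u := by exact_mod_cast hu
  have hR1' : (1 : ℝ) ≤ R := by exact_mod_cast hR1
  let lam : ℕ → ℝ := fun j => if j = 0 then 1 else (kr ξ j : ℝ)
  have hlam : ∀ j ∈ Icc 1 τ, lam j = kr ξ j := fun j hj => by
    have := (Finset.mem_Icc.1 hj).1
    exact if_neg (by omega)
  have hlam0 : lam 0 = 1 := if_pos rfl
  set E := exp (∑ j ∈ Icc 1 τ, (kr ξ j : ℝ) * ((hh u : ℝ) + DD u) * log (kr ξ' j : ℝ) +
    20 * (hh u : ℝ) * (R : ℝ) ^ 2) with hE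
  let g : (Fin R → ℕ) × (Fin R → ℕ) → ℕ := fun c => ∏ a, c.1 a
  have hS : ∀ U ∈ Z.image g, 1 ≤ U ∧ LabLE u τ U := by
    intro U hU
    obtain ⟨c, hc, rfl⟩ := Finset.mem_image.1 hU
    have h0 : 0 < ∏ a, c.1 a := Finset.prod_pos fun a _ => ((hZ c hc).1 a).1
    exact ⟨h0, LabLE.prod _ _ fun a _ => ((hZ c hc).1 a).2.1.mono (hξ a)⟩
  have hfib : ∀ U ∈ Z.image g, (((Z.filter fun c => g c = U).card : ℕ) : ℝ) ≤
      E * ∏ j ∈ range (τ + 1), lam j ^ OmC u j U := by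
    intro U hU
    obtain ⟨hU1, hUτ⟩ := hS U hU
    obtain ⟨c₀, hc₀, hU0⟩ := Finset.mem_image.1 hU
    have h1 : (Z.filter fun c => g c = U) ⊆ ((Z.filter fun c => g c = U).image Prod.fst) ×ˢ
        ((Z.filter fun c => g c = U).image Prod.snd) := fun c hc =>
      Finset.mem_product.2 ⟨Finset.mem_image_of_mem _ hc, Finset.mem_image_of_mem _ hc⟩
    have h2 := Finset.card_le_card h1
    rw [Finset.card_product] at h2
    have h3 := fact_count u ξ U hU1 ((Z.filter fun c => g c = U).image Prod.fst) fun d hd => by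
      obtain ⟨c, hc, rfl⟩ := Finset.mem_image.1 hd
      obtain ⟨hc, hcU⟩ := Finset.mem_filter.1 hc
      exact ⟨hcU, fun a => ((hZ c hc).1 a).2.1⟩
    have h4 := fact_count u ξ' U hU1 ((Z.filter fun c => g c = U).image Prod.snd) fun d hd => by
      obtain ⟨c, hc, rfl⟩ := Finset.mem_image.1 hd
      obtain ⟨hc, hcU⟩ := Finset.mem_filter.1 hc
      exact ⟨(hZ c hc).2.2 ▸ hcU, fun a => ((hZ c hc).2.1 a).2.1⟩
    rw [wt_lab (fun j => (kr ξ j : ℝ)) hUτ] at h3
    rw [wt_lab (fun j => (kr ξ' j : ℝ)) hUτ] at h4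
    have h5 : (((Z.filter fun c => g c = U).card : ℕ) : ℝ) ≤
        (∏ j ∈ range (τ + 1), (kr ξ j : ℝ) ^ OmC u j U) *
          ∏ j ∈ range (τ + 1), (kr ξ' j : ℝ) ^ OmC u j U :=
      le_trans (by exact_mod_cast h2) (mul_le_mul h3 h4 (by positivity) (by positivity))
    refine h5.trans ?_
    rw [ebase_range, ebase_range, ebase_range, hlam0, one_pow, one_mul,
      Finset.prod_congr rfl fun j hj => congrArg (· ^ OmC u j U) (hlam j hj)]
    have h6 : ∀ k : ℕ, k ≤ R → (k : ℝ) ^ OmC u 0 U ≤ exp (10 * (hh u : ℝ) * (R : ℝ) ^ 2) := by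
      intro k hk
      have h7 : OmC u 0 U ≤ R * (10 * hh u) := hU0 ▸ ebase_OmC_zero (hZ c₀ hc₀).1
      have h8 : (k : ℝ) ≤ exp R := by
        have : (k : ℝ) ≤ R := by exact_mod_cast hk
        linarith [Real.add_one_le_exp (R : ℝ)]
      calc (k : ℝ) ^ OmC u 0 U ≤ (exp R) ^ OmC u 0 U := pow_le_pow_left₀ (by positivity) h8 _
        _ ≤ (exp R) ^ (R * (10 * hh u)) :=
          pow_le_pow_right₀ (Real.one_le_exp (by positivity)) h7
        _ = _ := by
          rw [← Real.exp_nat_mul]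
          congr 1
          push_cast
          ring
    have h7 : ∏ j ∈ Icc 1 τ, (kr ξ' j : ℝ) ^ OmC u j U ≤
        exp (∑ j ∈ Icc 1 τ, (kr ξ j : ℝ) * ((hh u : ℝ) + DD u) * log (kr ξ' j : ℝ)) := by
      rw [Real.exp_sum]
      refine Finset.prod_le_prod (fun j _ => by positivity) fun j hj => ?_
      obtain ⟨hj1, hj2⟩ := Finset.mem_Icc.1 hj
      have h8 : (1 : ℝ) ≤ kr ξ' j := by exact_mod_cast hξ' j hj1 hj2
      have h9 : OmC u j U ≤ kr ξ j * (hh u + DD u) := hU0 ▸ ebase_OmC (hZ c₀ hc₀).1 hj1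
      refine (pow_le_pow_right₀ h8 h9).trans (le_of_eq ?_)
      rw [← Real.exp_log (by positivity : (0 : ℝ) < (kr ξ' j : ℝ) ^ (kr ξ j * (hh u + DD u))),
        Real.log_pow]
      push_cast
      rfl
    have h8 := h6 _ (ebase_kr_le ξ 0)
    have h9 := h6 _ (ebase_kr_le ξ' 0)
    have h10 : E = exp (10 * (hh u : ℝ) * (R : ℝ) ^ 2) * (exp (10 * (hh u : ℝ) * (R : ℝ) ^ 2) *
        exp (∑ j ∈ Icc 1 τ, (kr ξ j : ℝ) * ((hh u : ℝ) + DD u) * log (kr ξ' j : ℝ))) := by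
      rw [hE, ← Real.exp_add, ← Real.exp_add]
      congr 1
      ring
    rw [h10]
    calc _ = ((kr ξ 0 : ℝ) ^ OmC u 0 U * ((kr ξ' 0 : ℝ) ^ OmC u 0 U *
          ∏ j ∈ Icc 1 τ, (kr ξ' j : ℝ) ^ OmC u j U)) *
          ∏ j ∈ Icc 1 τ, (kr ξ j : ℝ) ^ OmC u j U := by ring
      _ ≤ _ := by gcongr
  have hr := hrk τ lam (fun j => by
    have hu1 : (1 : ℝ) ≤ u := by linarith
    by_cases hj : j = 0
    · subst hj
      rw [hlam0]
      exact ⟨zero_le_one, one_le_pow₀ hu1⟩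
    · have h1 : lam j = kr ξ j := if_neg hj
      have h2 : (kr ξ j : ℝ) ≤ u := by exact_mod_cast (ebase_kr_le ξ j).trans hRu
      rw [h1]
      exact ⟨by positivity, h2.trans (le_self_pow₀ hu1 (by norm_num))⟩)
    (by rw [hlam0]; norm_num) (Z.image g) hS
  have h1 : cmass Z ≤ E * ∑ U ∈ Z.image g, (∏ j ∈ range (τ + 1), lam j ^ OmC u j U) / U := by
    unfold cmass
    rw [← Finset.sum_fiberwise_of_maps_to (s := Z) (t := Z.image g) (g := g)
      (fun c hc => Finset.mem_image_of_mem _ hc), Finset.mul_sum]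
    refine Finset.sum_le_sum fun U hU => ?_
    rw [Finset.sum_congr rfl (g := fun _ => 1 / (U : ℝ)) fun c hc => by
      rw [← (Finset.mem_filter.1 hc).2], Finset.sum_const, nsmul_eq_mul, ← mul_div_assoc,
      ← mul_div_assoc, mul_one]
    exact div_le_div_of_nonneg_right (hfib U hU) (by positivity)
  refine h1.trans ((mul_le_mul_of_nonneg_left hr (Real.exp_pos _).le).trans ?_)
  rw [← Real.exp_add, Real.exp_le_exp, ebase_range_sum, hlam0, Finset.sum_add_distrib,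
    Finset.sum_congr rfl fun j hj => congrArg (· * ((hh u : ℝ) + u)) (hlam j hj)]
  have h2 : (u : ℝ) ≤ hh u := by
    unfold hh
    push_cast
    exact le_self_pow₀ (by linarith) (by norm_num)
  have h3 : (hh u : ℝ) ≤ hh u * (R : ℝ) ^ 2 :=
    le_mul_of_one_le_right (by positivity) (one_le_pow₀ hR1')
  linarith

end Vale.Agent.P031
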