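import Vale.Agent.P031.Defs

namespace Vale.Agent.P031

open Finset Real Filter

theorem hh_pos {u : ℕ} (hu : 1 ≤ u) : (0 : ℝ) < hh u := by
  have : 0 < hh u := by unfold hh; positivity
  exact_mod_cast this

theorem loglog_nonpos {p : ℕ} (hp : p < 3) : log (log (p : ℝ)) ≤ 0 := by
  interval_cases p
  · simp
  · simp
  · have h1 := Real.log_two_lt_d9
    have h2 : 0 < log (2 : ℝ) := Real.log_pos (by norm_num)
    exact Real.log_nonpos (by exact_mod_cast h2.le) (by push_cast; linarith)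

theorem lab_eq_zero {u p : ℕ} (hp : p < 3) : lab u p = 0 := by
  unfold lab
  rw [Nat.floor_eq_zero]
  have := loglog_nonpos hp
  have h2 : log (log (p : ℝ)) / (hh u : ℝ) ≤ 0 := div_nonpos_of_nonpos_of_nonneg this (by positivity)
  linarith

theorem one_lt_log_three : 1 < log (3 : ℝ) := by
  rw [Real.lt_log_iff_exp_lt (by norm_num)]
  exact Real.exp_one_lt_d9.trans (by norm_num)

theorem one_lt_log {y : ℝ} (hy : 3 ≤ y) : 1 < log y :=
  one_lt_log_three.trans_le (Real.log_le_log (by norm_num) hy)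

theorem loglog_pos {y : ℝ} (hy : 3 ≤ y) : 0 < log (log y) := Real.log_pos (one_lt_log hy)

theorem loglog_mono {x y : ℝ} (hx : 1 < x) (h : x ≤ y) : log (log x) ≤ log (log y) :=
  Real.log_le_log (Real.log_pos hx) (Real.log_le_log (by linarith) h)

theorem loglog_succ_le {y : ℝ} (hy : 3 ≤ y) : log (log (y + 1)) ≤ log (log y) + 1 := by
  have h0 : 0 < log y := by linarith [one_lt_log hy]
  have h1 : log (y + 1) ≤ 2 * log y := by
    have : log (y + 1) ≤ log (y ^ 2) := Real.log_le_log (by linarith) (by nlinarith)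
    rwa [Real.log_pow, Nat.cast_ofNat] at this
  have h2 : log (log (y + 1)) ≤ log (2 * log y) :=
    Real.log_le_log (Real.log_pos (by linarith)) h1
  rw [Real.log_mul (by norm_num) h0.ne'] at h2
  have := Real.log_two_lt_d9
  linarith

theorem lab_mono {u p q : ℕ} (h : p ≤ q) : lab u p ≤ lab u q := by
  rcases Nat.lt_or_ge p 3 with hp | hp
  · rw [lab_eq_zero hp]
    exact Nat.zero_le _
  · unfold lab
    apply Nat.floor_mono
    have h3 : (3 : ℝ) ≤ p := by exact_mod_cast hp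
    exact div_le_div_of_nonneg_right (loglog_mono (by linarith) (by exact_mod_cast h))
      (by positivity)

theorem three_le_of_lab {u p : ℕ} (h : 1 ≤ lab u p) : 3 ≤ p := by
  by_contra hp
  rw [lab_eq_zero (not_le.1 hp)] at h
  omega

theorem lab_mul_le {u p : ℕ} (hu : 1 ≤ u) (hp : 3 ≤ p) :
    (lab u p : ℝ) * hh u ≤ log (log (p : ℝ)) := by
  have h0 := hh_pos hu
  have h1 : 0 < log (log (p : ℝ)) := loglog_pos (by exact_mod_cast hp)
  rw [← le_div_iff₀ h0]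
  exact Nat.floor_le (by positivity)

theorem loglog_lt {u : ℕ} (hu : 1 ≤ u) (p : ℕ) :
    log (log (p : ℝ)) < ((lab u p : ℝ) + 1) * hh u := by
  rw [← div_lt_iff₀ (hh_pos hu)]
  exact Nat.lt_floor_add_one _

theorem log_lt_of_lab_le {u p j : ℕ} (hu : 1 ≤ u) (h : lab u p ≤ j) :
    log (p : ℝ) < exp (((j : ℝ) + 1) * hh u) := by
  rcases le_or_gt (log (p : ℝ)) 0 with h0 | h0
  · exact h0.trans_lt (Real.exp_pos _)
  · rw [← Real.log_lt_iff_lt_exp h0]
    have h1 : (lab u p : ℝ) ≤ j := by exact_mod_cast h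
    have := hh_pos hu
    calc log (log (p : ℝ)) < ((lab u p : ℝ) + 1) * hh u := loglog_lt hu p
      _ ≤ _ := by gcongr

theorem exp_le_log_of_le_lab {u p j : ℕ} (hu : 1 ≤ u) (hj : 1 ≤ j) (h : j ≤ lab u p) :
    exp ((j : ℝ) * hh u) ≤ log (p : ℝ) := by
  have hp := three_le_of_lab (hj.trans h)
  have h3 : (3 : ℝ) ≤ p := by exact_mod_cast hp
  rw [← Real.le_log_iff_exp_le (by linarith [one_lt_log h3])]
  have h1 : (j : ℝ) ≤ lab u p := by exact_mod_cast h
  have := hh_pos hu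
  calc (j : ℝ) * hh u ≤ (lab u p : ℝ) * hh u := by gcongr
    _ ≤ _ := lab_mul_le hu hp

/-- If `log log p ≤ j h` then the label is at most `j`. -/
theorem lab_le_of_loglog_le {u p j : ℕ} (hu : 1 ≤ u) (h : log (log (p : ℝ)) ≤ (j : ℝ) * hh u) :
    lab u p ≤ j := by
  unfold lab
  apply Nat.floor_le_of_le
  rwa [div_le_iff₀ (hh_pos hu)]

theorem lab_le_tauY {u p : ℕ} {y : ℝ} (hy : 3 ≤ y) (hp : (p : ℝ) ≤ y + 1) :
    lab u p ≤ tauY u y := by
  rcases Nat.lt_or_ge p 3 with h | h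
  · rw [lab_eq_zero h]
    exact Nat.zero_le _
  · unfold lab tauY
    apply Nat.floor_mono
    have h3 : (3 : ℝ) ≤ p := by exact_mod_cast h
    have _ := hy
    exact div_le_div_of_nonneg_right (loglog_mono (by linarith) hp) (by positivity)

theorem tauY_le_KK {u : ℕ} {y : ℝ} (hu : 1 ≤ u) (hy : 3 ≤ y)
    (h : log (log y) ≤ 2 * (u : ℝ) ^ 10) : tauY u y ≤ KK u := by
  unfold tauY
  apply Nat.floor_le_of_le
  rw [div_le_iff₀ (hh_pos hu)]
  have h1 := loglog_succ_le hy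
  have hu' : (1 : ℝ) ≤ u := by exact_mod_cast hu
  have h2 : (1 : ℝ) ≤ (u : ℝ) ^ 10 := one_le_pow₀ hu'
  have : ((KK u : ℕ) : ℝ) * hh u = 3 * (u : ℝ) ^ 10 := by
    simp only [KK, hh]
    push_cast
    ring
  rw [this]
  linarith

/-- Numbers up to `y + 1` have label `≤ KK u` when `log log y ≤ 2 u ^ 10`. -/
theorem lab_le_KK {u p : ℕ} {y : ℝ} (hu : 1 ≤ u) (hy : 3 ≤ y)
    (h : log (log y) ≤ 2 * (u : ℝ) ^ 10) (hp : (p : ℝ) ≤ y + 1) : lab u p ≤ KK u :=
  (lab_le_tauY hy hp).trans (tauY_le_KK hu hy h)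

theorem tauY_mul_le {u : ℕ} {y : ℝ} (hu : 1 ≤ u) (hy : 3 ≤ y) :
    (tauY u y : ℝ) * hh u ≤ log (log y) + 1 := by
  have h0 := hh_pos hu
  have h1 : 0 < log (log (y + 1)) := loglog_pos (by linarith)
  refine le_trans ?_ (loglog_succ_le hy)
  rw [← le_div_iff₀ h0]
  exact Nat.floor_le (by positivity)

/-- Numbers with label `≤ KK u` are at most `XX u / 2`. -/
theorem two_mul_le_XX {u p : ℕ} (hu : 2 ≤ u) (h : lab u p ≤ KK u) : 2 * (p : ℝ) ≤ XX u := by
  rcases Nat.eq_zero_or_pos p with rfl | hp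
  · simp only [Nat.cast_zero, mul_zero]
    exact (Real.exp_pos _).le
  have hp' : (0 : ℝ) < p := by exact_mod_cast hp
  have h1 := log_lt_of_lab_le (by omega) h
  have hu' : (2 : ℝ) ≤ u := by exact_mod_cast hu
  have h8 : (1 : ℝ) ≤ (u : ℝ) ^ 8 := one_le_pow₀ (by linarith)
  have h2 : (((KK u : ℕ) : ℝ) + 1) * hh u + 1 ≤ 4 * (u : ℝ) ^ 10 := by
    simp only [KK, hh]
    push_cast
    have : (u : ℝ) ^ 10 = (u : ℝ) ^ 2 * (u : ℝ) ^ 8 := by ring
    have h4 : (4 : ℝ) ≤ (u : ℝ) ^ 2 := by nlinarith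
    nlinarith
  unfold XX
  rw [← Real.log_le_iff_le_exp (by positivity), Real.log_mul (by norm_num) hp'.ne']
  set a := (((KK u : ℕ) : ℝ) + 1) * hh u
  have ha : 0 ≤ a := by positivity
  have h3 : exp (a + 1) ≤ exp (4 * (u : ℝ) ^ 10) := Real.exp_le_exp.2 h2
  rw [Real.exp_add] at h3
  have h4 : 1 ≤ exp a := Real.one_le_exp ha
  have h5 := Real.exp_one_gt_d9
  have := Real.log_two_lt_d9
  nlinarith

theorem mem_cells {u j₁ j₂ p : ℕ} (hu : 1 ≤ u) :
    p ∈ cells u j₁ j₂ ↔ p.Prime ∧ j₁ ≤ lab u p ∧ lab u p < j₂ := by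
  unfold cells
  rw [mem_filter, mem_range]
  refine ⟨fun h => h.2, fun h => ⟨?_, h⟩⟩
  obtain ⟨hp, -, h2⟩ := h
  obtain ⟨j, rfl⟩ : ∃ j, j₂ = j + 1 := ⟨j₂ - 1, by omega⟩
  have h1 := log_lt_of_lab_le hu (Nat.lt_succ_iff.1 h2)
  have hp' : (0 : ℝ) < p := by exact_mod_cast hp.pos
  rw [Real.log_lt_iff_lt_exp hp'] at h1
  have h3 : (p : ℝ) < ⌈exp (exp (((j + 1 : ℕ) : ℝ) * hh u))⌉₊ := by
    push_cast
    exact h1.trans_le (Nat.le_ceil _)
  have : p < ⌈exp (exp (((j + 1 : ℕ) : ℝ) * hh u))⌉₊ := by exact_mod_cast h3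
  omega

/-! Asymptotics of the parameters. -/

theorem LL_le_log {u : ℕ} (hu : 3 ≤ u) : (LL u : ℝ) ≤ 600 * log (u : ℝ) := by
  have h1 : 1 < log (u : ℝ) := one_lt_log (by exact_mod_cast hu)
  have h2 : (2 : ℝ) ^ Nat.log 2 u ≤ u := by exact_mod_cast Nat.pow_log_le_self 2 (by omega)
  have h3 := Real.log_le_log (by positivity) h2
  rw [Real.log_pow] at h3
  have h4 := Real.log_two_gt_d9
  have h5 : (0 : ℝ) ≤ Nat.log 2 u := by positivity
  simp only [LL]
  push_cast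
  nlinarith

theorem ev_L_pow (N : ℕ) (c : ℝ) : ∀ᶠ u : ℕ in atTop, c * (LL u : ℝ) ^ N ≤ u := by
  have h := (Real.isLittleO_pow_log_id_atTop (n := N)).comp_tendsto tendsto_natCast_atTop_atTop
  have hc : 0 < 1 / ((|c| + 1) * 600 ^ N) := by positivity
  filter_upwards [h.def hc, eventually_ge_atTop 3] with u h1 hu
  simp only [Function.comp, id, Real.norm_eq_abs] at h1
  have hl : 0 < log (u : ℝ) := by linarith [one_lt_log (y := (u : ℝ)) (by exact_mod_cast hu)]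
  rw [abs_of_nonneg (pow_nonneg hl.le N), Nat.abs_cast] at h1
  have h2 : (LL u : ℝ) ^ N ≤ (600 * log (u : ℝ)) ^ N :=
    pow_le_pow_left₀ (by positivity) (LL_le_log hu) N
  rw [mul_pow] at h2
  calc c * (LL u : ℝ) ^ N ≤ (|c| + 1) * (LL u : ℝ) ^ N := by
        gcongr
        linarith [le_abs_self c]
    _ ≤ (|c| + 1) * (600 ^ N * log (u : ℝ) ^ N) := by gcongr
    _ ≤ (|c| + 1) * (600 ^ N * (1 / ((|c| + 1) * 600 ^ N) * u)) := by gcongr
    _ = u := by field_simp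

theorem ev_pow_exp (N : ℕ) (c : ℝ) : ∀ᶠ u : ℕ in atTop, c * (u : ℝ) ^ N ≤ exp u := by
  have h := (Real.isLittleO_pow_exp_atTop (n := N)).comp_tendsto tendsto_natCast_atTop_atTop
  have hc : 0 < 1 / (|c| + 1) := by positivity
  filter_upwards [h.def hc] with u h1
  simp only [Function.comp, Real.norm_eq_abs] at h1
  rw [abs_of_nonneg (by positivity), abs_of_nonneg (Real.exp_pos _).le] at h1
  calc c * (u : ℝ) ^ N ≤ (|c| + 1) * (u : ℝ) ^ N := by
        gcongr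
        linarith [le_abs_self c]
    _ ≤ (|c| + 1) * (1 / (|c| + 1) * exp u) := by gcongr
    _ = exp u := by field_simp

theorem le_LL (u : ℕ) : 200 ≤ LL u := by
  unfold LL
  omega

theorem log_le_LL {u : ℕ} (hu : 1 ≤ u) : log (u : ℝ) ≤ LL u := by
  have h2 : (u : ℝ) ≤ (2 : ℝ) ^ (Nat.log 2 u + 1) := by
    exact_mod_cast (Nat.lt_pow_succ_log_self (by norm_num) u).le
  have h3 := Real.log_le_log (by exact_mod_cast hu) h2
  rw [Real.log_pow] at h3
  have h4 := Real.log_two_lt_d9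
  have h5 : (0 : ℝ) ≤ Nat.log 2 u := by positivity
  simp only [LL]
  push_cast at h3 ⊢
  nlinarith

theorem ev_pow_L (N : ℕ) : ∀ᶠ u : ℕ in atTop, ((u : ℝ) ^ N) ^ (LL u + 2) ≤ exp u := by
  filter_upwards [ev_L_pow 2 (2 * N), eventually_ge_atTop 1] with u h1 hu
  have hu' : (0 : ℝ) < u := by exact_mod_cast hu
  rw [← Real.log_le_iff_le_exp (by positivity), Real.log_pow, Real.log_pow]
  have h2 := log_le_LL hu
  have h3 : (200 : ℝ) ≤ LL u := by exact_mod_cast le_LL u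
  have h4 : 0 ≤ log (u : ℝ) := Real.log_nonneg (by exact_mod_cast hu)
  push_cast
  calc ((LL u : ℝ) + 2) * (N * log (u : ℝ)) ≤ (2 * LL u) * (N * LL u) := by
        gcongr
        linarith
    _ = 2 * N * (LL u : ℝ) ^ 2 := by ring
    _ ≤ u := h1

theorem BB_le {u : ℕ} (hu : 1 ≤ u) : (BB u : ℝ) ≤ 40 * (u : ℝ) ^ 10 := by
  have hu' : (1 : ℝ) ≤ u := by exact_mod_cast hu
  simp only [BB, KK, hh]
  push_cast
  have h1 : (u : ℝ) ^ 8 ≤ (u : ℝ) ^ 10 := pow_le_pow_right₀ hu' (by norm_num)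
  have : (u : ℝ) ^ 10 = (u : ℝ) ^ 2 * (u : ℝ) ^ 8 := by ring
  nlinarith

end Vale.Agent.P031
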