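import Vale.Agent.P031.Phi
import Vale.Agent.P031.Lab

namespace Vale.Agent.P031

open Finset Real Filter

theorem G_zero (m : ℕ) : G m 0 = 0 := by
  unfold G
  split_ifs <;> simp

theorem G_mono (m : ℕ) {κ κ' : ℕ} (h : κ ≤ κ') : G m κ ≤ G m κ' := by
  unfold G
  split_ifs with hm
  · exact_mod_cast min_le_min_right 1 h
  · have h1 : (1 : ℝ) ≤ m := by exact_mod_cast Nat.one_le_iff_ne_zero.2 hm
    have h2 : (κ : ℝ) ≤ κ' := by exact_mod_cast h
    have h3 : (0 : ℝ) ≤ κ := by positivity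
    linarith [Q_mono (x := (m : ℝ) + κ) (y := (m : ℝ) + κ') (by linarith) (by linarith)]

theorem G_nonneg (m κ : ℕ) : 0 ≤ G m κ := G_zero m ▸ G_mono m (Nat.zero_le κ)

theorem G_le (m : ℕ) {κ L : ℕ} (h : κ ≤ L) : G m κ ≤ ((m : ℝ) + L + 1) ^ 2 := by
  have h2 : (κ : ℝ) ≤ L := by exact_mod_cast h
  have h3 : (0 : ℝ) ≤ κ := by positivity
  have h0 : (0 : ℝ) ≤ m := by positivity
  unfold G
  split_ifs with hm
  · have : ((min κ 1 : ℕ) : ℝ) ≤ 1 := by exact_mod_cast min_le_right κ 1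
    nlinarith
  · have h1 : (1 : ℝ) ≤ m := by exact_mod_cast Nat.one_le_iff_ne_zero.2 hm
    have h4 := Q_le_sq (x := (m : ℝ) + κ) (by linarith)
    have h5 := Q_nonneg h1
    nlinarith

theorem G_succ {m : ℕ} (hm : 1 ≤ m) (κ : ℕ) : G m (κ + 1) = aa m + G (m + 1) κ := by
  unfold G aa
  rw [if_neg (by omega), if_neg (by omega)]
  push_cast
  rw [show (m : ℝ) + (κ + 1) = m + 1 + κ by ring]
  ring

theorem kap_anti (u : ℕ) {j j' : ℕ} (h : j ≤ j') (S : Finset ℕ) : kap u j' S ≤ kap u j S :=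
  card_le_card fun p hp => by
    rw [mem_filter] at hp ⊢
    exact ⟨hp.1, h.trans hp.2⟩

theorem kap_mono (u j : ℕ) {S S' : Finset ℕ} (h : S ⊆ S') : kap u j S ≤ kap u j S' :=
  card_le_card (filter_subset_filter _ h)

theorem kap_le_card (u j : ℕ) (S : Finset ℕ) : kap u j S ≤ S.card := card_filter_le _ _

theorem kap_eq_zero {u j τ : ℕ} {S : Finset ℕ} (h : ∀ p ∈ S, lab u p ≤ τ) (hj : τ < j) :
    kap u j S = 0 := by
  unfold kap
  rw [card_eq_zero, filter_eq_empty_iff]
  intro p hp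
  have := h p hp
  omega

theorem gam_nonneg (u : ℕ) (S : Finset ℕ) (m : ℕ) : 0 ≤ gam u S m :=
  mul_nonneg (by positivity) (sum_nonneg fun _ _ => G_nonneg _ _)

theorem gam_empty (u : ℕ) : gam u ∅ = fun _ => 0 := by
  funext m
  simp [gam, kap, G_zero]

theorem gam_mono (u : ℕ) {S S' : Finset ℕ} (h : S ⊆ S') (m : ℕ) : gam u S m ≤ gam u S' m :=
  mul_le_mul_of_nonneg_left (sum_le_sum fun j _ => G_mono m (kap_mono u j h)) (by positivity)

theorem sum_ite_le {τ K : ℕ} (h : τ ≤ K) (c : ℝ) :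
    ∑ j ∈ Icc 1 K, (if j ≤ τ then c else 0) = τ * c := by
  rw [← sum_filter]
  have : (Icc 1 K).filter (fun j => j ≤ τ) = Icc 1 τ := by
    ext j
    simp only [mem_filter, mem_Icc]
    omega
  rw [this]
  simp

theorem gam_insert {u q : ℕ} {S : Finset ℕ} (hq : q ∉ S) (hK : lab u q ≤ KK u)
    (h : ∀ p ∈ S, lab u p ≤ lab u q) :
    gam u (insert q S) = ext ((hh u : ℝ) * lab u q) (gam u S) := by
  have hk : ∀ j, kap u j (insert q S) = if j ≤ lab u q then kap u j S + 1 else 0 := by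
    intro j
    split_ifs with hj
    · unfold kap
      rw [filter_insert, if_pos hj, card_insert_of_notMem fun h' => hq (mem_filter.1 h').1]
    · refine kap_eq_zero (τ := lab u q) (fun p hp => ?_) (not_le.1 hj)
      rcases mem_insert.1 hp with rfl | hp
      · exact le_rfl
      · exact h p hp
  funext m
  rcases m with _ | m
  · rw [ext_zero]
    unfold gam
    congr 1
    rw [← mul_one (lab u q : ℝ), ← sum_ite_le hK]
    refine sum_congr rfl fun j _ => ?_
    rw [hk]
    split_ifs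
    · simp [G]
    · exact G_zero _
  · rw [ext_succ]
    unfold gam
    have : ∑ j ∈ Icc 1 (KK u), G (m + 1) (kap u j (insert q S)) =
        ∑ j ∈ Icc 1 (KK u), ((if j ≤ lab u q then aa (m + 1) else 0) +
          G (m + 1 + 1) (kap u j S)) := by
      refine sum_congr rfl fun j _ => ?_
      rw [hk]
      split_ifs with hj
      · exact G_succ (by omega) _
      · rw [kap_eq_zero h (not_le.1 hj), G_zero, G_zero, add_zero]
    rw [this, sum_add_distrib, sum_ite_le hK]
    ring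

theorem lab_le_gam {u p : ℕ} {S : Finset ℕ} (hp : p ∈ S) (hK : lab u p ≤ KK u) :
    (hh u : ℝ) * lab u p ≤ gam u S 0 := by
  have h1 := gam_insert (u := u) (q := p) (S := ∅) (notMem_empty p) hK (by simp)
  have h2 := gam_mono u (S := insert p ∅) (S' := S) (by simpa using hp) 0
  rw [h1, ext_zero] at h2
  exact h2

theorem gam_zero_le {u τ : ℕ} {S : Finset ℕ} (h : ∀ p ∈ S, lab u p ≤ τ) :
    gam u S 0 ≤ (hh u : ℝ) * τ := by
  unfold gam
  refine mul_le_mul_of_nonneg_left ?_ (by positivity)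
  calc ∑ j ∈ Icc 1 (KK u), G 0 (kap u j S)
      ≤ ∑ j ∈ Icc 1 (KK u), (if j ≤ τ then (1 : ℝ) else 0) := by
        refine sum_le_sum fun j _ => ?_
        split_ifs with hj
        · unfold G
          rw [if_pos rfl]
          exact_mod_cast min_le_right _ 1
        · rw [kap_eq_zero h (not_le.1 hj), G_zero]
    _ ≤ ∑ j ∈ Icc 1 (max (KK u) τ), (if j ≤ τ then (1 : ℝ) else 0) :=
        sum_le_sum_of_subset_of_nonneg (Icc_subset_Icc_right (le_max_left _ _))
          fun j _ _ => by split_ifs <;> norm_num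
    _ = τ := by rw [sum_ite_le (le_max_right _ _), mul_one]

theorem G_one (κ : ℕ) : G 1 κ = Q (1 + (κ : ℝ)) := by
  simp [G, Q_one]

theorem gam_one_eq {u τ : ℕ} {S : Finset ℕ} (h : ∀ p ∈ S, lab u p ≤ τ) (hτ : τ ≤ KK u) :
    gam u S 1 = (hh u : ℝ) * ∑ j ∈ Icc 1 τ, Q (1 + (kap u j S : ℝ)) := by
  unfold gam
  congr 1
  simp only [← G_one]
  symm
  refine sum_subset (Icc_subset_Icc_right hτ) fun j hj hj' => ?_
  rw [mem_Icc] at hj hj'
  rw [kap_eq_zero h (by omega), G_zero]

/-- The face inequalities force geometric decay. -/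
theorem decay {u : ℕ} (hu : 1 ≤ u) {S : Finset ℕ} (hS : GoodS u S) {j : ℕ} (hj : u ≤ j) :
    kap u j S ≤ 4 + kap u (3 * j) S := by
  by_contra hcon
  set T := S.filter fun p => j ≤ lab u p ∧ lab u p < 3 * j with hT
  have hcard : 5 ≤ T.card := by
    have : S.filter (fun p => j ≤ lab u p) ⊆ T ∪ S.filter (fun p => 3 * j ≤ lab u p) := by
      intro p hp
      simp only [hT, mem_filter, mem_union] at hp ⊢
      by_cases h : lab u p < 3 * j
      · exact Or.inl ⟨hp.1, hp.2, h⟩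
      · exact Or.inr ⟨hp.1, not_lt.1 h⟩
    have h1 := (card_le_card this).trans (card_union_le _ _)
    unfold kap at hcon
    omega
  have hne : T.Nonempty := card_pos.1 (by omega)
  set p := T.max' hne
  have hpT : p ∈ T := T.max'_mem hne
  obtain ⟨hpS, hp1, hp2⟩ := mem_filter.1 hpT
  have hK := (hS.1 p hpS).2.2.1
  have hface := hS.2 p hpS
  have hk : ∀ i ≤ j, 4 ≤ kap u i (S.filter fun q => q < p) := by
    intro i hi
    have : T.erase p ⊆ (S.filter fun q => q < p).filter fun q => i ≤ lab u q := by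
      intro q hq
      obtain ⟨hq1, hq2⟩ := mem_erase.1 hq
      obtain ⟨hq3, hq4, -⟩ := mem_filter.1 hq2
      exact mem_filter.2 ⟨mem_filter.2 ⟨hq3, lt_of_le_of_ne (T.le_max' q hq2) hq1⟩, hi.trans hq4⟩
    have h1 := card_le_card this
    rw [card_erase_of_mem hpT] at h1
    unfold kap
    omega
  have h1 : (j : ℝ) * 4 ≤ ∑ i ∈ Icc 1 (KK u), G 1 (kap u i (S.filter fun q => q < p)) := by
    rw [← sum_ite_le (hp1.trans hK)]
    refine sum_le_sum fun i _ => ?_
    split_ifs with hi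
    · refine le_trans ?_ (G_mono 1 (hk i hi))
      rw [G_one, show (1 : ℝ) + ((4 : ℕ) : ℝ) = 5 by norm_num]
      exact four_le_Q_five
    · exact G_nonneg _ _
  unfold gam at hface
  have h0 := hh_pos hu
  have h2 : (lab u p : ℝ) + 1 ≤ 3 * j := by exact_mod_cast hp2
  have h3 : (MM u : ℝ) = hh u * u := by
    simp only [MM, hh]
    push_cast
    ring
  have h4 : (u : ℝ) ≤ j := by exact_mod_cast hj
  rw [h3] at hface
  nlinarith

theorem sum_three_le (g : ℕ → ℝ) (hg : Antitone g) (n : ℕ) :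
    3 * ∑ j ∈ Icc 1 n, g (3 * j) ≤ ∑ i ∈ Icc 1 (3 * n), g i := by
  induction n with
  | zero => simp
  | succ n ih =>
    rw [sum_Icc_succ_top (by omega), show 3 * (n + 1) = 3 * n + 1 + 1 + 1 by ring,
      sum_Icc_succ_top (by omega), sum_Icc_succ_top (by omega), sum_Icc_succ_top (by omega)]
    have h1 := hg (show 3 * n + 1 ≤ 3 * n + 1 + 1 + 1 by omega)
    have h2 := hg (show 3 * n + 1 + 1 ≤ 3 * n + 1 + 1 + 1 by omega)
    linarith

theorem gam_strip {u : ℕ} (hu : 1 ≤ u) {S S' : Finset ℕ} (hS : GoodS u S) (hL : S.card ≤ LL u)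
    (h : ∀ j, 1 ≤ j → kap u j S' ≤ kap u j S - 4) (m : ℕ) :
    gam u S' m ≤ gam u S m / 3 + (MM u : ℝ) * ((m : ℝ) + LL u + 1) ^ 2 := by
  set B : ℝ := ((m : ℝ) + LL u + 1) ^ 2 with hB
  have hB0 : 0 ≤ B := by positivity
  have h1 : ∑ j ∈ Icc 1 (KK u), G m (kap u j S') ≤
      ∑ j ∈ Icc 1 (KK u), ((if j ≤ u then B else 0) + G m (kap u (3 * j) S)) := by
    refine sum_le_sum fun j hj => ?_
    have h2 := h j (mem_Icc.1 hj).1
    split_ifs with hju
    · have := G_le m (κ := kap u j S') (L := LL u) (by have := kap_le_card u j S; omega)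
      linarith [G_nonneg m (kap u (3 * j) S)]
    · rw [zero_add]
      have := decay hu hS (j := j) (by omega)
      exact G_mono m (by omega)
  have huK : u ≤ KK u := by
    unfold KK
    nlinarith
  rw [sum_add_distrib, sum_ite_le huK] at h1
  have h2 := sum_three_le (fun j => G m (kap u j S)) (fun a b hab => G_mono m (kap_anti u hab S))
    (KK u)
  have h3 : ∑ i ∈ Icc 1 (3 * KK u), G m (kap u i S) = ∑ i ∈ Icc 1 (KK u), G m (kap u i S) := by
    symm
    refine sum_subset (Icc_subset_Icc_right (by omega)) fun j hj hj' => ?_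
    rw [mem_Icc] at hj hj'
    rw [kap_eq_zero (τ := KK u) (fun p hp => (hS.1 p hp).2.2.1) (by omega), G_zero]
  rw [h3] at h2
  have h0 := hh_pos hu
  have h4 : (MM u : ℝ) = hh u * u := by
    simp only [MM, hh]
    push_cast
    ring
  unfold gam
  rw [h4]
  nlinarith

end Vale.Agent.P031
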