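import Vale.Agent.P031.Pntu
import Vale.Agent.P031.Coll
import Vale.Agent.P031.Ab

namespace Vale.Agent.P031

open Finset Real Filter

theorem lower_sq {y : ℝ} {w : ℕ} (hy : 0 < y) (hw : 1 ≤ w) (h : log (w : ℝ) ≤ 1 / 4 * log y) :
    (w : ℝ) ≤ exp (log y / 4) ∧ √y = exp (log y / 4) * exp (log y / 4) := by
  have hw' : (0 : ℝ) < w := by exact_mod_cast hw
  refine ⟨(log_le_iff_le_exp hw').1 (by linarith), ?_⟩
  rw [← exp_add, sqrt_eq_rpow, rpow_def_of_pos hy]
  congr 1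
  ring

open scoped Classical in
theorem lower_one {ε : ℝ} (hε : 0 < ε) : ∀ᶠ u : ℕ in atTop, ∀ s y : ℝ, Rng u s y →
    ∀ w ∈ AA u 0 (s - 2 * MM u), (1 - 3 * ε) * (y / (w * log y)) ≤
      (((Nat.primesLE ⌊y + 1⌋₊).filter fun p => Normal u p ∧ √y < (((p - 1) * w : ℕ) : ℝ) ∧
        (((p - 1) * w : ℕ) : ℝ) ≤ y).card : ℝ) := by
  filter_upwards [pntu hε, AA_small (δ := 1 / 4) (by norm_num), ab_count, ev_pow_exp 0 (3 / ε),
    eventually_ge_atTop 2, tendsto_natCast_atTop_atTop.eventually_ge_atTop (64 / ε)]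
    with u hp hsm hab hev hu hu2 s y hR w hw
  obtain ⟨hs1, hs2, hy, hy1, hy2⟩ := id hR
  have hu' : (2 : ℝ) ≤ u := by exact_mod_cast hu
  have hy0 : 0 < y := by linarith
  have hl : 0 < log y := log_pos (by linarith)
  have hw1 := AA_pos hw
  have hw' : (1 : ℝ) ≤ w := by exact_mod_cast hw1
  have h1 := (abs_le.1 (hp s y hR w hw)).1
  have h2 := hsm s y hR w hw
  obtain ⟨h3, h4⟩ := lower_sq hy0 hw1 h2
  have hls : (u : ℝ) ^ 10 / 2 ≤ log y := by
    have := log_le_sub_one_of_pos hl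
    linarith
  have hyw : 0 < y / w := by positivity
  have hlw : 3 / 4 * log y ≤ log (y / w) := by
    rw [log_div hy0.ne' (by positivity)]
    linarith
  have hyw1 : 1 ≤ y / w := by
    rw [← log_nonneg_iff hyw]
    linarith
  have hlt : 3 / 4 * log y ≤ log (y / w + 1) := hlw.trans (log_le_log hyw (by linarith))
  have u4 : (2 : ℝ) ^ 6 * (u : ℝ) ^ 4 ≤ (u : ℝ) ^ 6 * (u : ℝ) ^ 4 := by gcongr
  have u5 : (0 : ℝ) ≤ (u : ℝ) ^ 4 := by positivity
  have hXX : y / w + 1 ≤ XX u := by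
    have a1 : y / w ≤ y := div_le_self hy0.le hw'
    have a2 : y / w + 1 ≤ y * y := by nlinarith
    refine a2.trans ?_
    rw [XX, ← log_le_iff_le_exp (by positivity), log_mul hy0.ne' hy0.ne',
      ← log_le_iff_le_exp (by positivity), ← two_mul, log_mul two_ne_zero hl.ne']
    have a3 : log 2 ≤ 2 - 1 := log_le_sub_one_of_pos two_pos
    have a4 : (1 : ℝ) ≤ (u : ℝ) ^ 10 := one_le_pow₀ (by linarith)
    linarith
  have h5 := hab (y / w + 1) ((Nat.primesLE ⌊y / w + 1⌋₊).filter fun p => ¬ Normal u p)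
    (by linarith) (by nlinarith) hXX fun p hp => by
      obtain ⟨p1, p2⟩ := mem_filter.1 hp
      obtain ⟨p3, p4⟩ := Nat.mem_primesLE.1 p1
      exact ⟨p4, (Nat.le_floor_iff (by linarith)).1 p3, p2⟩
  have h6 : exp (-(u : ℝ) ^ 3) * ((y / w + 1) / log (y / w + 1)) ≤ ε * (y / (w * log y)) := by
    have a1 : (y / w + 1) / log (y / w + 1) ≤ 2 * (y / w) / (3 / 4 * log y) :=
      div_le_div₀ (by positivity) (by linarith) (by positivity) hlt
    have a2 : exp (-(u : ℝ) ^ 3) ≤ ε / 3 := by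
      have b1 : (u : ℝ) ≤ (u : ℝ) ^ 3 := le_self_pow₀ (by linarith) (by norm_num)
      rw [pow_zero, mul_one] at hev
      rw [exp_neg, inv_le_comm₀ (exp_pos _) (by positivity), inv_div]
      exact hev.trans (exp_le_exp.2 b1)
    refine (mul_le_mul a2 a1 (div_nonneg (by linarith) (by linarith)) (by positivity)).trans ?_
    have e : ε / 3 * (2 * (y / w) / (3 / 4 * log y)) = 8 / 9 * (ε * (y / (w * log y))) := by
      field_simp
      ring
    have : 0 ≤ ε * (y / (w * log y)) := by positivity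
    linarith
  have h7 : √y ≤ ε * (y / (w * log y)) := by
    have a1 : log y ≤ ε * exp (log y / 4) := by
      have b1 := quadratic_le_exp_of_nonneg (x := log y / 4) (by positivity)
      have b2 : (u : ℝ) ≤ (u : ℝ) ^ 10 := le_self_pow₀ (by linarith) (by norm_num)
      have b3 : 32 ≤ ε * log y := by
        rw [div_le_iff₀ hε] at hu2
        nlinarith
      have b4 : (log y / 4) ^ 2 / 2 ≤ exp (log y / 4) := by linarith
      nlinarith
    rw [← mul_div_assoc, le_div_iff₀ (by positivity)]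
    have a2 : (w : ℝ) * log y ≤ ε * √y := by
      rw [h4]
      exact (mul_le_mul h3 a1 hl.le (exp_pos _).le).trans (le_of_eq (by ring))
    have a3 := mul_le_mul_of_nonneg_left a2 (sqrt_nonneg y)
    have a4 := mul_self_sqrt hy0.le
    nlinarith
  have h8 : Nat.primesLE ⌊y / w + 1⌋₊ ⊆
      (((Nat.primesLE ⌊y + 1⌋₊).filter fun p => Normal u p ∧ √y < (((p - 1) * w : ℕ) : ℝ) ∧
        (((p - 1) * w : ℕ) : ℝ) ≤ y) ∪
      ((Nat.primesLE ⌊y / w + 1⌋₊).filter fun p => ¬ Normal u p)) ∪ Ioc 1 (⌊√y⌋₊ + 1) := by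
    intro p hp
    obtain ⟨p3, p4⟩ := Nat.mem_primesLE.1 hp
    have p5 := (Nat.le_floor_iff (by linarith)).1 p3
    have p6 := p4.two_le
    simp only [mem_union, mem_filter, mem_Ioc]
    by_cases hn : Normal u p
    swap
    · exact Or.inl (Or.inr ⟨hp, hn⟩)
    by_cases hq : √y < (((p - 1) * w : ℕ) : ℝ)
    · refine Or.inl (Or.inl ⟨Nat.mem_primesLE.2 ⟨p3.trans (Nat.floor_le_floor ?_), p4⟩, hn, hq, ?_⟩)
      · linarith [div_le_self hy0.le hw']
      · rw [Nat.cast_mul, Nat.cast_sub p4.one_le, ← le_div_iff₀ (by linarith), Nat.cast_one]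
        linarith
    · have a1 : (p - 1) * w ≤ ⌊√y⌋₊ := Nat.le_floor (not_lt.1 hq)
      have a2 : p - 1 ≤ (p - 1) * w := Nat.le_mul_of_pos_right _ hw1
      exact Or.inr ⟨by omega, by omega⟩
  have h9 := ((card_le_card h8).trans (card_union_le _ _)).trans
    (Nat.add_le_add_right (card_union_le _ _) _)
  rw [Nat.card_Ioc, Nat.add_sub_cancel, Nat.primesLE_card_eq_primeCounting] at h9
  have h10 := (Nat.cast_le (α := ℝ)).2 h9
  have h11 := Nat.floor_le (sqrt_nonneg y)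
  rw [Nat.cast_add, Nat.cast_add] at h10
  unfold piR at h1
  linarith

theorem lower {ε : ℝ} (hε : 0 < ε) : ∀ᶠ u : ℕ in atTop, ∀ s y : ℝ, Rng u s y →
    (1 - ε) * (y / log y) * AM u 0 (s - 2 * MM u) ≤ V y := by
  classical
  have h4 : 0 < ε / 4 := by positivity
  filter_upwards [lower_one h4, AA_small (δ := 1 / 4) (by norm_num), coll, mem_AA, one_le_AM,
    ev_pow_exp 0 (4 / ε), eventually_ge_atTop 4] with u hone hsm hcoll hmem hAM hev hu s y hR
  obtain ⟨hs1, hs2, hy, hy1, hy2⟩ := id hR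
  have hu' : (4 : ℝ) ≤ u := by exact_mod_cast hu
  have hy0 : 0 < y := by linarith
  have hl : 0 < log y := log_pos (by linarith)
  have hX : 0 < y / log y := div_pos hy0 hl
  have h9 : (0 : ℝ) ≤ (u : ℝ) ^ 9 := by positivity
  have hA : 1 ≤ AM u 0 (s - 2 * MM u) := hAM 0 _ (by omega) (by
    simp only [MM]
    push_cast
    nlinarith)
  set Z : Finset (ℕ × ℕ) := (Nat.primesLE ⌊y + 1⌋₊ ×ˢ AA u 0 (s - 2 * MM u)).filter fun z =>
    Normal u z.1 ∧ √y < (((z.1 - 1) * z.2 : ℕ) : ℝ) ∧ (((z.1 - 1) * z.2 : ℕ) : ℝ) ≤ y with hZ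
  have hadm : ∀ z ∈ Z, Adm u y z.1 z.2 := by
    intro z hz
    obtain ⟨z1, z2, z3, z4⟩ := mem_filter.1 hz
    obtain ⟨z5, z6⟩ := mem_product.1 z1
    obtain ⟨w₀, S, r1, r2⟩ := (hmem _ _ _).1 z6
    refine ⟨(Nat.mem_primesLE.1 z5).2, z2, z3, z4, w₀, S, r1, ?_⟩
    have : (0 : ℝ) ≤ MM u := Nat.cast_nonneg _
    simp only [Phi] at r2
    linarith
  have h1 := img Z (fun z => (z.1 - 1) * z.2) (fun _ => 1) fun _ => zero_le_one
  simp only [sum_const, nsmul_eq_mul, mul_one] at h1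
  have h2 : ((Z.image fun z => (z.1 - 1) * z.2).card : ℝ) ≤ V y := by
    rw [V_eq]
    refine Nat.cast_le.2 (card_le_card fun v hv => ?_)
    obtain ⟨z, hz, rfl⟩ := mem_image.1 hv
    obtain ⟨a1, -, a3, a4, w₀, S, r1, -⟩ := hadm z hz
    refine mem_totF.2 ⟨a4, r1.isTot_mul a1 ?_⟩
    by_contra hc
    obtain ⟨b1, b2⟩ := lower_sq hy0 r1.pos (hsm s y hR _ (mem_product.1 (mem_filter.1 hz).1).2)
    have b3 : ((z.1 - 1 : ℕ) : ℝ) ≤ z.2 := by exact_mod_cast not_lt.1 hc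
    rw [Nat.cast_mul, b2] at a3
    exact a3.not_ge (mul_le_mul (b3.trans b1) b1 (Nat.cast_nonneg _) (exp_pos _).le)
  have h3 := hcoll y ((Z ×ˢ Z).filter fun zz => zz.1 ≠ zz.2 ∧
      (zz.1.1 - 1) * zz.1.2 = (zz.2.1 - 1) * zz.2.2) hy (by
      have : (1 : ℝ) ≤ (u : ℝ) ^ 10 := one_le_pow₀ (by linarith)
      linarith) fun zz hzz => by
    obtain ⟨z1, z2, z3⟩ := mem_filter.1 hzz
    obtain ⟨z4, z5⟩ := mem_product.1 z1
    refine ⟨hadm _ z4, hadm _ z5, fun e => z2 (Prod.ext ?_ e), z3⟩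
    rw [← e] at z3
    have a1 := Nat.eq_of_mul_eq_mul_right (AA_pos (mem_product.1 (mem_filter.1 z4).1).2) z3
    have a2 := (hadm _ z4).1.two_le
    have a3 := (hadm _ z5).1.two_le
    omega
  have h5 : (1 - 3 * (ε / 4)) * (y / log y) * AM u 0 (s - 2 * MM u) ≤ (Z.card : ℝ) := by
    rw [hZ, card_filter, sum_product_right, Nat.cast_sum, AM, mass, mul_sum]
    refine sum_le_sum fun w hw => ?_
    rw [← card_filter]
    refine le_trans (le_of_eq ?_) (hone s y hR w hw)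
    field_simp
  have h6 : exp (-((MM u : ℝ) / 2)) ≤ ε / 4 := by
    rw [pow_zero, mul_one] at hev
    rw [exp_neg, inv_le_comm₀ (exp_pos _) h4, inv_div]
    refine hev.trans (exp_le_exp.2 ?_)
    simp only [MM]
    push_cast
    have b1 : (4 : ℝ) ^ 8 ≤ (u : ℝ) ^ 8 := by gcongr
    have b2 : (4 : ℝ) ^ 8 * u ≤ (u : ℝ) ^ 8 * u := by gcongr
    nlinarith
  have h7 := (mul_le_mul_of_nonneg_right h6 hX.le).trans
    (le_mul_of_one_le_right (by positivity) hA)
  linarith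

end Vale.Agent.P031
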