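import Vale.Agent.P031.Upper
import Vale.Agent.P031.Lower
import Vale.Agent.P031.Bd

namespace Vale.Agent.P031

open Finset Real Filter

theorem sandwich {ε : ℝ} (hε : 0 < ε) : ∀ᶠ u : ℕ in atTop, ∀ s : ℝ, ∃ F : ℝ, 1 ≤ F ∧
    ∀ y : ℝ, Rng u s y →
      (1 - ε) * (y / log y) * F ≤ V y ∧ (V y : ℝ) ≤ (1 + ε) * (y / log y) * F := by
  have h3 : 0 < ε / 3 := by positivity
  have h300 : 0 < ε / 300 := by positivity
  filter_upwards [upper h3, lower hε, bd h300, pntu h3, one_le_AM, eventually_ge_atTop 4]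
    with u hup hlo hbd hpnt hone hu
  intro s
  refine ⟨max 1 (AM u 0 (s - 2 * MM u)), le_max_left _ _, fun y hR => ?_⟩
  obtain ⟨hs1, hs2, hy, hy1, hy2⟩ := id hR
  have hu' : (4 : ℝ) ≤ u := by exact_mod_cast hu
  have hM : 0 ≤ s - 2 * MM u := by
    have h9 : (0 : ℝ) ≤ (u : ℝ) ^ 9 := by positivity
    have : (MM u : ℝ) = (u : ℝ) ^ 9 := by simp [MM]
    rw [this]
    have : (u : ℝ) ^ 10 = u * (u : ℝ) ^ 9 := by ring
    nlinarith
  have hF : 1 ≤ AM u 0 (s - 2 * MM u) := hone 0 _ (by norm_num) hM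
  rw [max_eq_right hF]
  refine ⟨hlo s y hR, ?_⟩
  have hlog : 0 < log y := Real.log_pos (by linarith)
  have hq : 0 < y / log y := by positivity
  have h1 := hup s y hR
  have h2 := hbd s hs1 hs2
  have h4 : AM u 0 0 ≤ AM u 0 (s - 2 * MM u) := AM_mono u 0 hM
  have h5 : ∑ w ∈ AA u 0 (s - 2 * MM u), piR (y / w + 1) ≤
      (1 + ε / 3) * (y / log y) * AM u 0 (s - 2 * MM u) := by
    unfold AM mass
    rw [mul_sum]
    refine sum_le_sum fun w hw => ?_
    have := (abs_le.1 (hpnt s y hR w hw)).2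
    have e : y / (w * log y) = y / log y * (1 / (w : ℝ)) := by
      rw [mul_comm (w : ℝ), ← div_div, div_eq_mul_one_div (y / log y)]
    rw [e] at this
    linarith
  have h6 : 100 * LL u * (y / log y) * (AM u 0 (s + 2 * MM u) - AM u 0 (s - 2 * MM u)) ≤
      ε / 3 * (y / log y) * AM u 0 (s - 2 * MM u) := by
    have := mul_le_mul_of_nonneg_left h2 (by positivity : 0 ≤ 100 * (y / log y))
    linarith
  have h7 : ε / 3 * (y / log y) * AM u 0 0 ≤ ε / 3 * (y / log y) * AM u 0 (s - 2 * MM u) :=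
    mul_le_mul_of_nonneg_left h4 (by positivity)
  linarith

/-- The parameter `u` attached to `x`. -/
noncomputable def uOf (x : ℝ) : ℕ := ⌈log (log x) ^ ((1 : ℝ) / 10)⌉₊

theorem tendsto_uOf : Tendsto uOf atTop atTop :=
  tendsto_nat_ceil_atTop.comp ((tendsto_rpow_atTop (by norm_num)).comp
    (Real.tendsto_log_atTop.comp Real.tendsto_log_atTop))

theorem uOf_rng (c : ℝ) (hc : 1 < c) : ∀ᶠ x : ℝ in atTop,
    Rng (uOf x) (log (log x)) x ∧ Rng (uOf x) (log (log x)) (c * x) := by
  have ht : Tendsto (fun x : ℝ => log (log x) ^ ((1 : ℝ) / 10)) atTop atTop :=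
    (tendsto_rpow_atTop (by norm_num)).comp (Real.tendsto_log_atTop.comp Real.tendsto_log_atTop)
  filter_upwards [ht.eventually_ge_atTop 20, eventually_ge_atTop 3, eventually_ge_atTop c,
    (Real.tendsto_log_atTop.comp Real.tendsto_log_atTop).eventually_ge_atTop 0] with x h20 hx hxc hs
  simp only [Function.comp] at hs
  set s := log (log x) with hsdef
  set r := s ^ ((1 : ℝ) / 10) with hr
  have hr10 : r ^ 10 = s := by
    rw [hr, ← Real.rpow_natCast, ← Real.rpow_mul hs]
    norm_num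
  have hu1 : r ≤ (uOf x : ℝ) := Nat.le_ceil _
  have hu2 : (uOf x : ℝ) ≤ r + 1 := (Nat.ceil_lt_add_one (by linarith)).le
  have hA : s ≤ (uOf x : ℝ) ^ 10 := by
    rw [← hr10]
    exact pow_le_pow_left₀ (by linarith) hu1 10
  have hB : (uOf x : ℝ) ^ 10 / 2 ≤ s := by
    have h1 : (uOf x : ℝ) ≤ 21 / 20 * r := by linarith
    have h2 : (uOf x : ℝ) ^ 10 ≤ (21 / 20 * r) ^ 10 := pow_le_pow_left₀ (by positivity) h1 10
    rw [mul_pow, hr10] at h2
    have : ((21 : ℝ) / 20) ^ 10 ≤ 2 := by norm_num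
    nlinarith
  have hlx : 0 < log x := Real.log_pos (by linarith)
  have hcx : x ≤ c * x := by nlinarith
  have hl1 : log x ≤ log (c * x) := Real.log_le_log (by linarith) hcx
  have hl2 : log (c * x) ≤ 2 * log x := by
    have : log (c * x) ≤ log (x ^ 2) := Real.log_le_log (by nlinarith) (by nlinarith)
    rwa [Real.log_pow, Nat.cast_ofNat] at this
  refine ⟨⟨hB, hA, hx, le_rfl, by linarith⟩, hB, hA, by linarith, Real.log_le_log hlx hl1, ?_⟩
  have h1 : log (log (c * x)) ≤ log (2 * log x) := Real.log_le_log (by linarith) hl2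
  rw [Real.log_mul (by norm_num) hlx.ne'] at h1
  have := Real.log_two_lt_d9
  linarith

theorem ratio (c : ℝ) (hc : 1 < c) :
    Tendsto (fun x : ℝ => (V (c * x) : ℝ) / V x) atTop (nhds c) := by
  have hlog : Tendsto (fun x : ℝ => log x / log (c * x)) atTop (nhds 1) := by
    have h1 : Tendsto (fun x : ℝ => log c / log x) atTop (nhds 0) :=
      tendsto_const_nhds.div_atTop Real.tendsto_log_atTop
    have h2 : Tendsto (fun x : ℝ => (1 + log c / log x)⁻¹) atTop (nhds (1 + 0)⁻¹) :=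
      (tendsto_const_nhds.add h1).inv₀ (by norm_num)
    rw [add_zero, inv_one] at h2
    refine h2.congr' ?_
    filter_upwards [eventually_gt_atTop 1] with x hx
    have hlx : 0 < log x := Real.log_pos hx
    have hlc : 0 < log c := Real.log_pos hc
    rw [Real.log_mul (by linarith) (by linarith)]
    field_simp
    ring
  rw [Metric.tendsto_atTop']
  intro η hη
  -- choose ε
  have hcont : Tendsto (fun ε : ℝ => (c * ((1 + ε) / (1 - ε)), c * ((1 - ε) / (1 + ε)) * (1 - ε)))
      (nhds 0) (nhds (c, c)) := by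
    have : ContinuousAt
        (fun ε : ℝ => (c * ((1 + ε) / (1 - ε)), c * ((1 - ε) / (1 + ε)) * (1 - ε))) 0 := by
      refine ContinuousAt.prodMk ?_ ?_
      · exact continuousAt_const.mul (ContinuousAt.div (by fun_prop) (by fun_prop) (by norm_num))
      · exact (continuousAt_const.mul
          (ContinuousAt.div (by fun_prop) (by fun_prop) (by norm_num))).mul (by fun_prop)
    simpa using this.tendsto
  have hev := (hcont.eventually (Metric.ball_mem_nhds (c, c) hη)).and
    (eventually_lt_nhds (show (0 : ℝ) < 1 / 2 by norm_num))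
  obtain ⟨ε, ⟨hb, hε1⟩, hε0⟩ :=
    ((hev.filter_mono nhdsWithin_le_nhds).and (self_mem_nhdsWithin (s := Set.Ioi (0 : ℝ)))).exists
  have hε : 0 < ε := hε0
  simp only [Prod.dist_eq, max_lt_iff, Real.dist_eq] at hb
  obtain ⟨hb1, hb2⟩ := hb
  have hmain : ∀ᶠ x : ℝ in atTop, dist ((V (c * x) : ℝ) / V x) c < η := by
    filter_upwards [tendsto_uOf.eventually (sandwich hε), uOf_rng c hc,
      hlog.eventually (lt_mem_nhds (show 1 - ε < 1 by linarith))] with x hsw hR hl
    obtain ⟨F, hF, hFy⟩ := hsw (log (log x))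
    obtain ⟨a1, a2⟩ := hFy x hR.1
    obtain ⟨b1, b2⟩ := hFy (c * x) hR.2
    have hx : 3 ≤ x := hR.1.2.2.1
    have hlx : 0 < log x := Real.log_pos (by linarith)
    have hcx : x ≤ c * x := by nlinarith
    have hl1 : log x ≤ log (c * x) := Real.log_le_log (by linarith) hcx
    have hlc : 0 < log (c * x) := by linarith
    set A := x / log x * F with hA
    have hApos : 0 < A := by positivity
    set θ := log x / log (c * x) with hθ
    have hθ1 : θ ≤ 1 := (div_le_one hlc).2 hl1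
    have hB : c * x / log (c * x) * F = c * θ * A := by
      rw [hA, hθ]
      field_simp
    have a1' : (1 - ε) * A ≤ V x := by rw [hA]; linarith
    have a2' : (V x : ℝ) ≤ (1 + ε) * A := by rw [hA]; linarith
    have b1' : (1 - ε) * (c * θ * A) ≤ V (c * x) := by rw [← hB]; linarith
    have b2' : (V (c * x) : ℝ) ≤ (1 + ε) * (c * θ * A) := by rw [← hB]; linarith
    have h1ε : 0 < 1 - ε := by linarith
    have hV : 0 < (V x : ℝ) := lt_of_lt_of_le (by positivity) a1'
    have hc0 : 0 < c := by linarith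
    have up : (V (c * x) : ℝ) / V x ≤ c * ((1 + ε) / (1 - ε)) := by
      rw [div_le_iff₀ hV]
      calc (V (c * x) : ℝ) ≤ (1 + ε) * (c * θ * A) := b2'
        _ ≤ (1 + ε) * (c * 1 * A) := by gcongr
        _ = c * ((1 + ε) / (1 - ε)) * ((1 - ε) * A) := by field_simp
        _ ≤ c * ((1 + ε) / (1 - ε)) * V x := by gcongr
    have lo : c * ((1 - ε) / (1 + ε)) * (1 - ε) ≤ (V (c * x) : ℝ) / V x := by
      rw [le_div_iff₀ hV]
      calc c * ((1 - ε) / (1 + ε)) * (1 - ε) * V x
          ≤ c * ((1 - ε) / (1 + ε)) * (1 - ε) * ((1 + ε) * A) := by gcongr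
        _ = (1 - ε) * (c * (1 - ε) * A) := by field_simp
        _ ≤ (1 - ε) * (c * θ * A) := by gcongr
        _ ≤ V (c * x) := b1'
    rw [Real.dist_eq, abs_lt]
    rw [abs_lt] at hb1 hb2
    constructor <;> linarith [hb1.2, hb2.1]
  obtain ⟨N, hN⟩ := eventually_atTop.1 hmain
  exact ⟨N, fun x hx => hN x hx.le⟩

end Vale.Agent.P031
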