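import Vale.Agent.P031.Rank
import Vale.Agent.P031.Phi
import Vale.Agent.P031.Ab

namespace Vale.Agent.P031

open Finset Real Filter

/-- The face condition for a fixed pattern. -/
def PmF (u τ : ℕ) (κ : ℕ → ℕ) (e : ℕ) : Prop :=
  1 ≤ e ∧ LabLE u τ e ∧
    (∀ j, 1 ≤ j → j < τ → (1 + κ (j + 1)) * (hh u - DD u) ≤ OmC u j e + 1) ∧
    (τ : ℝ) * hh u + MM u ≤ (hh u : ℝ) * ∑ j ∈ Icc 1 τ, Q (1 + (κ j : ℝ))

theorem pm_shift (τ : ℕ) (f : ℕ → ℝ) (B : ℝ) (hB : f 1 ≤ B) (hB0 : 0 ≤ B) :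
    ∑ j ∈ Icc 1 τ, f j ≤ B + ∑ j ∈ range (τ + 1), if 1 ≤ j ∧ j < τ then f (j + 1) else 0 := by
  rw [← Finset.sum_filter]
  have h1 : (range (τ + 1)).filter (fun j => 1 ≤ j ∧ j < τ) = Ico 1 τ := by
    ext j
    simp only [mem_filter, mem_range, mem_Ico]
    omega
  rw [h1]
  rcases Nat.eq_zero_or_pos τ with rfl | hτ
  · simpa using hB0
  rw [Finset.sum_Ico_add' f 1 τ 1, ← Finset.Ico_add_one_right_eq_Icc,
    Finset.sum_eq_sum_Ico_succ_bot (by omega)]
  linarith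

theorem pm_cell {h D u L x : ℝ} (hx : 1 ≤ x) (hxL : x ≤ L + 1) (hD : 1 ≤ D) (hu : 0 ≤ u)
    (huD : u ≤ D) :
    x * (h + u) - (x * (h - D) - 1) * log x ≤ h - h * Q x + 3 * (L + 1) ^ 2 * D := by
  unfold Q
  have h0 : 0 ≤ log x := Real.log_nonneg hx
  have h1 : log x ≤ x - 1 := Real.log_le_sub_one_of_pos (by linarith)
  have h2 : log x ≤ L + 1 := by linarith
  have hL : 1 ≤ L + 1 := by linarith
  have h3 : x * u ≤ (L + 1) ^ 2 * D := by
    have : x ≤ (L + 1) ^ 2 := by nlinarith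
    exact mul_le_mul this huD hu (by positivity)
  have h4 : x * D * log x ≤ (L + 1) ^ 2 * D := by
    have : x * log x ≤ (L + 1) ^ 2 := by
      rw [sq]
      exact mul_le_mul hxL h2 h0 (by linarith)
    nlinarith
  have h5 : log x ≤ (L + 1) ^ 2 * D := by
    have : L + 1 ≤ (L + 1) ^ 2 := by nlinarith
    nlinarith
  nlinarith

theorem pm_pattern : ∀ᶠ u : ℕ in atTop, ∀ τ ≤ KK u, ∀ κ : ℕ → ℕ, (∀ j, κ j ≤ LL u) →
    ∀ S : Finset ℕ, (∀ e ∈ S, PmF u τ κ e) → mass S ≤ exp (-(7 * (MM u : ℝ) / 10)) := by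
  filter_upwards [rankin_cells, ev_L_pow 2 480, eventually_ge_atTop 10] with
    u hr hL hu τ hτ κ hκ S hS
  rcases S.eq_empty_or_nonempty with rfl | ⟨e₀, he₀⟩
  · simp only [mass, sum_empty]
    exact (Real.exp_pos _).le
  have hface := (hS e₀ he₀).2.2.2
  have hu' : (10 : ℝ) ≤ u := by exact_mod_cast hu
  have h200 : (200 : ℝ) ≤ LL u := by exact_mod_cast le_LL u
  have hLu : (LL u : ℝ) + 1 ≤ u := by nlinarith
  have hL2 : 120 * ((LL u : ℝ) + 1) ^ 2 ≤ u := by nlinarith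
  have h10 : (u : ℝ) ≤ (u : ℝ) ^ 10 := le_self_pow₀ (by linarith) (by norm_num)
  set lam : ℕ → ℝ := fun j => if 1 ≤ j ∧ j < τ then 1 + (κ (j + 1) : ℝ) else 1 with hlam
  have hl1 : ∀ j, 1 ≤ lam j := fun j => by
    simp only [hlam]
    split_ifs
    · have : (0 : ℝ) ≤ κ (j + 1) := by positivity
      linarith
    · exact le_rfl
  have hl2 : ∀ j, lam j ≤ (LL u : ℝ) + 1 := fun j => by
    simp only [hlam]
    split_ifs
    · have : (κ (j + 1) : ℝ) ≤ LL u := by exact_mod_cast hκ _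
      linarith
    · linarith
  have h1 := hr τ lam (fun j => ⟨by linarith [hl1 j], by linarith [hl2 j]⟩)
    (by simp only [hlam]; norm_num) S fun e he => ⟨(hS e he).1, (hS e he).2.1⟩
  have hDh : DD u ≤ hh u := Nat.pow_le_pow_right (by omega) (by norm_num)
  set E : ℝ := ∑ j ∈ range (τ + 1), (lam j * ((hh u : ℝ) - DD u) - 1) * log (lam j) with hE
  have h2 : ∀ e ∈ S, exp E ≤ ∏ j ∈ range (τ + 1), lam j ^ OmC u j e := by
    intro e he
    rw [hE, Real.exp_sum]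
    refine Finset.prod_le_prod (fun _ _ => (Real.exp_pos _).le) fun j _ => ?_
    have hp : 0 < lam j := by linarith [hl1 j]
    rw [← Real.exp_log (pow_pos hp (OmC u j e)), Real.log_pow]
    refine Real.exp_le_exp.2 ?_
    by_cases hj : 1 ≤ j ∧ j < τ
    · refine mul_le_mul_of_nonneg_right ?_ (Real.log_nonneg (hl1 j))
      have h3 := (hS e he).2.2.1 j hj.1 hj.2
      have h4 : (((1 + κ (j + 1)) * (hh u - DD u) : ℕ) : ℝ) ≤ ((OmC u j e + 1 : ℕ) : ℝ) := by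
        exact_mod_cast h3
      rw [Nat.cast_mul, Nat.cast_sub hDh] at h4
      push_cast at h4
      simp only [hlam, if_pos hj]
      linarith
    · simp only [hlam, if_neg hj, Real.log_one, mul_zero, le_refl]
  have h3 : exp E * mass S ≤ ∑ n ∈ S, (∏ j ∈ range (τ + 1), lam j ^ OmC u j n) / n := by
    unfold mass
    rw [Finset.mul_sum]
    refine Finset.sum_le_sum fun e he => ?_
    rw [mul_one_div]
    exact div_le_div_of_nonneg_right (h2 e he) (by positivity)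
  have h4 : mass S ≤ exp (∑ j ∈ range (τ + 1), lam j * ((hh u : ℝ) + u) + 10 - E) := by
    rw [Real.exp_sub, le_div_iff₀ (Real.exp_pos _), mul_comm]
    exact h3.trans h1
  refine h4.trans (Real.exp_le_exp.2 ?_)
  have hD1 : (u : ℝ) ≤ DD u := by
    simp only [DD]
    push_cast
    exact le_self_pow₀ (by linarith) (by norm_num)
  have h5 : ∑ j ∈ range (τ + 1), lam j * ((hh u : ℝ) + u) - E ≤
      ∑ j ∈ range (τ + 1), ((hh u : ℝ) - hh u * Q (lam j) + 3 * ((LL u : ℝ) + 1) ^ 2 * DD u) := by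
    rw [hE, ← Finset.sum_sub_distrib]
    exact Finset.sum_le_sum fun j _ => pm_cell (hl1 j) (hl2 j) (by linarith) (by linarith) hD1
  rw [Finset.sum_add_distrib, Finset.sum_sub_distrib, ← Finset.mul_sum, Finset.sum_const,
    Finset.sum_const, card_range, nsmul_eq_mul, nsmul_eq_mul] at h5
  have h6 : ∑ j ∈ Icc 1 τ, Q (1 + (κ j : ℝ)) ≤
      ((LL u : ℝ) + 1) ^ 2 + ∑ j ∈ range (τ + 1), Q (lam j) := by
    have hk : (κ 1 : ℝ) ≤ LL u := by exact_mod_cast hκ 1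
    have hk0 : (0 : ℝ) ≤ κ 1 := by positivity
    refine (pm_shift τ (fun j => Q (1 + (κ j : ℝ))) (((LL u : ℝ) + 1) ^ 2)
      ((Q_le_sq (by linarith)).trans (by nlinarith)) (by positivity)).trans (le_of_eq ?_)
    congr 1
    refine Finset.sum_congr rfl fun j _ => ?_
    simp only [hlam]
    split_ifs
    · rfl
    · exact Q_one.symm
  have hh0 : (0 : ℝ) ≤ hh u := by positivity
  have h7 := mul_le_mul_of_nonneg_left h6 hh0
  have hMh : (MM u : ℝ) = hh u * u := by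
    simp only [MM, hh]
    push_cast
    ring
  have h8 : (hh u : ℝ) * ((LL u : ℝ) + 1) ^ 2 ≤ MM u / 120 := by
    rw [hMh]
    nlinarith
  have h9 : ((τ + 1 : ℕ) : ℝ) * (3 * ((LL u : ℝ) + 1) ^ 2 * DD u) ≤ MM u / 10 := by
    have hτ' : ((τ + 1 : ℕ) : ℝ) ≤ 4 * (u : ℝ) ^ 2 := by
      have : (τ : ℝ) ≤ KK u := by exact_mod_cast hτ
      simp only [KK] at this
      push_cast at this ⊢
      nlinarith
    have hhD : (hh u : ℝ) = (u : ℝ) ^ 2 * DD u := by
      simp only [DD, hh]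
      push_cast
      ring
    calc ((τ + 1 : ℕ) : ℝ) * (3 * ((LL u : ℝ) + 1) ^ 2 * DD u)
        ≤ 4 * (u : ℝ) ^ 2 * (3 * ((LL u : ℝ) + 1) ^ 2 * DD u) := by gcongr
      _ = 12 * ((hh u : ℝ) * ((LL u : ℝ) + 1) ^ 2) := by
          rw [hhD]
          ring
      _ ≤ _ := by linarith
  have h11 : (hh u : ℝ) ≤ MM u / 10 := by
    rw [hMh]
    nlinarith
  have h12 : (100 : ℝ) ≤ hh u := by
    simp only [hh]
    push_cast
    calc (100 : ℝ) ≤ 10 ^ 8 := by norm_num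
      _ ≤ _ := by gcongr
  push_cast at h5 h9
  nlinarith

theorem face_mass : ∀ᶠ u : ℕ in atTop, ∀ S : Finset ℕ, (∀ e ∈ S, Face u e) →
    mass S ≤ exp (-((MM u : ℝ) / 3)) := by
  classical
  filter_upwards [pm_pattern, ev_L_pow 1 1, eventually_ge_atTop 10] with u hp hL hu S hS
  have hu' : (10 : ℝ) ≤ u := by exact_mod_cast hu
  set ex : (Fin (KK u + 1) → ℕ) → ℕ → ℕ :=
    fun k j => if h : j < KK u + 1 then k ⟨j, h⟩ else 0 with hex
  set I := range (KK u + 1) ×ˢ Fintype.piFinset fun _ : Fin (KK u + 1) => range (LL u + 1)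
    with hI
  have hsub : S ⊆ I.biUnion fun x => S.filter (PmF u x.1 (ex x.2)) := by
    intro e he
    obtain ⟨h1, τ, hτ, κ, hκ, h2, h3, h4⟩ := hS e he
    have hk : ∀ j ≤ τ, ex (fun i => κ i) j = κ j := fun j hj => by
      simp only [hex]
      rw [dif_pos (by omega)]
    refine mem_biUnion.2 ⟨(τ, fun i => κ i), mem_product.2 ⟨mem_range.2 (by omega),
      Fintype.mem_piFinset.2 fun i => mem_range.2 (Nat.lt_succ_of_le (hκ _))⟩,
      mem_filter.2 ⟨he, h1, h2, fun j hj hj' => ?_, ?_⟩⟩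
    · rw [hk (j + 1) hj']
      exact h3 j hj hj'
    · refine h4.trans (le_of_eq ?_)
      congr 1
      exact Finset.sum_congr rfl fun j hj => by rw [hk j (mem_Icc.1 hj).2]
  have h1 : ∀ x ∈ I, mass (S.filter (PmF u x.1 (ex x.2))) ≤ exp (-(7 * (MM u : ℝ) / 10)) := by
    intro x hx
    obtain ⟨hx1, hx2⟩ := mem_product.1 hx
    refine hp x.1 (Nat.lt_succ_iff.1 (mem_range.1 hx1)) _ (fun j => ?_) _
      fun e he => (mem_filter.1 he).2
    simp only [hex]
    split_ifs with h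
    · exact Nat.lt_succ_iff.1 (mem_range.1 (Fintype.mem_piFinset.1 hx2 _))
    · exact Nat.zero_le _
  have hcard : (I.card : ℝ) ≤ exp ((MM u : ℝ) / 10) := by
    rw [hI, card_product, card_range, Fintype.card_piFinset, Finset.prod_const, card_range,
      card_univ, Fintype.card_fin]
    push_cast
    have ha : (KK u : ℝ) + 1 ≤ exp (KK u) := Real.add_one_le_exp _
    have hb : ((LL u : ℝ) + 1) ^ (KK u + 1) ≤ exp (((KK u + 1 : ℕ) : ℝ) * LL u) := by
      rw [Real.exp_nat_mul]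
      gcongr
      exact Real.add_one_le_exp _
    calc ((KK u : ℝ) + 1) * ((LL u : ℝ) + 1) ^ (KK u + 1)
        ≤ exp (KK u) * exp (((KK u + 1 : ℕ) : ℝ) * LL u) := by gcongr
      _ = exp (KK u + ((KK u + 1 : ℕ) : ℝ) * LL u) := (Real.exp_add _ _).symm
      _ ≤ _ := by
          refine Real.exp_le_exp.2 ?_
          have hL' : (LL u : ℝ) ≤ u := by simpa using hL
          simp only [KK, MM]
          push_cast
          have h6 : (10 : ℝ) ^ 6 ≤ (u : ℝ) ^ 6 := by gcongr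
          have h3 : (3 * (u : ℝ) ^ 2 + 1) * LL u ≤ (4 * (u : ℝ) ^ 2) * u := by
            gcongr
            nlinarith
          have h4 : (u : ℝ) ^ 2 ≤ (u : ℝ) ^ 3 := pow_le_pow_right₀ (by linarith) (by norm_num)
          have h5 : (u : ℝ) ^ 9 = (u : ℝ) ^ 6 * (u : ℝ) ^ 3 := by ring
          have h7 : (0 : ℝ) ≤ (u : ℝ) ^ 3 := by positivity
          have h8 : (10 : ℝ) ^ 6 * (u : ℝ) ^ 3 ≤ (u : ℝ) ^ 6 * (u : ℝ) ^ 3 := by gcongr
          nlinarith
  calc mass S ≤ ∑ x ∈ I, mass (S.filter (PmF u x.1 (ex x.2))) :=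
        (mass_mono hsub).trans (mass_biUnion_le _ _)
    _ ≤ I.card • exp (-(7 * (MM u : ℝ) / 10)) := Finset.sum_le_card_nsmul _ _ _ h1
    _ ≤ exp ((MM u : ℝ) / 10) * exp (-(7 * (MM u : ℝ) / 10)) := by
        rw [nsmul_eq_mul]
        gcongr
    _ ≤ _ := by
        rw [← Real.exp_add]
        refine Real.exp_le_exp.2 ?_
        have : (0 : ℝ) ≤ MM u := by positivity
        linarith

theorem pm_geom {p : ℕ} (hp : 2 ≤ p) (N : ℕ) :
    mass ((range N).image fun a => p ^ (a + 1) * (p - 1)) ≤ 4 * (1 / (p : ℝ) ^ 2) := by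
  classical
  unfold mass
  have hp' : (2 : ℝ) ≤ p := by exact_mod_cast hp
  refine (Finset.sum_image_le_of_nonneg (fun _ _ => by positivity)).trans ?_
  have h1 : ∀ a ∈ range N, 1 / ((p ^ (a + 1) * (p - 1) : ℕ) : ℝ) ≤
      (1 / 2 : ℝ) ^ a * (2 * (1 / (p : ℝ) ^ 2)) := by
    intro a _
    rw [Nat.cast_mul, Nat.cast_sub (by omega), Nat.cast_pow, Nat.cast_one]
    have h2 : (2 : ℝ) ^ a ≤ (p : ℝ) ^ a := by gcongr
    have h3 : (1 / 2 : ℝ) ^ a * (2 * (1 / (p : ℝ) ^ 2)) = 1 / (2 ^ a * p * (p / 2)) := by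
      rw [one_div_pow]
      field_simp
    rw [h3, pow_succ]
    refine one_div_le_one_div_of_le (by positivity) ?_
    gcongr
    linarith
  refine (Finset.sum_le_sum h1).trans ?_
  rw [← Finset.sum_mul]
  have h2 : ∑ a ∈ range N, (1 / 2 : ℝ) ^ a ≤ 2 := sum_geometric_two_le N
  have h3 : (0 : ℝ) ≤ 2 * (1 / (p : ℝ) ^ 2) := by positivity
  nlinarith

theorem sq_mass : ∀ᶠ u : ℕ in atTop, ∀ S : Finset ℕ,
    (∀ e ∈ S, ∃ p a : ℕ, p.Prime ∧ 1 ≤ lab u p ∧ 2 ≤ a ∧ e = Nat.totient (p ^ a)) →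
    mass S ≤ exp (-(hh u : ℝ)) := by
  classical
  filter_upwards [eventually_ge_atTop 2] with u hu S hS
  set N := S.sup id + 2 with hN
  set P := (range N).filter fun p => 1 ≤ lab u p with hP
  have hsub : S ⊆ P.biUnion fun p => (range N).image fun a => p ^ (a + 1) * (p - 1) := by
    intro e he
    obtain ⟨p, a, hp, hl, ha, rfl⟩ := hS e he
    have hle : Nat.totient (p ^ a) ≤ S.sup id := le_sup (f := id) he
    obtain ⟨b, rfl⟩ : ∃ b, a = b + 2 := ⟨a - 2, by omega⟩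
    have h1 : Nat.totient (p ^ (b + 2)) = p ^ (b + 1) * (p - 1) :=
      Nat.totient_prime_pow_succ hp (b + 1)
    rw [h1] at hle ⊢
    have h2 := hp.two_le
    have h3 : p ^ (b + 1) ≤ p ^ (b + 1) * (p - 1) := Nat.le_mul_of_pos_right _ (by omega)
    have h4 : p ≤ p ^ (b + 1) := Nat.le_self_pow (by omega) p
    have h5 : b + 1 < p ^ (b + 1) := Nat.lt_pow_self (by omega)
    exact mem_biUnion.2 ⟨p, mem_filter.2 ⟨mem_range.2 (by omega), hl⟩,
      mem_image.2 ⟨b, mem_range.2 (by omega), rfl⟩⟩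
  have hu' : (2 : ℝ) ≤ u := by exact_mod_cast hu
  have h6 : (6 : ℝ) ≤ hh u := by
    simp only [hh]
    push_cast
    calc (6 : ℝ) ≤ 2 ^ 8 := by norm_num
      _ ≤ _ := by gcongr
  have hx : (6 : ℝ) ≤ exp (hh u) := by linarith [Real.add_one_le_exp (hh u : ℝ)]
  set k := ⌈4 * exp (hh u)⌉₊ with hk
  have hk1 : 4 * exp (hh u) ≤ k := Nat.le_ceil _
  have hk2 : (k : ℝ) < 4 * exp (hh u) + 1 := Nat.ceil_lt_add_one (by positivity)
  have hk0 : k ≠ 0 := by
    intro h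
    rw [h, Nat.cast_zero] at hk1
    linarith
  have hkP : ∀ p ∈ P, k < p := by
    intro p hp
    have hl := (mem_filter.1 hp).2
    have h1 := exp_le_log_of_le_lab (by omega : 1 ≤ u) le_rfl hl
    rw [Nat.cast_one, one_mul] at h1
    have h3 : (3 : ℝ) ≤ p := by exact_mod_cast three_le_of_lab hl
    rw [Real.le_log_iff_exp_le (by linarith)] at h1
    have h2 := Real.quadratic_le_exp_of_nonneg (by linarith : 0 ≤ exp (hh u))
    have : (k : ℝ) < p := by nlinarith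
    exact_mod_cast this
  calc mass S ≤ ∑ p ∈ P, mass ((range N).image fun a => p ^ (a + 1) * (p - 1)) :=
        (mass_mono hsub).trans (mass_biUnion_le _ _)
    _ ≤ ∑ p ∈ P, 4 * (1 / (p : ℝ) ^ 2) := Finset.sum_le_sum fun p hp =>
        pm_geom (by have := three_le_of_lab (mem_filter.1 hp).2; omega) N
    _ ≤ 4 * (1 / (k : ℝ)) := by
        rw [← Finset.mul_sum]
        exact mul_le_mul_of_nonneg_left (rank_tail P hk0 hkP) (by norm_num)
    _ ≤ 4 * (1 / (4 * exp (hh u))) := by gcongr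
    _ = _ := by
        rw [Real.exp_neg]
        field_simp

theorem bad_pos {u e : ℕ} (h : Bad u e) : 1 ≤ e := by
  rcases h with ⟨p, a, hp, -, -, rfl⟩ | ⟨p, hp, -, -, -, rfl⟩ | h | h
  · exact Nat.totient_pos.2 (pow_pos hp.pos a)
  · have := hp.two_le
    omega
  · exact h.1
  · exact h.1

theorem bad_mass : ∀ᶠ u : ℕ in atTop, ∀ S : Finset ℕ, (∀ e ∈ S, Bad u e) →
    mass S ≤ exp (-(u : ℝ) ^ 2) := by
  classical
  filter_upwards [face_mass, sq_mass, ab_mass, bigOm_mass, eventually_ge_atTop 2] with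
    u hf hs ha hb hu S hS
  have hu' : (2 : ℝ) ≤ u := by exact_mod_cast hu
  set S₁ := S.filter fun e => ∃ p a : ℕ, p.Prime ∧ 1 ≤ lab u p ∧ 2 ≤ a ∧ e = Nat.totient (p ^ a)
  set S₂ := S.filter fun e =>
    ∃ p : ℕ, p.Prime ∧ 1 ≤ lab u p ∧ lab u p ≤ KK u ∧ ¬ Normal u p ∧ e = p - 1
  set S₃ := S.filter (BigOm u)
  set S₄ := S.filter (Face u)
  have hsub : S ⊆ S₁ ∪ S₂ ∪ S₃ ∪ S₄ := by
    intro e he
    simp only [mem_union]
    rcases hS e he with h | h | h | h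
    · exact Or.inl (Or.inl (Or.inl (mem_filter.2 ⟨he, h⟩)))
    · exact Or.inl (Or.inl (Or.inr (mem_filter.2 ⟨he, h⟩)))
    · exact Or.inl (Or.inr (mem_filter.2 ⟨he, h⟩))
    · exact Or.inr (mem_filter.2 ⟨he, h⟩)
  have h6 : (64 : ℝ) ≤ (u : ℝ) ^ 6 := by
    calc (64 : ℝ) = 2 ^ 6 := by norm_num
      _ ≤ _ := by gcongr
  have hu2 : (4 : ℝ) ≤ (u : ℝ) ^ 2 := by nlinarith
  have hh3 : 6 * (u : ℝ) ^ 2 ≤ hh u := by
    simp only [hh]
    push_cast
    have : (u : ℝ) ^ 8 = (u : ℝ) ^ 6 * (u : ℝ) ^ 2 := by ring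
    nlinarith
  have hhM : (hh u : ℝ) ≤ MM u := by
    simp only [hh, MM]
    push_cast
    exact pow_le_pow_right₀ (by linarith) (by norm_num)
  have h1 : mass S₁ ≤ exp (-(2 * (u : ℝ) ^ 2)) :=
    (hs S₁ fun e he => (mem_filter.1 he).2).trans (Real.exp_le_exp.2 (by linarith))
  have h2 : mass S₂ ≤ exp (-(2 * (u : ℝ) ^ 2)) := by
    refine le_trans (le_of_eq ?_) (ha (S₂.image (· + 1)) fun p hp => ?_)
    · rw [Finset.sum_image fun a _ b _ h => Nat.succ_injective h]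
      rfl
    · obtain ⟨e, he, rfl⟩ := mem_image.1 hp
      obtain ⟨q, hq, h1, h2, h3, rfl⟩ := (mem_filter.1 he).2
      rw [Nat.sub_add_cancel hq.one_le]
      exact ⟨hq, h1, h2, h3⟩
  have h3 : mass S₃ ≤ exp (-(2 * (u : ℝ) ^ 2)) := by
    have hsub3 : S₃ ⊆ (range (KK u + 1)).biUnion fun j =>
        S.filter fun e => 1 ≤ e ∧ LabLE u j e ∧ 10 * (j + 1) * hh u < Om e := by
      intro e he
      obtain ⟨he, h1, j, hj, h2⟩ := mem_filter.1 he
      exact mem_biUnion.2 ⟨j, mem_range.2 (by omega), mem_filter.2 ⟨he, h1, h2⟩⟩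
    refine (mass_mono hsub3).trans ((mass_biUnion_le _ _).trans ?_)
    refine (Finset.sum_le_card_nsmul _ _ (exp (-(2 * (hh u : ℝ)))) fun j _ => ?_).trans ?_
    · refine (hb j _ fun e he => (mem_filter.1 he).2).trans (Real.exp_le_exp.2 ?_)
      have : (0 : ℝ) ≤ (j : ℝ) * hh u := by positivity
      nlinarith
    · rw [card_range, nsmul_eq_mul]
      have hK : ((KK u + 1 : ℕ) : ℝ) ≤ exp (hh u) := by
        refine le_trans ?_ (Real.add_one_le_exp _)
        simp only [KK]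
        push_cast
        linarith
      calc ((KK u + 1 : ℕ) : ℝ) * exp (-(2 * (hh u : ℝ)))
          ≤ exp (hh u) * exp (-(2 * (hh u : ℝ))) := by gcongr
        _ ≤ _ := by
            rw [← Real.exp_add]
            exact Real.exp_le_exp.2 (by linarith)
  have h4 : mass S₄ ≤ exp (-(2 * (u : ℝ) ^ 2)) :=
    (hf S₄ fun e he => (mem_filter.1 he).2).trans (Real.exp_le_exp.2 (by linarith))
  have h5 : 4 * exp (-(2 * (u : ℝ) ^ 2)) ≤ exp (-(u : ℝ) ^ 2) := by
    have : (4 : ℝ) ≤ exp ((u : ℝ) ^ 2) := by linarith [Real.add_one_le_exp ((u : ℝ) ^ 2)]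
    calc 4 * exp (-(2 * (u : ℝ) ^ 2)) ≤ exp ((u : ℝ) ^ 2) * exp (-(2 * (u : ℝ) ^ 2)) := by gcongr
      _ = _ := by
          rw [← Real.exp_add]
          congr 1
          ring
  linarith [mass_mono hsub, mass_union_le (S₁ ∪ S₂ ∪ S₃) S₄, mass_union_le (S₁ ∪ S₂) S₃,
    mass_union_le S₁ S₂]

end Vale.Agent.P031
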