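import Vale.Agent.P031.Dich
import Vale.Agent.P031.Pm
import Vale.Agent.P031.Brun
import Vale.Agent.P031.Mert
import Vale.Agent.P031.Dbl

namespace Vale.Agent.P031

open Finset Real Filter

theorem mu_le : ∀ᶠ u : ℕ in atTop, ∀ y : ℝ, 3 ≤ y → log (log y) ≤ 2 * (u : ℝ) ^ 10 →
    mass (totF y) ≤ exp u * AM u 0 0 := by
  classical
  filter_upwards [dich, bad_mass, dbl_sum, base_mem_AA, ev_pow_L 11, eventually_ge_atTop 10]
    with u hd hb hs hB hL hu y hy hyy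
  have hu' : (10 : ℝ) ≤ u := by exact_mod_cast hu
  obtain ⟨Gd, hG⟩ : ∃ Gd : ℕ → Prop, ∀ v, Gd v ↔ ∃ w₀ S, Rep u 0 v w₀ S := ⟨_, fun _ => Iff.rfl⟩
  have h1 : mass ((totF y).filter Gd) ≤ (10 * (u : ℝ) ^ 10) ^ LL u * AM u 0 0 := by
    refine (dbl_mass _ (AA u 0 0) (cells u 1 (KK u + 1)) (LL u) fun w hw => ?_).trans
      (mul_le_mul_of_nonneg_right (pow_le_pow_left₀ (by positivity) hs _) (mass_nonneg _))
    obtain ⟨w₀, S, hR⟩ := (hG w).1 (mem_filter.1 hw).2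
    refine ⟨S, fun p hp => ?_, hR.2.2.1, w₀, hB 0 0 w₀ (by norm_num) le_rfl hR.1, ?_⟩
    · have h := hR.2.1.1 p hp
      exact (mem_cells (by omega)).2 ⟨h.1, h.2.1, Nat.lt_succ_of_le h.2.2.1⟩
    · rw [← hR.2.2.2, val, mul_comm]
  have h2 : mass ((totF y).filter fun v => ¬ Gd v) ≤
      mass ((Icc 1 ⌊y⌋₊).filter (Bad u)) * mass (totF y) := by
    refine mass_mul_le _ _ _ fun v hv => ?_
    obtain ⟨hv1, hv2⟩ := mem_filter.1 hv
    obtain ⟨hvy, n, hn, rfl⟩ := mem_totF.1 hv1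
    have hK : LabLE u (KK u) n := by
      intro q hq
      have hp := Nat.prime_of_mem_primeFactors hq
      have h3 := Nat.le_of_dvd (Nat.totient_pos.2 hn)
        (Nat.totient_dvd_of_dvd (Nat.dvd_of_mem_primeFactors hq))
      rw [Nat.totient_prime hp] at h3
      have h4 : ((q - 1 : ℕ) : ℝ) ≤ Nat.totient n := by exact_mod_cast h3
      rw [Nat.cast_sub hp.one_le, Nat.cast_one] at h4
      exact lab_le_KK (by omega) hy hyy (by linarith)
    rcases hd n hn hK with ⟨w₀, S, hR, -⟩ | ⟨e, n', b1, b2, b3⟩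
    · exact absurd ((hG _).2 ⟨w₀, S, hR⟩) hv2
    have e1 := bad_pos b1
    have e2 := Nat.totient_pos.2 b2
    have e3 : (e : ℝ) ≤ Nat.totient n := by
      rw [b3]
      exact_mod_cast Nat.le_mul_of_pos_right _ e2
    have e4 : (Nat.totient n' : ℝ) ≤ Nat.totient n := by
      rw [b3]
      exact_mod_cast Nat.le_mul_of_pos_left _ e1
    exact ⟨e, mem_filter.2 ⟨mem_Icc.2 ⟨e1, Nat.le_floor (e3.trans hvy)⟩, b1⟩, _,
      mem_totF.2 ⟨e4.trans hvy, n', b2, rfl⟩, b3⟩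
  have h3 := hb ((Icc 1 ⌊y⌋₊).filter (Bad u)) fun e he => (mem_filter.1 he).2
  have h4 : exp (-(u : ℝ) ^ 2) ≤ 1 / 2 := by
    rw [exp_neg, ← one_div]
    refine one_div_le_one_div_of_le two_pos ?_
    nlinarith [add_one_le_exp ((u : ℝ) ^ 2)]
  have h5 := mul_le_mul_of_nonneg_right (h3.trans h4) (mass_nonneg (totF y))
  have h6 : mass ((totF y).filter Gd) + mass ((totF y).filter fun v => ¬ Gd v) = mass (totF y) :=
    sum_filter_add_sum_filter_not _ _ _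
  have h7 : 2 * (10 * (u : ℝ) ^ 10) ^ LL u ≤ exp u := by
    refine le_trans ?_ hL
    have a1 : 10 * (u : ℝ) ^ 10 ≤ u ^ 11 := by
      rw [pow_succ (u : ℝ) 10, mul_comm]
      gcongr
    have a2 : (u : ℝ) ≤ u ^ 11 := le_self_pow₀ (by linarith) (by norm_num)
    rw [pow_add, mul_comm]
    gcongr
    nlinarith
  have h8 := mul_le_mul_of_nonneg_right h7 (AM_nonneg u 0 0)
  linarith

end Vale.Agent.P031
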