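import Vale.Agent.P031.Lab

namespace Vale.Agent.P031

open Finset Real Filter

theorem Om_mul {a b : ℕ} (ha : a ≠ 0) (hb : b ≠ 0) : Om (a * b) = Om a + Om b := by
  unfold Om
  rw [(Nat.perm_primeFactorsList_mul ha hb).length_eq, List.length_append]

theorem OmC_mul (u j : ℕ) {a b : ℕ} (ha : a ≠ 0) (hb : b ≠ 0) :
    OmC u j (a * b) = OmC u j a + OmC u j b := by
  unfold OmC
  rw [(Nat.perm_primeFactorsList_mul ha hb).countP_eq, List.countP_append]

theorem Om_one : Om 1 = 0 := by simp [Om]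

theorem OmC_one (u j : ℕ) : OmC u j 1 = 0 := by simp [OmC]

theorem Om_prod {ι : Type*} (s : Finset ι) (f : ι → ℕ) (hf : ∀ i ∈ s, f i ≠ 0) :
    Om (∏ i ∈ s, f i) = ∑ i ∈ s, Om (f i) := by
  classical
  induction s using Finset.induction_on with
  | empty => simp [Om_one]
  | insert a s ha ih =>
    rw [prod_insert ha, sum_insert ha, Om_mul (hf a (mem_insert_self _ _))
      (prod_ne_zero_iff.2 fun i hi => hf i (mem_insert_of_mem hi)),
      ih fun i hi => hf i (mem_insert_of_mem hi)]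

theorem OmC_prod (u j : ℕ) {ι : Type*} (s : Finset ι) (f : ι → ℕ) (hf : ∀ i ∈ s, f i ≠ 0) :
    OmC u j (∏ i ∈ s, f i) = ∑ i ∈ s, OmC u j (f i) := by
  classical
  induction s using Finset.induction_on with
  | empty => simp [OmC_one]
  | insert a s ha ih =>
    rw [prod_insert ha, sum_insert ha, OmC_mul u j (hf a (mem_insert_self _ _))
      (prod_ne_zero_iff.2 fun i hi => hf i (mem_insert_of_mem hi)),
      ih fun i hi => hf i (mem_insert_of_mem hi)]

theorem OmC_le_Om (u j n : ℕ) : OmC u j n ≤ Om n := List.countP_le_length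

theorem Om_mono {a b : ℕ} (h : a ∣ b) (hb : b ≠ 0) : Om a ≤ Om b := by
  obtain ⟨c, rfl⟩ := h
  rw [Om_mul (left_ne_zero_of_mul hb) (right_ne_zero_of_mul hb)]
  omega

theorem OmC_mono (u j : ℕ) {a b : ℕ} (h : a ∣ b) (hb : b ≠ 0) : OmC u j a ≤ OmC u j b := by
  obtain ⟨c, rfl⟩ := h
  rw [OmC_mul u j (left_ne_zero_of_mul hb) (right_ne_zero_of_mul hb)]
  omega

theorem Om_prime {p : ℕ} (hp : p.Prime) : Om p = 1 := by
  simp [Om, Nat.primeFactorsList_prime hp]

theorem OmC_prime_le (u j : ℕ) {p : ℕ} (hp : p.Prime) : OmC u j p ≤ 1 :=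
  (OmC_le_Om u j p).trans (Om_prime hp).le

theorem list_prod_lab {M : Type*} [CommMonoid M] (g : ℕ → ℕ) (τ : ℕ) (lam : ℕ → M) (l : List ℕ)
    (h : ∀ q ∈ l, g q ≤ τ) :
    (l.map fun q => lam (g q)).prod =
      ∏ j ∈ range (τ + 1), lam j ^ l.countP (fun q => decide (g q = j)) := by
  induction l with
  | nil => simp
  | cons a l ih =>
    rw [List.map_cons, List.prod_cons, ih fun q hq => h q (List.mem_cons_of_mem _ hq)]
    have ha : g a ∈ range (τ + 1) := mem_range.2 (Nat.lt_succ_of_le (h a List.mem_cons_self))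
    simp only [List.countP_cons, pow_add, prod_mul_distrib]
    rw [mul_comm]
    congr 1
    rw [prod_eq_single (g a)]
    · simp
    · intro b _ hb
      simp [Ne.symm hb]
    · intro h'
      exact absurd ha h'

theorem mem_list_lab {u τ n : ℕ} (h : LabLE u τ n) : ∀ q ∈ n.primeFactorsList, lab u q ≤ τ :=
  fun q hq => h q (Nat.mem_primeFactors_iff_mem_primeFactorsList.2 hq)

theorem wt_lab {u τ n : ℕ} (lam : ℕ → ℝ) (h : LabLE u τ n) :
    wt (fun q => lam (lab u q)) n = ∏ j ∈ range (τ + 1), lam j ^ OmC u j n := by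
  unfold wt OmC
  convert list_prod_lab (lab u) τ lam _ (mem_list_lab h)

theorem Om_eq_sum {u τ n : ℕ} (h : LabLE u τ n) : Om n = ∑ j ∈ range (τ + 1), OmC u j n := by
  have h1 := list_prod_lab (M := ℕ) (lab u) τ (fun _ => 2) _ (mem_list_lab h)
  rw [prod_pow_eq_pow_sum] at h1
  simp only [List.map_const', List.prod_replicate] at h1
  have := Nat.pow_right_injective le_rfl h1
  unfold Om OmC
  convert this

theorem OmC_eq_zero {u τ j n : ℕ} (h : LabLE u τ n) (hj : τ < j) : OmC u j n = 0 := by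
  unfold OmC
  rw [List.countP_eq_zero]
  intro q hq
  have := mem_list_lab h q hq
  simp only [decide_eq_true_eq]
  omega

theorem LabLE.mul {u τ a b : ℕ} (ha : LabLE u τ a) (hb : LabLE u τ b) : LabLE u τ (a * b) := by
  intro q hq
  have h0 := (Nat.mem_primeFactors.1 hq).2.2
  rw [Nat.primeFactors_mul (left_ne_zero_of_mul h0) (right_ne_zero_of_mul h0)] at hq
  rcases mem_union.1 hq with h | h
  · exact ha q h
  · exact hb q h

theorem labLE_one (u τ : ℕ) : LabLE u τ 1 := by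
  intro q hq
  simp at hq

theorem LabLE.prod {u τ : ℕ} {ι : Type*} (s : Finset ι) (f : ι → ℕ)
    (h : ∀ i ∈ s, LabLE u τ (f i)) : LabLE u τ (∏ i ∈ s, f i) :=
  Finset.prod_induction f (LabLE u τ) (fun _ _ => LabLE.mul) (labLE_one u τ) h

theorem LabLE.of_dvd {u τ a b : ℕ} (hb : LabLE u τ b) (h : a ∣ b) (hb0 : b ≠ 0) :
    LabLE u τ a := fun q hq => hb q (Nat.primeFactors_mono h hb0 hq)

theorem LabLE.mono {u τ τ' n : ℕ} (h : LabLE u τ n) (hτ : τ ≤ τ') : LabLE u τ' n :=
  fun q hq => (h q hq).trans hτ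

theorem labLE_of_le {u n p : ℕ} (h : n ≤ p) : LabLE u (lab u p) n :=
  fun _ hq => lab_mono ((Nat.le_of_mem_primeFactors hq).trans h)

/-- Every prime factor of `φ n` is at most some prime factor of `n`. -/
theorem exists_le_of_dvd_totient {n q : ℕ} (hn : n ≠ 0) (hq : q.Prime) (h : q ∣ Nat.totient n) :
    ∃ p ∈ n.primeFactors, q ≤ p := by
  rw [Nat.totient_eq_prod_factorization hn, Finsupp.prod, Prime.dvd_finsetProd_iff hq.prime] at h
  obtain ⟨p, hp, hd⟩ := h
  rw [Nat.support_factorization] at hp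
  have hpp := Nat.prime_of_mem_primeFactors hp
  refine ⟨p, hp, ?_⟩
  rcases (Nat.Prime.dvd_mul hq).1 hd with h1 | h1
  · exact Nat.le_of_dvd hpp.pos (hq.dvd_of_dvd_pow h1)
  · have := Nat.le_of_dvd (by have := hpp.two_le; omega) h1
    omega

theorem LabLE.totient {u τ n : ℕ} (h : LabLE u τ n) : LabLE u τ (Nat.totient n) := by
  intro q hq
  obtain ⟨hq1, hq2, hq3⟩ := Nat.mem_primeFactors.1 hq
  have hn : n ≠ 0 := by
    rintro rfl
    simp at hq3
  obtain ⟨p, hp, hle⟩ := exists_le_of_dvd_totient hn hq1 hq2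
  exact (lab_mono hle).trans (h p hp)

theorem log_le_Om_mul {n : ℕ} {ℓ : ℝ} (h : ∀ q ∈ n.primeFactors, log (q : ℝ) ≤ ℓ) :
    log (n : ℝ) ≤ (Om n : ℝ) * ℓ := by
  induction n using Nat.recOnMul with
  | zero => simp [Om]
  | one => simp [Om]
  | prime p hp =>
    rw [Om_prime hp]
    simpa using h p (by simp [hp.primeFactors])
  | mul a b iha ihb =>
    rcases eq_or_ne a 0 with rfl | ha
    · simp [Om]
    rcases eq_or_ne b 0 with rfl | hb
    · simp [Om]
    rw [Nat.primeFactors_mul ha hb] at h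
    have h1 := iha fun q hq => h q (mem_union_left _ hq)
    have h2 := ihb fun q hq => h q (mem_union_right _ hq)
    rw [Om_mul ha hb]
    push_cast
    rw [Real.log_mul (by exact_mod_cast ha) (by exact_mod_cast hb)]
    linarith

/-- The largest prime factor. -/
theorem exists_top_prime {n : ℕ} (hn : 2 ≤ n) : ∃ r : ℕ, r.Prime ∧ r ∣ n ∧
    (∀ q : ℕ, q.Prime → q ∣ n → q ≤ r) ∧ log (n : ℝ) ≤ (Om n : ℝ) * log (r : ℝ) := by
  have hne : n.primeFactors.Nonempty := Nat.nonempty_primeFactors.2 (by omega)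
  have hm := n.primeFactors.max'_mem hne
  refine ⟨n.primeFactors.max' hne, Nat.prime_of_mem_primeFactors hm,
    Nat.dvd_of_mem_primeFactors hm, fun q hq hd => ?_, log_le_Om_mul fun q hq => ?_⟩
  · exact le_max' _ q (Nat.mem_primeFactors.2 ⟨hq, hd, by omega⟩)
  · have := (Nat.prime_of_mem_primeFactors hq).pos
    exact Real.log_le_log (by exact_mod_cast this) (by exact_mod_cast le_max' _ q hq)

theorem wt_mul (f : ℕ → ℝ) {a b : ℕ} (ha : a ≠ 0) (hb : b ≠ 0) :
    wt f (a * b) = wt f a * wt f b := by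
  unfold wt
  rw [((Nat.perm_primeFactorsList_mul ha hb).map f).prod_eq, List.map_append, List.prod_append]

theorem DD_le_hh {u : ℕ} (hu : 1 ≤ u) : DD u ≤ hh u := Nat.pow_le_pow_right hu (by norm_num)

theorem Normal.Om_le {u p j : ℕ} (hu : 1 ≤ u) (hn : Normal u p) (hj : lab u p ≤ j) :
    Om (p - 1) ≤ 2 * (j + 1) * hh u := by
  rw [Om_eq_sum ((labLE_of_le (Nat.sub_le p 1)).mono hj)]
  have h1 := sum_le_card_nsmul (range (j + 1)) (fun i => OmC u i (p - 1)) (2 * hh u)
    (fun i _ => by have := hn.1 i; have := DD_le_hh hu; omega)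
  rw [card_range, smul_eq_mul] at h1
  nlinarith

theorem Normal.le_Om {u p : ℕ} (hn : Normal u p) : lab u p * (hh u - DD u) ≤ Om (p - 1) := by
  rw [Om_eq_sum (labLE_of_le (u := u) (Nat.sub_le p 1)), sum_range_succ]
  have h1 := card_nsmul_le_sum (range (lab u p)) (fun i => OmC u i (p - 1)) (hh u - DD u)
    (fun i hi => by have := hn.2 i (mem_range.1 hi); omega)
  rw [card_range, smul_eq_mul] at h1
  omega

/-! Masses. -/

theorem mass_nonneg (S : Finset ℕ) : 0 ≤ mass S := sum_nonneg fun _ _ => by positivity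

theorem mass_mono {S T : Finset ℕ} (h : S ⊆ T) : mass S ≤ mass T :=
  sum_le_sum_of_subset_of_nonneg h fun _ _ _ => by positivity

theorem mass_union_le (S T : Finset ℕ) : mass (S ∪ T) ≤ mass S + mass T := by
  unfold mass
  rw [← sum_union_inter]
  have : 0 ≤ ∑ w ∈ S ∩ T, 1 / (w : ℝ) := mass_nonneg _
  linarith

theorem mass_biUnion_le {ι : Type*} (s : Finset ι) (f : ι → Finset ℕ) :
    mass (s.biUnion f) ≤ ∑ i ∈ s, mass (f i) := by
  classical
  induction s using Finset.induction_on with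
  | empty => simp [mass]
  | insert a s ha ih =>
    rw [biUnion_insert, sum_insert ha]
    linarith [mass_union_le (f a) (s.biUnion f)]

theorem mass_sdiff {S T : Finset ℕ} (h : S ⊆ T) : mass (T \ S) = mass T - mass S := by
  unfold mass
  rw [← sum_sdiff h]
  ring

theorem mass_image_le {α : Type*} (Z : Finset α) (f : α → ℕ) :
    mass (Z.image f) ≤ ∑ z ∈ Z, 1 / (f z : ℝ) := by
  unfold mass
  exact sum_image_le_of_nonneg fun _ _ => by positivity

theorem mass_mul_le (Z E W : Finset ℕ) (h : ∀ z ∈ Z, ∃ e ∈ E, ∃ w ∈ W, z = e * w) :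
    mass Z ≤ mass E * mass W := by
  have h1 : Z ⊆ (E ×ˢ W).image fun x => x.1 * x.2 := by
    intro z hz
    obtain ⟨e, he, w, hw, rfl⟩ := h z hz
    exact mem_image.2 ⟨(e, w), mem_product.2 ⟨he, hw⟩, rfl⟩
  refine (mass_mono h1).trans ((mass_image_le _ _).trans (le_of_eq ?_))
  unfold mass
  rw [sum_mul_sum, sum_product]
  refine sum_congr rfl fun e _ => sum_congr rfl fun w _ => ?_
  push_cast
  rw [one_div_mul_one_div]

theorem card_le_mul_mass (Z : Finset ℕ) {y : ℝ} (h : ∀ z ∈ Z, 1 ≤ z ∧ (z : ℝ) ≤ y) :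
    (Z.card : ℝ) ≤ y * mass Z := by
  unfold mass
  rw [mul_sum, card_eq_sum_ones]
  push_cast
  refine sum_le_sum fun z hz => ?_
  have h1 : (0 : ℝ) < z := by exact_mod_cast (h z hz).1
  rw [mul_one_div, le_div_iff₀ h1, one_mul]
  exact (h z hz).2

theorem IsTot.pos {v : ℕ} (h : IsTot v) : 1 ≤ v := by
  obtain ⟨n, hn, rfl⟩ := h
  exact Nat.totient_pos.2 hn

theorem mem_totF {x : ℝ} {v : ℕ} : v ∈ totF x ↔ (v : ℝ) ≤ x ∧ IsTot v := by
  classical
  unfold totF
  simp only [mem_filter, mem_Icc]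
  constructor
  · rintro ⟨⟨h1, h2⟩, h3⟩
    exact ⟨(Nat.le_floor_iff' (by omega)).1 h2, h3⟩
  · rintro ⟨h1, h2⟩
    exact ⟨⟨h2.pos, Nat.le_floor h1⟩, h2⟩

theorem V_eq (x : ℝ) : V x = (totF x).card := by
  unfold V
  rw [← Set.ncard_coe_finset]
  congr 1
  ext v
  simp only [Set.mem_ofPred_eq, mem_coe, mem_totF, IsTot]

end Vale.Agent.P031
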