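import Vale.Agent.P031.Val
import Vale.Agent.P031.Cnt

namespace Vale.Agent.P031

open Finset Real Filter

theorem AA_small {δ : ℝ} (hδ : 0 < δ) : ∀ᶠ u : ℕ in atTop, ∀ s y : ℝ, Rng u s y →
    ∀ w ∈ AA u 0 (s - 2 * MM u), log (w : ℝ) ≤ δ * log y := by
  filter_upwards [ev_L_pow 1 1, ev_pow_exp 8 (11 / δ), eventually_ge_atTop 2] with u h1 h2 hu s y
    ⟨_, _, y3, hs, _⟩ w hw
  have u2 : (2 : ℝ) ≤ u := by exact_mod_cast hu
  have h3 : (u : ℝ) ≤ (u : ℝ) ^ 8 := le_self_pow₀ (by linarith) (by norm_num)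
  rw [Real.le_log_iff_exp_le (by linarith [one_lt_log y3])] at hs
  refine (AA_log_le (by omega) hw).trans ?_
  have h4 : 10 * (hh u : ℝ) + LL u ≤ δ * exp u := by
    rw [div_mul_eq_mul_div, div_le_iff₀ hδ] at h2
    rw [one_mul, pow_one] at h1
    simp only [hh]
    push_cast
    linarith
  refine (mul_le_mul_of_nonneg_right h4 (Real.exp_pos _).le).trans ?_
  rw [mul_assoc, ← Real.exp_add]
  refine mul_le_mul_of_nonneg_left (le_trans (Real.exp_le_exp.2 ?_) hs) hδ.le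
  simp only [hh, MM]
  push_cast
  rw [show (u : ℝ) ^ 9 = u * (u : ℝ) ^ 8 by ring]
  nlinarith

theorem pntu {ε : ℝ} (hε : 0 < ε) : ∀ᶠ u : ℕ in atTop, ∀ s y : ℝ, Rng u s y →
    ∀ w ∈ AA u 0 (s - 2 * MM u),
    |piR (y / w + 1) - y / (w * log y)| ≤ ε * (y / (w * log y)) := by
  obtain ⟨δ, hδ, y₀, h⟩ := pnt2 hε
  filter_upwards [AA_small hδ, tendsto_natCast_atTop_atTop.eventually_ge_atTop (2 * y₀),
    eventually_ge_atTop 1] with u h1 h2 hu s y hr w hw
  refine h y ?_ w (by exact_mod_cast AA_pos hw) (h1 s y hr w hw)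
  obtain ⟨a1, -, y3, a2, -⟩ := hr
  have h3 : (u : ℝ) ≤ (u : ℝ) ^ 10 := le_self_pow₀ (by exact_mod_cast hu) (by norm_num)
  have h4 := Real.log_le_sub_one_of_pos (show 0 < y by linarith)
  have h5 := Real.log_le_sub_one_of_pos (show 0 < log y by linarith [one_lt_log y3])
  linarith

end Vale.Agent.P031
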