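import Vale.Agent.P031.Om
import Vale.Agent.P031.Mert

namespace Vale.Agent.P031

open Finset Real Filter

theorem rank_inv_le {t : ℝ} (h1 : t ≤ 3 / 4) : (1 - t)⁻¹ ≤ exp (t + 4 * t ^ 2) := by
  refine le_trans ?_ (add_one_le_exp _)
  rw [inv_le_iff_one_le_mul₀ (by linarith)]
  nlinarith [mul_nonneg (sq_nonneg t) (sub_nonneg.2 h1)]

theorem rankin (P : Finset ℕ) (hP : ∀ p ∈ P, p.Prime) (f : ℕ → ℝ)
    (hf : ∀ p ∈ P, 0 ≤ f p ∧ f p ≤ 3 / 4 * p) (S : Finset ℕ)
    (hS : ∀ n ∈ S, 1 ≤ n ∧ n.primeFactors ⊆ P) :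
    ∑ n ∈ S, wt f n / n ≤ exp (∑ p ∈ P, (f p / p + 4 * (f p / p) ^ 2)) := by
  set f' : ℕ → ℝ := fun p => if p ∈ P then f p else 0 with hf'
  have h0 : ∀ p, 0 ≤ f' p := fun p => by
    simp only [hf']
    split_ifs with h
    exacts [(hf p h).1, le_rfl]
  have h1 : ∀ p : ℕ, f' p / p ≤ 3 / 4 := fun p => by
    refine div_le_of_le_mul₀ (by positivity) (by norm_num) ?_
    simp only [hf']
    split_ifs with h
    exacts [(hf p h).2, by positivity]
  let g : ℕ →* ℝ :=
    { toFun := fun n => wt f' n / n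
      map_one' := by simp [wt]
      map_mul' := fun a b => by
        rcases eq_or_ne a 0 with rfl | ha
        · simp
        rcases eq_or_ne b 0 with rfl | hb
        · simp
        rw [wt_mul f' ha hb, Nat.cast_mul, mul_div_mul_comm] }
  have gp : ∀ p : ℕ, p.Prime → g p = f' p / p := fun p hp => by
    simp [g, wt, Nat.primeFactorsList_prime hp]
  have g0 : ∀ n, 0 ≤ g n := fun n => div_nonneg (List.prod_nonneg fun a ha => by
    obtain ⟨q, -, rfl⟩ := List.mem_map.1 ha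
    exact h0 q) (Nat.cast_nonneg n)
  have h2 := (EulerProduct.summable_and_hasSum_factoredNumbers_prod_filter_prime_geometric
    (f := g) (fun {p} hp => by
      rw [Real.norm_of_nonneg (g0 p), gp p hp]
      linarith [h1 p]) P).2
  have h3 := sum_le_hasSum S (fun n _ => Set.indicator_nonneg (fun n _ => g0 n) n)
    (hasSum_subtype_iff_indicator.1 h2)
  rw [filter_true_of_mem hP] at h3
  refine le_trans (le_of_eq (sum_congr rfl fun n hn => ?_)) (h3.trans ?_)
  · have hn0 : n ≠ 0 := by have := (hS n hn).1; omega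
    rw [Set.indicator_of_mem (Nat.mem_factoredNumbers_of_primeFactors_subset hn0 (hS n hn).2)]
    show _ = wt f' n / n
    congr 1
    unfold wt
    congr 1
    refine List.map_congr_left fun q hq => ?_
    simp only [hf']
    rw [if_pos ((hS n hn).2 (Nat.mem_primeFactors_iff_mem_primeFactorsList.2 hq))]
  · rw [exp_sum]
    refine prod_le_prod (fun p hp => ?_) fun p hp => ?_
    · rw [gp p (hP p hp)]
      exact inv_nonneg.2 (by linarith [h1 p])
    · have := rank_inv_le (h1 p)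
      rw [gp p (hP p hp)]
      simpa only [hf', if_pos hp] using this

theorem rank_tail (P : Finset ℕ) {k : ℕ} (hk : k ≠ 0) (hP : ∀ p ∈ P, k < p) :
    ∑ p ∈ P, 1 / (p : ℝ) ^ 2 ≤ 1 / (k : ℝ) := by
  have h := sum_Ioc_inv_sq_le_sub (α := ℝ) hk (le_max_left k (P.sup id))
  simp only [one_div]
  refine (sum_le_sum_of_subset_of_nonneg (fun p hp => mem_Ioc.2 ⟨hP p hp,
    le_max_of_le_right (le_sup (f := id) hp)⟩) fun _ _ _ => by positivity).trans (h.trans ?_)
  exact sub_le_self _ (by positivity)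

/-- `∑ 1 / p ^ 2 ≤ 1` over any finite set of integers `≥ 2`. -/
theorem sum_inv_sq_le (P : Finset ℕ) (hP : ∀ p ∈ P, 2 ≤ p) : ∑ p ∈ P, 1 / (p : ℝ) ^ 2 ≤ 1 := by
  simpa using rank_tail P one_ne_zero hP

theorem rankin_cells : ∀ᶠ u : ℕ in atTop, ∀ (τ : ℕ) (lam : ℕ → ℝ),
    (∀ j, 0 ≤ lam j ∧ lam j ≤ (u : ℝ) ^ 10) → lam 0 ≤ 3 / 2 →
    ∀ S : Finset ℕ, (∀ n ∈ S, 1 ≤ n ∧ LabLE u τ n) →
    ∑ n ∈ S, (∏ j ∈ range (τ + 1), lam j ^ OmC u j n) / n ≤
      exp (∑ j ∈ range (τ + 1), lam j * ((hh u : ℝ) + u) + 10) := by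
  filter_upwards [cells_sum, ev_pow_exp 20 5, eventually_ge_atTop 1] with u hc he hu τ lam hl h0
    S hS
  have hu' : (1 : ℝ) ≤ u := by exact_mod_cast hu
  have big : ∀ p : ℕ, lab u p ≠ 0 → 5 * (u : ℝ) ^ 20 ≤ p := fun p hp => by
    have h1 := exp_le_log_of_le_lab hu le_rfl (Nat.one_le_iff_ne_zero.2 hp)
    have h2 : (u : ℝ) ≤ ((1 : ℕ) : ℝ) * hh u := by
      simp only [hh]
      push_cast
      rw [one_mul]
      exact le_self_pow₀ hu' (by norm_num)
    exact he.trans ((exp_le_exp.2 h2).trans (h1.trans (log_le_self (Nat.cast_nonneg p))))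
  have h10 : (u : ℝ) ^ 10 ≤ (u : ℝ) ^ 20 := pow_le_pow_right₀ hu' (by norm_num)
  have h20 : (0 : ℝ) < (u : ℝ) ^ 20 := by positivity
  have hP : ∀ p ∈ cells u 0 (τ + 1), p.Prime := fun p hp => ((mem_cells hu).1 hp).1
  have h := rankin (cells u 0 (τ + 1)) hP (fun q => lam (lab u q)) (fun p hp => ⟨(hl _).1, by
      by_cases h : lab u p = 0
      · have : (2 : ℝ) ≤ p := by exact_mod_cast (hP p hp).two_le
        rw [h]
        linarith
      · linarith [(hl (lab u p)).2, big p h]⟩) S fun n hn => ⟨(hS n hn).1, fun q hq =>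
      (mem_cells hu).2 ⟨Nat.prime_of_mem_primeFactors hq, Nat.zero_le _,
        Nat.lt_succ_iff.2 ((hS n hn).2 q hq)⟩⟩
  rw [sum_congr rfl fun n hn => by rw [wt_lab lam (hS n hn).2]] at h
  refine h.trans (exp_le_exp.2 ?_)
  rw [sum_add_distrib]
  refine add_le_add ?_ ?_
  · rw [← sum_fiberwise_of_maps_to (g := lab u) (t := range (τ + 1))
      fun p hp => mem_range.2 ((mem_cells hu).1 hp).2.2]
    refine sum_le_sum fun j hj => ?_
    have e : (cells u 0 (τ + 1)).filter (fun p => lab u p = j) = cells u j (j + 1) := by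
      have := mem_range.1 hj
      ext p
      rw [mem_filter, mem_cells hu, mem_cells hu]
      constructor
      · rintro ⟨⟨h1, -, -⟩, h2⟩
        exact ⟨h1, by omega, by omega⟩
      · rintro ⟨h1, h2, h3⟩
        exact ⟨⟨h1, by omega, by omega⟩, by omega⟩
    have e' : ∑ p ∈ (cells u 0 (τ + 1)).filter (fun p => lab u p = j), lam (lab u p) / (p : ℝ) =
        lam j * ∑ p ∈ cells u j (j + 1), 1 / (p : ℝ) := by
      rw [mul_sum, ← e]
      exact sum_congr rfl fun p hp => by rw [(mem_filter.1 hp).2, mul_one_div]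
    rw [e']
    refine mul_le_mul_of_nonneg_left ?_ (hl j).1
    have := (abs_le.1 (hc j (j + 1) (Nat.le_succ j))).2
    push_cast at this
    linarith
  · rw [← sum_filter_add_sum_filter_not _ fun p => lab u p = 0]
    have a1 := sum_inv_sq_le ((cells u 0 (τ + 1)).filter fun p => lab u p = 0)
      fun p hp => (hP p (mem_filter.1 hp).1).two_le
    have a2 := rank_tail ((cells u 0 (τ + 1)).filter fun p => ¬ lab u p = 0)
      (k := 4 * u ^ 20) (by positivity) fun p hp => by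
        have := big p (mem_filter.1 hp).2
        have h4 : ((4 * u ^ 20 : ℕ) : ℝ) < p := by
          push_cast
          linarith
        exact_mod_cast h4
    have b1 : ∑ p ∈ (cells u 0 (τ + 1)).filter (fun p => lab u p = 0),
        4 * (lam (lab u p) / p) ^ 2 ≤ 9 := by
      refine le_trans (sum_le_sum (g := fun p : ℕ => 9 * (1 / (p : ℝ) ^ 2)) fun p hp => ?_) ?_
      · rw [(mem_filter.1 hp).2, div_pow, mul_one_div, ← mul_div_assoc]
        refine div_le_div_of_nonneg_right ?_ (by positivity)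
        nlinarith [(hl 0).1]
      · rw [← mul_sum]
        linarith
    have b2 : ∑ p ∈ (cells u 0 (τ + 1)).filter (fun p => ¬ lab u p = 0),
        4 * (lam (lab u p) / p) ^ 2 ≤ 1 := by
      refine le_trans (sum_le_sum (g := fun p : ℕ => (4 * (u : ℝ) ^ 20) * (1 / (p : ℝ) ^ 2))
        fun p hp => ?_) ?_
      · rw [div_pow, mul_one_div, ← mul_div_assoc]
        refine div_le_div_of_nonneg_right ?_ (by positivity)
        have := pow_le_pow_left₀ (hl (lab u p)).1 (hl (lab u p)).2 2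
        rw [← pow_mul] at this
        exact mul_le_mul_of_nonneg_left this (by norm_num)
      · rw [← mul_sum]
        push_cast at a2
        rwa [le_div_iff₀' (by positivity)] at a2
    linarith

theorem bigOm_mass : ∀ᶠ u : ℕ in atTop, ∀ (j : ℕ) (S : Finset ℕ),
    (∀ e ∈ S, 1 ≤ e ∧ LabLE u j e ∧ 10 * (j + 1) * hh u < Om e) →
    mass S ≤ exp (-(2 * ((j : ℝ) + 1) * hh u)) := by
  filter_upwards [rankin_cells, eventually_ge_atTop 2] with u hr hu j S hS
  have hu' : (2 : ℝ) ≤ u := by exact_mod_cast hu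
  have h10 : (u : ℝ) ≤ (u : ℝ) ^ 10 := le_self_pow₀ (by linarith) (by norm_num)
  have h := hr j (fun _ => 3 / 2) (fun _ => ⟨by norm_num, by linarith⟩) le_rfl S
    fun n hn => ⟨(hS n hn).1, (hS n hn).2.1⟩
  have e2 : exp 2 ≤ (3 / 2 : ℝ) ^ 5 := by
    rw [show (2 : ℝ) = (2 : ℕ) * 1 by norm_num, exp_nat_mul]
    have := pow_le_pow_left₀ (exp_pos 1).le exp_one_lt_d9.le 2
    norm_num at this ⊢
    linarith
  have h1 : exp (4 * ((j : ℝ) + 1) * hh u) * mass S ≤
      ∑ n ∈ S, (∏ i ∈ range (j + 1), (3 / 2 : ℝ) ^ OmC u i n) / n := by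
    rw [mass, mul_sum]
    refine sum_le_sum fun n hn => ?_
    rw [mul_one_div, prod_pow_eq_pow_sum, ← Om_eq_sum (hS n hn).2.1]
    refine div_le_div_of_nonneg_right ?_ (Nat.cast_nonneg n)
    refine le_trans ?_ (pow_le_pow_right₀ (by norm_num) (hS n hn).2.2.le)
    rw [show 10 * (j + 1) * hh u = 5 * (2 * (j + 1) * hh u) by ring, pow_mul,
      show 4 * ((j : ℝ) + 1) * hh u = (2 * (j + 1) * hh u : ℕ) * 2 by push_cast; ring,
      exp_nat_mul]
    exact pow_le_pow_left₀ (exp_pos _).le e2 _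
  have h2 := h1.trans h
  rw [← le_div_iff₀' (exp_pos _), ← exp_sub, sum_const, card_range, nsmul_eq_mul] at h2
  refine h2.trans (exp_le_exp.2 ?_)
  have h3 : 3 * (u : ℝ) + 20 ≤ hh u := by
    have h4 : (2 : ℝ) ^ 7 ≤ (u : ℝ) ^ 7 := pow_le_pow_left₀ (by norm_num) hu' 7
    simp only [hh]
    push_cast
    rw [pow_succ]
    nlinarith
  have h5 : (0 : ℝ) ≤ j := Nat.cast_nonneg j
  push_cast
  nlinarith

end Vale.Agent.P031
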