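import Vale.Agent.P031.Mu

namespace Vale.Agent.P031

open Finset Real Filter

theorem upB_rng {u : ℕ} {s y : ℝ} (hu : 2 ≤ u) (hR : Rng u s y) :
    exp u ≤ log y ∧ log y ≤ exp ((u : ℝ) ^ 10 + 1) ∧ log (log y) ≤ 2 * (u : ℝ) ^ 10 ∧
      y + 1 ≤ XX u := by
  obtain ⟨r1, r2, hy, r3, r4⟩ := hR
  have hu' : (2 : ℝ) ≤ u := by exact_mod_cast hu
  have h0 : 0 < log y := log_pos (by linarith)
  have h9 : (2 : ℝ) ≤ (u : ℝ) ^ 9 := hu'.trans (le_self_pow₀ (by linarith) (by norm_num))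
  have h10 : 2 * (u : ℝ) ≤ (u : ℝ) ^ 10 := by
    rw [pow_succ]
    exact mul_le_mul_of_nonneg_right h9 (by linarith)
  have h2 : log y ≤ exp ((u : ℝ) ^ 10 + 1) := by
    rw [← log_le_iff_le_exp h0]
    linarith
  refine ⟨by rw [← le_log_iff_exp_le h0]; linarith, h2, by linarith, ?_⟩
  have h3 : 2 * log y ≤ exp (4 * (u : ℝ) ^ 10) := by
    have a1 : exp 1 * exp ((u : ℝ) ^ 10 + 1) ≤ exp (4 * (u : ℝ) ^ 10) := by
      rw [← exp_add]
      exact exp_le_exp.2 (by linarith)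
    have a2 : (2 : ℝ) ≤ exp 1 := by linarith [add_one_le_exp (1 : ℝ)]
    exact (mul_le_mul a2 h2 h0.le (exp_pos _).le).trans a1
  refine le_trans ?_ (exp_le_exp.2 h3)
  rw [two_mul, exp_add, exp_log (by linarith)]
  nlinarith

theorem upB_lam {u : ℕ} {l : ℝ} (hu : 1 ≤ u) (hl : 0 ≤ l) :
    l / (80 * (u : ℝ) ^ 10) ≤ l / (2 * BB u) := by
  have hB : (0 : ℝ) < BB u := by
    unfold BB hh
    positivity
  exact div_le_div_of_nonneg_left hl (by positivity) (by linarith [BB_le hu])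

theorem up_123 {ε : ℝ} (hε : 0 < ε) : ∀ᶠ u : ℕ in atTop, ∀ s y : ℝ, Rng u s y → ∀ Z : Finset ℕ,
    (∀ v ∈ Z, 1 ≤ v ∧ (v : ℝ) ≤ y ∧ ((v : ℝ) ≤ √y ∨ (LabLE u (KK u) v ∧ BB u < Om v) ∨
      ∃ p : ℕ, p.Prime ∧ log y / (2 * BB u) ≤ log (p : ℝ) ∧ p * (p - 1) ∣ v)) →
    (Z.card : ℝ) ≤ ε * (y / log y) := by
  classical
  filter_upwards [bigOm_mass, ev_pow_exp 0 (48 / ε), ev_pow_exp 20 (12800 * (6 / ε + 2)),
    eventually_ge_atTop 2] with u hb e1 e2 hu s y hR Z hZ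
  obtain ⟨l1, l2, -, -⟩ := upB_rng hu hR
  have hy : 0 < y := by linarith [hR.2.2.1]
  have hu' : (2 : ℝ) ≤ u := by exact_mod_cast hu
  have hl1 : 1 ≤ log y := (one_le_exp (by linarith)).trans l1
  have hl : 0 < log y := by linarith
  rw [pow_zero, mul_one, div_le_iff₀ hε] at e1
  set k := ⌈6 * log y / ε⌉₊ with hk
  have k1 : 6 * log y / ε ≤ k := Nat.le_ceil _
  have k2 : (k : ℝ) < 6 * log y / ε + 1 := Nat.ceil_lt_add_one (by positivity)
  have k0 : (0 : ℝ) < k := lt_of_lt_of_le (by positivity) k1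
  set Z2 := Z.filter fun v => LabLE u (KK u) v ∧ BB u < Om v
  set P := (range (⌊y⌋₊ + 2)).filter fun p => k < p
  set Z3 := P.biUnion fun p => (Ioc 0 ⌊y⌋₊).filter fun v => p * (p - 1) ∣ v
  have hs : Z ⊆ Icc 1 ⌊√y⌋₊ ∪ Z2 ∪ Z3 := by
    intro v hv
    obtain ⟨v1, v2, h | h | ⟨p, pp, h1, h2⟩⟩ := hZ v hv
    · exact mem_union_left _ (mem_union_left _ (mem_Icc.2 ⟨v1, Nat.le_floor h⟩))
    · exact mem_union_left _ (mem_union_right _ (mem_filter.2 ⟨hv, h⟩))
    · have v3 : v ≤ ⌊y⌋₊ := Nat.le_floor v2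
      refine mem_union_right _ (mem_biUnion.2 ⟨p, mem_filter.2 ⟨mem_range.2 ?_, ?_⟩,
        mem_filter.2 ⟨mem_Ioc.2 ⟨v1, v3⟩, h2⟩⟩)
      · have := Nat.le_of_dvd v1 ((Dvd.intro_left _ rfl).trans h2)
        omega
      · have a1 := (upB_lam (by omega) hl.le).trans h1
        rw [le_log_iff_exp_le (by exact_mod_cast pp.pos)] at a1
        have a2 := quadratic_le_exp_of_nonneg (x := log y / (80 * (u : ℝ) ^ 10)) (by positivity)
        have a3 : (6 / ε + 2) * log y ≤ (log y / (80 * (u : ℝ) ^ 10)) ^ 2 / 2 := by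
          rw [div_pow, div_div, le_div_iff₀ (by positivity)]
          have := mul_le_mul_of_nonneg_right (e2.trans l1) hl.le
          calc _ = 12800 * (6 / ε + 2) * (u : ℝ) ^ 20 * log y := by ring
            _ ≤ _ := by rw [sq]; exact this
        have a4 : 0 ≤ log y / (80 * (u : ℝ) ^ 10) := by positivity
        have a5 : (k : ℝ) < p := by
          rw [add_mul, div_mul_eq_mul_div] at a3
          linarith
        exact_mod_cast a5
  have c0 : (Z.card : ℝ) ≤ (⌊√y⌋₊ : ℝ) + Z2.card + Z3.card := by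
    have := (card_le_card hs).trans ((card_union_le _ _).trans
      (Nat.add_le_add_right (card_union_le _ _) _))
    rw [Nat.card_Icc, Nat.add_sub_cancel] at this
    exact_mod_cast this
  have c1 : (⌊√y⌋₊ : ℝ) ≤ ε / 3 * (y / log y) := by
    refine (Nat.floor_le (sqrt_nonneg y)).trans ?_
    have a1 := quadratic_le_exp_of_nonneg (x := log y / 2) (by positivity)
    rw [← log_sqrt hy.le, exp_log (sqrt_pos.2 hy), log_sqrt hy.le] at a1
    have a2 : 48 ≤ log y * ε := e1.trans (mul_le_mul_of_nonneg_right l1 hε.le)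
    have a3 : 3 * log y ≤ ε * √y := by nlinarith
    rw [← mul_div_assoc, le_div_iff₀ hl]
    have a4 := mul_self_sqrt hy.le
    nlinarith [sqrt_nonneg y]
  have c2 : (Z2.card : ℝ) ≤ ε / 3 * (y / log y) := by
    have a1 := card_le_mul_mass Z2 (y := y) fun z hz =>
      ⟨(hZ z (mem_filter.1 hz).1).1, (hZ z (mem_filter.1 hz).1).2.1⟩
    have a2 := hb (KK u) Z2 fun z hz => ⟨(hZ z (mem_filter.1 hz).1).1, (mem_filter.1 hz).2⟩
    refine a1.trans ((mul_le_mul_of_nonneg_left a2 hy.le).trans ?_)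
    rw [← mul_div_assoc, le_div_iff₀ hl, mul_assoc, mul_comm _ y]
    refine mul_le_mul_of_nonneg_left ?_ hy.le
    refine (mul_le_mul_of_nonneg_left l2 (exp_pos _).le).trans ?_
    have a3 : exp (-(u : ℝ)) ≤ ε / 3 := by
      rw [exp_neg, inv_le_iff_one_le_mul₀ (exp_pos _)]
      linarith
    rw [← exp_add]
    refine (exp_le_exp.2 ?_).trans a3
    have a4 : (u : ℝ) ≤ (u : ℝ) ^ 10 := le_self_pow₀ (by linarith) (by norm_num)
    have a5 : (0 : ℝ) ≤ (u : ℝ) ^ 8 := by positivity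
    simp only [KK, hh]
    push_cast
    rw [show 2 * (3 * (u : ℝ) ^ 2 + 1) * u ^ 8 = 6 * u ^ 10 + 2 * u ^ 8 by ring]
    linarith
  have c3 : (Z3.card : ℝ) ≤ ε / 3 * (y / log y) := by
    have a1 : (Z3.card : ℝ) ≤ ∑ p ∈ P, 2 * y * (1 / (p : ℝ) ^ 2) := by
      refine (Nat.cast_le.2 card_biUnion_le).trans ?_
      rw [Nat.cast_sum]
      refine sum_le_sum fun p hp => ?_
      have p2 : 2 ≤ p := by
        have := (mem_filter.1 hp).2
        have : 0 < k := by exact_mod_cast k0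
        omega
      have p3 : (2 : ℝ) ≤ p := by exact_mod_cast p2
      rw [Nat.Ioc_filter_dvd_card_eq_div]
      refine Nat.cast_div_le.trans ?_
      rw [Nat.cast_mul, Nat.cast_sub (by omega), Nat.cast_one, mul_one_div,
        div_le_div_iff₀ (mul_pos (by linarith) (by linarith)) (by positivity)]
      have b1 := Nat.floor_le hy.le
      have b2 : (p : ℝ) ^ 2 ≤ 2 * (p * (p - 1)) := by nlinarith
      calc _ ≤ y * (2 * (p * (p - 1))) := mul_le_mul b1 b2 (by positivity) hy.le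
        _ = _ := by ring
    have a2 := rank_tail P (k := k) (by exact_mod_cast k0.ne') fun p hp => (mem_filter.1 hp).2
    rw [← mul_sum] at a1
    refine a1.trans ((mul_le_mul_of_nonneg_left (a2.trans
      (one_div_le_one_div_of_le (by positivity) k1)) (by positivity)).trans (le_of_eq ?_))
    field_simp
    norm_num
  linarith

theorem up_4 {ε : ℝ} (hε : 0 < ε) : ∀ᶠ u : ℕ in atTop, ∀ s y : ℝ, Rng u s y → ∀ Z : Finset ℕ,
    (∀ v ∈ Z, (v : ℝ) ≤ y ∧ ∃ p w : ℕ, p.Prime ∧ log y / (2 * BB u) ≤ log (p : ℝ) ∧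
      ¬ Normal u p ∧ w ∈ totF y ∧ v = (p - 1) * w) →
    (Z.card : ℝ) ≤ ε * (y / log y) * AM u 0 0 := by
  classical
  filter_upwards [ab_count, mu_le, ev_pow_exp 14 80, ev_pow_exp 10 (160 / ε),
    eventually_ge_atTop 2] with u ha hm e1 e2 hu s y hR Z hZ
  obtain ⟨l1, -, l3, l4⟩ := upB_rng hu hR
  have hy3 := hR.2.2.1
  have hy : 0 < y := by linarith
  have hu' : (2 : ℝ) ≤ u := by exact_mod_cast hu
  have hl : 0 < log y := log_pos (by linarith)
  have hlam := upB_lam (u := u) (by omega) hl.le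
  have hw : ∀ w ∈ totF y, (1 : ℝ) ≤ w := fun w hw => by
    obtain ⟨-, n, hn, rfl⟩ := mem_totF.1 hw
    exact_mod_cast Nat.totient_pos.2 hn
  set P : ℕ → Finset ℕ := fun w => (range (⌊y⌋₊ + 2)).filter fun p => p.Prime ∧
    log y / (80 * (u : ℝ) ^ 10) ≤ log (p : ℝ) ∧ (p : ℝ) ≤ y / w + 1 ∧ ¬ Normal u p with hP
  have hs : Z ⊆ (totF y).biUnion fun w => (P w).image fun p => (p - 1) * w := by
    intro v hv
    obtain ⟨v1, p, w, pp, h1, h2, h3, rfl⟩ := hZ v hv
    have w1 := hw w h3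
    have a1 : (p : ℝ) ≤ y / w + 1 := by
      rw [Nat.cast_mul, Nat.cast_sub pp.one_le, Nat.cast_one, ← le_div_iff₀ (by linarith)] at v1
      linarith
    refine mem_biUnion.2 ⟨w, h3, mem_image.2 ⟨p, mem_filter.2 ⟨mem_range.2 ?_, pp, hlam.trans h1,
      a1, h2⟩, rfl⟩⟩
    have a2 : (p : ℝ) < ⌊y⌋₊ + 2 := by linarith [div_le_self hy.le w1, Nat.lt_floor_add_one y]
    exact_mod_cast a2
  have c1 : ∀ w ∈ totF y, ((P w).card : ℝ) ≤
      exp (-(u : ℝ) ^ 3) * (160 * (u : ℝ) ^ 10) * (y / log y) * (1 / (w : ℝ)) := by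
    intro w hw'
    have w1 := hw w hw'
    rcases (P w).eq_empty_or_nonempty with h | ⟨p, hp⟩
    · rw [h, card_empty, Nat.cast_zero]
      positivity
    obtain ⟨-, pp, h1, h2, -⟩ := mem_filter.1 hp
    have a1 : log y / (80 * (u : ℝ) ^ 10) ≤ log (y / w + 1) :=
      h1.trans (log_le_log (by exact_mod_cast pp.pos) h2)
    have a2 : (u : ℝ) ^ 4 ≤ log y / (80 * (u : ℝ) ^ 10) := by
      rw [le_div_iff₀ (by positivity)]
      calc _ = 80 * (u : ℝ) ^ 14 := by ring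
        _ ≤ _ := e1.trans l1
    have a3 : 1 ≤ y / w := (one_le_div (by linarith)).2 (mem_totF.1 hw').1
    refine (ha (y / w + 1) (P w) (by linarith) (a2.trans a1)
      (by linarith [div_le_self hy.le w1]) fun q hq => ?_).trans ?_
    · obtain ⟨-, b1, -, b2⟩ := mem_filter.1 hq
      exact ⟨b1, b2⟩
    · rw [mul_assoc, mul_assoc]
      refine mul_le_mul_of_nonneg_left ?_ (exp_pos _).le
      refine (div_le_div₀ (by positivity) (by linarith : y / w + 1 ≤ 2 * (y / w))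
        (by positivity) a1).trans (le_of_eq ?_)
      field_simp
      norm_num
  have c2 : (Z.card : ℝ) ≤ exp (-(u : ℝ) ^ 3) * (160 * (u : ℝ) ^ 10) * (y / log y) *
      mass (totF y) := by
    refine (Nat.cast_le.2 ((card_le_card hs).trans card_biUnion_le)).trans ?_
    rw [Nat.cast_sum, mass, mul_sum]
    exact sum_le_sum fun w hw' => (Nat.cast_le.2 card_image_le).trans (c1 w hw')
  refine c2.trans ((mul_le_mul_of_nonneg_left (hm y hy3 l3) (by positivity)).trans ?_)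
  rw [← mul_assoc]
  refine mul_le_mul_of_nonneg_right ?_ (AM_nonneg _ _ _)
  rw [mul_right_comm]
  refine mul_le_mul_of_nonneg_right ?_ (by positivity)
  have a1 : 160 * (u : ℝ) ^ 10 ≤ ε * exp u := by
    rwa [div_mul_eq_mul_div, div_le_iff₀' hε] at e2
  have a2 : exp (-(u : ℝ) ^ 3) * exp u * exp u ≤ 1 := by
    rw [← exp_add, ← exp_add, exp_le_one_iff]
    nlinarith [mul_le_mul hu' hu' (by norm_num) (by linarith)]
  calc _ ≤ exp (-(u : ℝ) ^ 3) * (ε * exp u) * exp u := by gcongr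
    _ = ε * (exp (-(u : ℝ) ^ 3) * exp u * exp u) := by ring
    _ ≤ ε := mul_le_of_le_one_right hε.le a2

end Vale.Agent.P031
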