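import Vale.Agent.P031.UpperA
import Vale.Agent.P031.UpperB
import Vale.Agent.P031.Cnt

namespace Vale.Agent.P031

open Finset Real Filter

theorem upper_or {S : Finset ℕ} {P R : ℕ → Prop} {a b : ℝ}
    (hP : ∀ Z ⊆ S, (∀ v ∈ Z, P v) → (Z.card : ℝ) ≤ a)
    (hR : ∀ Z ⊆ S, (∀ v ∈ Z, R v) → (Z.card : ℝ) ≤ b) :
    ∀ Z ⊆ S, (∀ v ∈ Z, P v ∨ R v) → (Z.card : ℝ) ≤ a + b := by
  classical
  intro Z hZ h
  rw [← card_filter_add_card_filter_not (s := Z) P, Nat.cast_add]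
  exact add_le_add (hP _ ((filter_subset _ _).trans hZ) fun v hv => (mem_filter.1 hv).2)
    (hR _ ((filter_subset _ _).trans hZ) fun v hv =>
      (h v (mem_filter.1 hv).1).resolve_left (mem_filter.1 hv).2)

theorem upper_pos {y : ℝ} {v : ℕ} (h : v ∈ totF y) : 1 ≤ v := by
  obtain ⟨n, hn, rfl⟩ := (mem_totF.1 h).2
  exact Nat.totient_pos.2 hn

theorem upper {ε : ℝ} (hε : 0 < ε) : ∀ᶠ u : ℕ in atTop, ∀ s y : ℝ, Rng u s y →
    (V y : ℝ) ≤ ∑ w ∈ AA u 0 (s - 2 * MM u), piR (y / w + 1) +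
      100 * LL u * (y / log y) * (AM u 0 (s + 2 * MM u) - AM u 0 (s - 2 * MM u)) +
      ε * (y / log y) * AM u 0 0 := by
  classical
  have h4 : 0 < ε / 4 := by positivity
  filter_upwards [classify, up_123 h4, up_4 h4, mu_le, bad_mass, face_mass, one_le_AM,
    ev_pow_exp 10 (5120 / ε), eventually_ge_atTop 2] with u hcl h123 hu4 hmu hbad hface hone hev hu
    s y hR
  obtain ⟨-, hs2, hy, -, hy2⟩ := id hR
  have hu' : (2 : ℝ) ≤ u := by exact_mod_cast hu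
  have hy0 : 0 < y := by linarith
  have hl : 0 < log y := log_pos (by linarith)
  have hX : 0 < y / log y := div_pos hy0 hl
  have hA := hone 0 0 (by omega) le_rfl
  have hB0 : (0 : ℝ) < BB u := by
    have : 0 < BB u := by
      unfold BB hh
      positivity
    exact_mod_cast this
  have hB : 32 * (BB u : ℝ) ≤ ε / 4 * exp u := by
    have h1 := BB_le (u := u) (by omega)
    rw [div_mul_eq_mul_div, div_le_iff₀ hε] at hev
    linarith
  have hℓ : 0 < log y / (2 * BB u) := by positivity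
  have e1 : 16 * y / (log y / (2 * BB u)) = 32 * BB u * (y / log y) := by
    field_simp
    ring
  have hmu' := hmu y hy (by
    have : (1 : ℝ) ≤ (u : ℝ) ^ 10 := one_le_pow₀ (by linarith)
    linarith)
  have key : ∀ m : ℝ, 0 ≤ m → m ≤ exp (-(u : ℝ)) * AM u 0 0 →
      16 * y / (log y / (2 * BB u)) * m ≤ ε / 4 * (y / log y) * AM u 0 0 := by
    intro m h0 hm
    rw [e1]
    refine (mul_le_mul (mul_le_mul_of_nonneg_right hB hX.le) hm h0 (by positivity)).trans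
      (le_of_eq ?_)
    rw [exp_neg]
    field_simp
  have c123 : ∀ Z ⊆ totF y, (∀ v ∈ Z, (v : ℝ) ≤ √y ∨ (LabLE u (KK u) v ∧ BB u < Om v) ∨
      ∃ p : ℕ, p.Prime ∧ log y / (2 * BB u) ≤ log (p : ℝ) ∧ p * (p - 1) ∣ v) →
      (Z.card : ℝ) ≤ ε / 4 * (y / log y) * AM u 0 0 := fun Z hZ h =>
    (h123 s y hR Z fun v hv => ⟨upper_pos (hZ hv), (mem_totF.1 (hZ hv)).1, h v hv⟩).trans
      (le_mul_of_one_le_right (by positivity) hA)
  have c4 : ∀ Z ⊆ totF y, (∀ v ∈ Z, ∃ p w : ℕ, p.Prime ∧ log y / (2 * BB u) ≤ log (p : ℝ) ∧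
      ¬ Normal u p ∧ w ∈ totF y ∧ v = (p - 1) * w) →
      (Z.card : ℝ) ≤ ε / 4 * (y / log y) * AM u 0 0 := fun Z hZ h =>
    hu4 s y hR Z fun v hv => ⟨(mem_totF.1 (hZ hv)).1, h v hv⟩
  have hdv : ∀ v ∈ totF y, ∀ e, e ∣ v → e ∈ Icc 1 ⌊y⌋₊ := fun v hv e he =>
    mem_Icc.2 ⟨Nat.pos_of_dvd_of_pos he (upper_pos hv),
      (Nat.le_of_dvd (upper_pos hv) he).trans (Nat.le_floor (mem_totF.1 hv).1)⟩
  have c5 : ∀ Z ⊆ totF y, (∀ v ∈ Z, ∃ p e w : ℕ, p.Prime ∧ log y / (2 * BB u) ≤ log (p : ℝ) ∧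
      Bad u e ∧ w ∈ totF y ∧ v = (p - 1) * (e * w)) →
      (Z.card : ℝ) ≤ ε / 4 * (y / log y) * AM u 0 0 := by
    intro Z hZ h
    refine (cnt y _ hy0 hℓ ((((Icc 1 ⌊y⌋₊).filter (Bad u)) ×ˢ totF y).image fun z => z.1 * z.2)
      ?_ Z ?_).trans (key _ (mass_nonneg _) ?_)
    · intro w hw
      obtain ⟨z, hz, rfl⟩ := mem_image.1 hw
      obtain ⟨z1, z2⟩ := mem_product.1 hz
      exact Nat.mul_pos (mem_Icc.1 (mem_filter.1 z1).1).1 (upper_pos z2)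
    · intro v hv
      obtain ⟨p, e, w, p1, p2, p3, p4, p5⟩ := h v hv
      refine ⟨(mem_totF.1 (hZ hv)).1, p, e * w, p1, p2, mem_image.2 ⟨(e, w), mem_product.2
        ⟨mem_filter.2 ⟨hdv v (hZ hv) e ?_, p3⟩, p4⟩, rfl⟩, Or.inl p5⟩
      exact p5 ▸ (dvd_mul_right e w).mul_left _
    · refine (mass_mul_le _ ((Icc 1 ⌊y⌋₊).filter (Bad u)) (totF y) fun z hz => ?_).trans ?_
      · obtain ⟨z', hz', rfl⟩ := mem_image.1 hz
        exact ⟨_, (mem_product.1 hz').1, _, (mem_product.1 hz').2, rfl⟩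
      refine (mul_le_mul (hbad _ fun e he => (mem_filter.1 he).2) hmu' (mass_nonneg _)
        (exp_pos _).le).trans ?_
      rw [← mul_assoc, ← exp_add]
      refine mul_le_mul_of_nonneg_right (exp_le_exp.2 ?_) (by linarith)
      nlinarith
  have c6 : ∀ Z ⊆ totF y, (∀ v ∈ Z, ∃ r e : ℕ, r.Prime ∧ log y / (2 * BB u) ≤ log (r : ℝ) ∧
      Face u e ∧ v = r * e) → (Z.card : ℝ) ≤ ε / 4 * (y / log y) * AM u 0 0 := by
    intro Z hZ h
    refine (cnt y _ hy0 hℓ ((Icc 1 ⌊y⌋₊).filter (Face u))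
      (fun w hw => (mem_filter.1 hw).2.1) Z ?_).trans (key _ (mass_nonneg _) ?_)
    · intro v hv
      obtain ⟨p, e, p1, p2, p3, p5⟩ := h v hv
      exact ⟨(mem_totF.1 (hZ hv)).1, p, e, p1, p2,
        mem_filter.2 ⟨hdv v (hZ hv) e (p5 ▸ dvd_mul_left e p), p3⟩, Or.inr p5⟩
    · refine (hface _ fun e he => (mem_filter.1 he).2).trans
        (le_trans (exp_le_exp.2 ?_) (le_mul_of_one_le_right (exp_pos _).le hA))
      simp only [MM]
      push_cast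
      have b1 : (2 : ℝ) ^ 8 ≤ (u : ℝ) ^ 8 := by gcongr
      have b2 : (2 : ℝ) ^ 8 * u ≤ (u : ℝ) ^ 8 * u := by gcongr
      nlinarith
  have hM : s - 2 * (MM u : ℝ) ≤ s + 2 * MM u := by
    have : (0 : ℝ) ≤ MM u := Nat.cast_nonneg _
    linarith
  have c7 : ∀ Z ⊆ totF y, (∀ v ∈ Z, ∃ p w : ℕ, p.Prime ∧ w ∈ AA u 0 (s - 2 * MM u) ∧
      v = (p - 1) * w) → (Z.card : ℝ) ≤ ∑ w ∈ AA u 0 (s - 2 * MM u), piR (y / w + 1) :=
    fun Z hZ h => cnt_pi y _ (fun w hw => AA_pos hw) Z fun v hv => ⟨(mem_totF.1 (hZ hv)).1, h v hv⟩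
  have c8 : ∀ Z ⊆ totF y, (∀ v ∈ Z, ∃ p w : ℕ, p.Prime ∧
      log y / (4 * ((LL u : ℝ) + 1)) ≤ log (p : ℝ) ∧
      w ∈ AA u 0 (s + 2 * MM u) \ AA u 0 (s - 2 * MM u) ∧ v = (p - 1) * w) → (Z.card : ℝ) ≤
      100 * LL u * (y / log y) * (AM u 0 (s + 2 * MM u) - AM u 0 (s - 2 * MM u)) := by
    intro Z hZ h
    refine (cnt y (log y / (4 * ((LL u : ℝ) + 1))) hy0 (by positivity)
      (AA u 0 (s + 2 * MM u) \ AA u 0 (s - 2 * MM u)) (fun w hw => AA_pos (mem_sdiff.1 hw).1) Z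
      fun v hv => ?_).trans ?_
    · obtain ⟨p, w, p1, p2, p3, p4⟩ := h v hv
      exact ⟨(mem_totF.1 (hZ hv)).1, p, w, p1, p2, p3, Or.inl p4⟩
    rw [AM, AM, ← mass_sdiff (AA_mono u 0 hM)]
    refine mul_le_mul_of_nonneg_right ?_ (mass_nonneg _)
    have hL : (200 : ℝ) ≤ LL u := by exact_mod_cast le_LL u
    have e2 : 16 * y / (log y / (4 * ((LL u : ℝ) + 1))) = 64 * (LL u + 1) * (y / log y) := by
      field_simp
      ring
    rw [e2]
    exact mul_le_mul_of_nonneg_right (by linarith) hX.le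
  have h := upper_or c123 (upper_or c4 (upper_or c5 (upper_or c6 (upper_or c7 c8)))) (totF y)
    Subset.rfl fun v hv => by
      rcases hcl s y hR v hv with h | h | h | h | h | h | ⟨p, w, p1, p2, p3, p4⟩
      · exact Or.inl (Or.inl h)
      · exact Or.inl (Or.inr (Or.inl h))
      · exact Or.inl (Or.inr (Or.inr h))
      · exact Or.inr (Or.inl h)
      · exact Or.inr (Or.inr (Or.inl h))
      · exact Or.inr (Or.inr (Or.inr (Or.inl h)))
      · refine Or.inr (Or.inr (Or.inr (Or.inr ?_)))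
        by_cases hw : w ∈ AA u 0 (s - 2 * MM u)
        · exact Or.inl ⟨p, w, p1, hw, p4⟩
        · exact Or.inr ⟨p, w, p1, p2, mem_sdiff.2 ⟨p3, hw⟩, p4⟩
  rw [V_eq]
  linarith

end Vale.Agent.P031
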