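import Vale.Agent.P031.Dich

namespace Vale.Agent.P031

open Finset Real Filter

theorem upA_log {u w w₀ p : ℕ} {S : Finset ℕ} (hu : 1 ≤ u) (h : Rep u 0 w w₀ S) (hp : 2 ≤ p)
    (hS : ∀ q ∈ S, q ≤ p) : log (((p - 1) * w : ℕ) : ℝ) ≤
      ((LL u : ℝ) + 1) * log p + 10 * (hh u : ℝ) * exp (hh u) := by
  have h0 := h.1.pos
  have h1 := h.1.log_le hu
  have h2 : ∏ q ∈ S, (q - 1) ≤ p ^ LL u :=
    (prod_le_pow_card _ _ p fun q hq => (Nat.sub_le _ _).trans (hS q hq)).trans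
      (Nat.pow_le_pow_right (by omega) (by simpa using h.2.2.1))
  have h3 : (p - 1) * w ≤ p ^ (LL u + 1) * w₀ := by
    rw [← h.2.2.2, val, pow_succ', mul_comm w₀, ← mul_assoc]
    exact Nat.mul_le_mul_right _ (Nat.mul_le_mul (Nat.sub_le _ _) h2)
  have h4 : 0 < (p - 1) * w := Nat.mul_pos (by omega) h.pos
  have h5 := log_le_log (by exact_mod_cast h4) (Nat.cast_le (α := ℝ).2 h3)
  rw [Nat.cast_mul (p ^ _), log_mul (by positivity) (by positivity), Nat.cast_pow, log_pow] at h5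
  push_cast at h5 ⊢
  linarith

theorem classify : ∀ᶠ u : ℕ in atTop, ∀ s y : ℝ, Rng u s y → ∀ v ∈ totF y,
    (v : ℝ) ≤ √y ∨ (LabLE u (KK u) v ∧ BB u < Om v) ∨
    (∃ p : ℕ, p.Prime ∧ log y / (2 * BB u) ≤ log (p : ℝ) ∧ p * (p - 1) ∣ v) ∨
    (∃ p w : ℕ, p.Prime ∧ log y / (2 * BB u) ≤ log (p : ℝ) ∧ ¬ Normal u p ∧ w ∈ totF y ∧
      v = (p - 1) * w) ∨
    (∃ p e w : ℕ, p.Prime ∧ log y / (2 * BB u) ≤ log (p : ℝ) ∧ Bad u e ∧ w ∈ totF y ∧
      v = (p - 1) * (e * w)) ∨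
    (∃ r e : ℕ, r.Prime ∧ log y / (2 * BB u) ≤ log (r : ℝ) ∧ Face u e ∧ v = r * e) ∨
    (∃ p w : ℕ, p.Prime ∧ log y / (4 * ((LL u : ℝ) + 1)) ≤ log (p : ℝ) ∧
      w ∈ AA u 0 (s + 2 * MM u) ∧ v = (p - 1) * w) := by
  filter_upwards [dich, mem_AA, ev_pow_exp 8 40, eventually_ge_atTop 2] with u hd hA he hu s y hR
    v hv
  obtain ⟨r1, r2, hy, r3, r4⟩ := hR
  obtain ⟨hvy, n, hn, rfl⟩ := mem_totF.1 hv
  have hu1 : 1 ≤ u := by omega
  have hu' : (2 : ℝ) ≤ u := by exact_mod_cast hu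
  have hv0 : 0 < n.totient := Nat.totient_pos.2 hn
  have h10 : (1 : ℝ) ≤ (u : ℝ) ^ 10 := one_le_pow₀ (by linarith)
  have hK : ∀ p : ℕ, (p : ℝ) ≤ y + 1 → lab u p ≤ KK u := fun p hp =>
    lab_le_KK hu1 hy (by linarith) hp
  have hT : ∀ k, 1 ≤ k → k.totient ∣ n.totient → k.totient ∈ totF y := fun k hk h =>
    mem_totF.2 ⟨(Nat.cast_le.2 (Nat.le_of_dvd hv0 h)).trans hvy, k, hk, rfl⟩
  by_cases c1 : (n.totient : ℝ) ≤ √y
  · exact Or.inl c1
  have hs1 : 1 < √y := by rw [lt_sqrt zero_le_one]; linarith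
  have hlv : log y / 2 ≤ log n.totient := by
    rw [← log_sqrt (by linarith)]
    exact log_le_log (by linarith) (not_le.1 c1).le
  by_cases c2 : BB u < Om n.totient
  · exact Or.inr (Or.inl ⟨fun q hq => hK q (by
      have : (q : ℝ) ≤ n.totient := by exact_mod_cast Nat.le_of_mem_primeFactors hq
      linarith), c2⟩)
  have hv2 : 2 ≤ n.totient := by
    have : (1 : ℝ) < n.totient := hs1.trans (not_le.1 c1)
    exact_mod_cast this
  obtain ⟨r, hr, hrv, -, hrl⟩ := exists_top_prime hv2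
  have hB : (0 : ℝ) < BB u := by
    unfold BB hh
    positivity
  have hlr : log y / (2 * BB u) ≤ log r := by
    have h1 : (Om n.totient : ℝ) ≤ BB u := by exact_mod_cast not_lt.1 c2
    have h2 := mul_le_mul_of_nonneg_right h1 (log_natCast_nonneg r)
    rw [div_le_iff₀ (by positivity)]
    linarith
  obtain ⟨p', hp', hrp⟩ := exists_le_of_dvd_totient (by omega) hr hrv
  obtain ⟨p, hp, hmax⟩ := n.primeFactors.exists_max_image id ⟨p', hp'⟩
  have pp := Nat.prime_of_mem_primeFactors hp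
  have hlp : log y / (2 * BB u) ≤ log p := hlr.trans (log_le_log (by exact_mod_cast hr.pos)
    (by exact_mod_cast hrp.trans (hmax p' hp')))
  obtain ⟨m, rfl⟩ := Nat.dvd_of_mem_primeFactors hp
  have hm : 1 ≤ m := Nat.pos_of_mul_pos_left hn
  by_cases c3 : p ∣ m
  · refine Or.inr (Or.inr (Or.inl ⟨p, pp, hlp, ?_⟩))
    have h1 : p ^ 2 ∣ p * m := by rw [sq]; exact Nat.mul_dvd_mul_left p c3
    simpa [Nat.totient_prime_pow pp] using Nat.totient_dvd_of_dvd h1
  have e : (p * m).totient = (p - 1) * m.totient := by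
    rw [Nat.totient_mul ((Nat.Prime.coprime_iff_not_dvd pp).2 c3), Nat.totient_prime pp]
  have hpy : (p : ℝ) ≤ y + 1 := by
    have h1 : p - 1 ≤ (p * m).totient := Nat.le_of_dvd hv0 ⟨_, e⟩
    have h2 : (p : ℝ) ≤ (p * m).totient + 1 := by exact_mod_cast (by omega : p ≤ _ + 1)
    linarith
  by_cases c4 : ¬ Normal u p
  · exact Or.inr (Or.inr (Or.inr (Or.inl ⟨p, _, pp, hlp, c4, hT m hm (Dvd.intro_left _ e.symm),
      e⟩)))
  rw [not_not] at c4
  have hL : LabLE u (lab u p) (p * m) := fun q hq => lab_mono (hmax q hq)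
  have hLm : LabLE u (lab u p) m := hL.of_dvd (Dvd.intro_left _ rfl) (by omega)
  rcases hd m hm (hLm.mono (hK p hpy)) with ⟨w₀, S, hrep, hS⟩ | ⟨b, k, hb, hk, e'⟩
  swap
  · refine Or.inr (Or.inr (Or.inr (Or.inr (Or.inl ⟨p, b, _, pp, hlp, hb, hT k hk ?_,
      by rw [e, e']⟩))))
    rw [e, e', ← mul_assoc]
    exact Dvd.intro_left _ rfl
  have hM : (2 : ℝ) ≤ MM u := by
    simp only [MM]
    push_cast
    exact hu'.trans (le_self_pow₀ (by linarith) (by norm_num))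
  refine Or.inr (Or.inr (Or.inr (Or.inr (Or.inr ?_))))
  by_cases c5 : TT (gam u S) ≤ s + 2 * MM u
  · refine Or.inr ⟨p, _, pp, ?_, (hA 0 _ _).2 ⟨w₀, S, hrep, c5⟩, e⟩
    have h1 := upA_log hu1 hrep pp.two_le fun q hq => hmax q
      (Nat.primeFactors_mono (Dvd.intro_left _ rfl) (by omega) (hS hq))
    have h2 : exp s ≤ log y := by
      rwa [← le_log_iff_exp_le (log_pos (by linarith))]
    have h3 : (u : ℝ) + u ^ 8 ≤ s := by
      have a1 : (u : ℝ) ≤ u ^ 8 := le_self_pow₀ (by linarith) (by norm_num)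
      have a2 : 4 * (u : ℝ) ^ 8 ≤ u ^ 2 * u ^ 8 :=
        mul_le_mul_of_nonneg_right (by nlinarith) (by positivity)
      rw [show (u : ℝ) ^ 2 * u ^ 8 = u ^ 10 by ring] at a2
      linarith
    have h4 := exp_le_exp.2 h3
    have h5 := mul_le_mul_of_nonneg_right he (exp_pos ((u : ℝ) ^ 8)).le
    rw [← e] at h1
    rw [exp_add] at h4
    simp only [hh] at h1
    push_cast at h1
    rw [div_le_iff₀ (by positivity)]
    linarith
  · have hlab : ∀ q ∈ S, lab u q ≤ lab u p := fun q hq => hLm q (hS hq)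
    have h1 : (lab u p : ℝ) * hh u ≤ s + 2 := by
      have a1 : (lab u p : ℝ) ≤ tauY u y := by exact_mod_cast lab_le_tauY hy hpy
      have a2 := mul_le_mul_of_nonneg_right a1 (Nat.cast_nonneg (hh u))
      linarith [tauY_mul_le hu1 hy]
    have h2 := gam_zero_le hlab
    have h3 : s + 2 * MM u < gam u S 1 := by
      rcases lt_max_iff.1 (not_le.1 c5) with h | h
      · linarith
      · exact h
    obtain ⟨b, hb⟩ := hrv
    have hb0 : b ≠ 0 := fun h => hv0.ne' (by rw [hb, h, mul_zero])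
    refine Or.inl ⟨r, b, hr, hlr, ⟨Nat.pos_of_ne_zero hb0, lab u p, hK p hpy, fun j => kap u j S,
      fun j => (kap_le_card _ _ _).trans (by simpa using hrep.2.2.1),
      hL.totient.of_dvd (Dvd.intro_left _ hb.symm) hv0.ne', fun j _ hj => ?_, ?_⟩, hb⟩
    · have a1 := OmC_mul u j hr.ne_zero hb0
      have a2 := OmC_mul u j (a := p - 1) (b := m.totient) (by have := pp.two_le; omega)
        (Nat.totient_pos.2 hm).ne'
      have a3 := OmC_prime_le u j hr
      have a4 := c4.2 j hj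
      have a5 := hrep.le_OmC j
      rw [← hb] at a1
      rw [← e] at a2
      show (1 + kap u (j + 1) S) * _ ≤ _
      rw [add_mul, one_mul]
      omega
    · rw [← gam_one_eq hlab (hK p hpy)]
      linarith

end Vale.Agent.P031
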