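import Vale.Agent.P031.Gam
import Vale.Agent.P031.Om

namespace Vale.Agent.P031

open Finset Real Filter

theorem base_one (u : ℕ) : Base u 1 :=
  ⟨1, le_rfl, labLE_one u 0, by simp, by simp [Om_one]⟩

theorem Base.pos {u w₀ : ℕ} (h : Base u w₀) : 1 ≤ w₀ := by
  obtain ⟨m, hm, -, rfl, -⟩ := h
  exact Nat.totient_pos.2 hm

theorem Base.labLE {u w₀ : ℕ} (h : Base u w₀) : LabLE u 0 w₀ := by
  obtain ⟨m, -, hm, rfl, -⟩ := h
  exact hm.totient

theorem Base.Om_le {u w₀ : ℕ} (h : Base u w₀) : Om w₀ ≤ 10 * hh u := by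
  obtain ⟨m, -, -, -, h⟩ := h
  exact h

theorem Base.log_le {u w₀ : ℕ} (hu : 1 ≤ u) (h : Base u w₀) :
    log (w₀ : ℝ) ≤ 10 * (hh u : ℝ) * exp (hh u) := by
  have h1 := log_le_Om_mul (n := w₀) (ℓ := exp (hh u)) fun q hq => by
    have := log_lt_of_lab_le hu (h.labLE q hq)
    simpa using this.le
  refine h1.trans (mul_le_mul_of_nonneg_right ?_ (Real.exp_pos _).le)
  exact_mod_cast h.Om_le

theorem goodS_empty (u : ℕ) : GoodS u ∅ := ⟨by simp, by simp⟩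

theorem GoodS.lower {u : ℕ} {S S' : Finset ℕ} (h : GoodS u S) (hsub : S' ⊆ S)
    (hlow : ∀ p ∈ S', ∀ q ∈ S, q < p → q ∈ S') : GoodS u S' := by
  have _ := hlow
  refine ⟨fun p hp => h.1 p (hsub hp), fun p hp => le_trans ?_ (h.2 p (hsub hp))⟩
  exact gam_mono u (filter_subset_filter _ hsub) 1

theorem val_empty (w₀ : ℕ) : val w₀ ∅ = w₀ := by simp [val]

theorem val_insert (w₀ : ℕ) {q : ℕ} {S : Finset ℕ} (hq : q ∉ S) :
    val w₀ (insert q S) = (q - 1) * val w₀ S := by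
  unfold val
  rw [prod_insert hq]
  ring

theorem GoodS.pred_ne {u : ℕ} {S : Finset ℕ} (h : GoodS u S) : ∀ p ∈ S, p - 1 ≠ 0 := fun p hp => by
  have := (h.1 p hp).1.two_le
  omega

theorem Rep.pos {u j w w₀ : ℕ} {S : Finset ℕ} (h : Rep u j w w₀ S) : 1 ≤ w := by
  obtain ⟨hb, hg, -, rfl⟩ := h
  have := hb.pos
  exact Nat.one_le_iff_ne_zero.2 (mul_ne_zero (by omega) (prod_ne_zero_iff.2 hg.pred_ne))

theorem Rep.mono {u j j' w w₀ : ℕ} {S : Finset ℕ} (h : Rep u j' w w₀ S) (hj : j ≤ j') :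
    Rep u j w w₀ S := ⟨h.1, h.2.1, by have := h.2.2.1; omega, h.2.2.2⟩

theorem GoodS.log_lt {u p : ℕ} {S : Finset ℕ} (hu : 1 ≤ u) (h : GoodS u S) (hp : p ∈ S) :
    log (p : ℝ) < exp (gam u S 0 + hh u) := by
  refine (log_lt_of_lab_le hu (le_refl (lab u p))).trans_le (Real.exp_le_exp.2 ?_)
  have := lab_le_gam hp (h.1 p hp).2.2.1
  linarith

theorem Rep.log_le {u j w w₀ : ℕ} {S : Finset ℕ} (hu : 1 ≤ u) (h : Rep u j w w₀ S) :
    log (w : ℝ) ≤ (10 * (hh u : ℝ) + LL u) * exp (gam u S 0 + hh u) := by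
  obtain ⟨hb, hg, hc, rfl⟩ := h
  have h0 := hb.pos
  unfold val
  rw [Nat.cast_mul, Nat.cast_prod, Real.log_mul (by positivity)
    (prod_ne_zero_iff.2 fun p hp => by exact_mod_cast hg.pred_ne p hp),
    Real.log_prod fun p hp => by exact_mod_cast hg.pred_ne p hp]
  have h1 := hb.log_le hu
  have h2 : exp (hh u : ℝ) ≤ exp (gam u S 0 + hh u) :=
    Real.exp_le_exp.2 (by linarith [gam_nonneg u S 0])
  have h3 := sum_le_card_nsmul S (fun p => log ((p - 1 : ℕ) : ℝ)) (exp (gam u S 0 + hh u))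
    (fun p hp => by
      refine le_trans (Real.log_le_log ?_ ?_) (hg.log_lt hu hp).le
      · exact_mod_cast Nat.pos_of_ne_zero (hg.pred_ne p hp)
      · exact_mod_cast Nat.sub_le p 1)
  rw [nsmul_eq_mul] at h3
  have h4 : (S.card : ℝ) ≤ LL u := by exact_mod_cast (by omega : S.card ≤ LL u)
  have h5 := Real.exp_pos (gam u S 0 + hh u)
  have h6 : (0 : ℝ) ≤ hh u := by positivity
  nlinarith

theorem Rep.log_prime_lt {u j w w₀ q : ℕ} {S : Finset ℕ} (hu : 1 ≤ u) (h : Rep u j w w₀ S)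
    (hq : q.Prime) (hd : q ∣ w) : log (q : ℝ) < exp (gam u S 0 + hh u) := by
  obtain ⟨hb, hg, -, rfl⟩ := h
  unfold val at hd
  rcases (Nat.Prime.dvd_mul hq).1 hd with h1 | h1
  · have h0 := hb.pos
    have := log_lt_of_lab_le hu (hb.labLE q (Nat.mem_primeFactors.2 ⟨hq, h1, by omega⟩))
    refine this.trans_le (Real.exp_le_exp.2 ?_)
    simp only [Nat.cast_zero, zero_add, one_mul]
    linarith [gam_nonneg u S 0]
  · obtain ⟨p, hp, h2⟩ := (Prime.dvd_finsetProd_iff hq.prime _).1 h1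
    refine lt_of_le_of_lt (Real.log_le_log (by exact_mod_cast hq.pos) ?_) (hg.log_lt hu hp)
    have := Nat.le_of_dvd (Nat.pos_of_ne_zero (hg.pred_ne p hp)) h2
    exact_mod_cast (by omega : q ≤ p)

theorem Rep.labLE {u j w w₀ τ : ℕ} {S : Finset ℕ} (h : Rep u j w w₀ S)
    (hτ : ∀ p ∈ S, lab u p ≤ τ) : LabLE u τ w := by
  obtain ⟨hb, -, -, rfl⟩ := h
  exact (hb.labLE.mono (Nat.zero_le _)).mul
    (LabLE.prod _ _ fun p hp => (labLE_of_le (Nat.sub_le p 1)).mono (hτ p hp))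

theorem totient_prod_primes (S : Finset ℕ) (hS : ∀ p ∈ S, p.Prime) :
    Nat.totient (∏ p ∈ S, p) = ∏ p ∈ S, (p - 1) := by
  induction S using Finset.induction_on with
  | empty => simp
  | insert a s ha ih =>
    have hap := hS a (mem_insert_self _ _)
    rw [prod_insert ha, prod_insert ha, Nat.totient_mul, Nat.totient_prime hap,
      ih fun p hp => hS p (mem_insert_of_mem hp)]
    refine Nat.Coprime.prod_right fun p hp => ?_
    exact (Nat.coprime_primes hap (hS p (mem_insert_of_mem hp))).2 fun e => ha (e ▸ hp)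

theorem Rep.isTot {u j w w₀ : ℕ} {S : Finset ℕ} (h : Rep u j w w₀ S) : IsTot w := by
  obtain ⟨⟨m, hm, hl, rfl, -⟩, hg, -, rfl⟩ := h
  refine ⟨m * ∏ p ∈ S, p, Nat.one_le_iff_ne_zero.2 (mul_ne_zero (by omega)
    (prod_ne_zero_iff.2 fun p hp => (hg.1 p hp).1.ne_zero)), ?_⟩
  rw [Nat.totient_mul, totient_prod_primes S fun p hp => (hg.1 p hp).1]
  · rfl
  · refine Nat.Coprime.prod_right fun p hp => ?_
    obtain ⟨hp1, hp2, -⟩ := hg.1 p hp
    rw [Nat.coprime_comm, Nat.Prime.coprime_iff_not_dvd hp1]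
    intro hd
    have := hl p (Nat.mem_primeFactors.2 ⟨hp1, hd, by omega⟩)
    omega

theorem Rep.isTot_mul {u j w w₀ p : ℕ} {S : Finset ℕ} (h : Rep u j w w₀ S) (hp : p.Prime)
    (hw : w < p - 1) : IsTot ((p - 1) * w) := by
  obtain ⟨n, hn, rfl⟩ := h.isTot
  refine ⟨p * n, Nat.mul_pos hp.pos hn, ?_⟩
  rw [Nat.totient_mul, Nat.totient_prime hp]
  rw [Nat.Prime.coprime_iff_not_dvd hp]
  intro hd
  have h1 := Nat.totient_dvd_of_dvd hd
  rw [Nat.totient_prime hp] at h1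
  have := Nat.le_of_dvd (Nat.totient_pos.2 hn) h1
  omega

theorem Rep.OmC_eq {u j w w₀ : ℕ} {S : Finset ℕ} (h : Rep u j w w₀ S) (i : ℕ) :
    OmC u i w = OmC u i w₀ + ∑ p ∈ S, OmC u i (p - 1) := by
  obtain ⟨hb, hg, -, rfl⟩ := h
  have := hb.pos
  unfold val
  rw [OmC_mul u i (by omega) (prod_ne_zero_iff.2 hg.pred_ne), OmC_prod u i _ _ hg.pred_ne]

theorem Rep.le_OmC {u j w w₀ : ℕ} {S : Finset ℕ} (h : Rep u j w w₀ S) (i : ℕ) :
    kap u (i + 1) S * (hh u - DD u) ≤ OmC u i w := by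
  rw [h.OmC_eq i]
  have h1 := card_nsmul_le_sum (S.filter fun p => i + 1 ≤ lab u p) (fun p => OmC u i (p - 1))
    (hh u - DD u) (fun p hp => by
      obtain ⟨h1, h2⟩ := mem_filter.1 hp
      have := (h.2.1.1 p h1).2.2.2.2 i h2
      omega)
  have h2 := sum_le_sum_of_subset (f := fun p => OmC u i (p - 1))
    (filter_subset (fun p => i + 1 ≤ lab u p) S)
  rw [smul_eq_mul] at h1
  unfold kap
  omega

theorem Rep.OmC_le {u j w w₀ : ℕ} {S : Finset ℕ} (h : Rep u j w w₀ S) {i : ℕ} (hi : 1 ≤ i) :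
    OmC u i w ≤ kap u i S * (hh u + DD u) := by
  rw [h.OmC_eq i, OmC_eq_zero h.1.labLE hi, zero_add,
    ← sum_filter_add_sum_filter_not S (fun p => i ≤ lab u p)]
  have h1 := sum_le_card_nsmul (S.filter fun p => i ≤ lab u p) (fun p => OmC u i (p - 1))
    (hh u + DD u) (fun p hp => (h.2.1.1 p (mem_filter.1 hp).1).2.2.2.1 i)
  have h2 : ∑ p ∈ S.filter (fun p => ¬ i ≤ lab u p), OmC u i (p - 1) = 0 :=
    sum_eq_zero fun p hp => OmC_eq_zero (labLE_of_le (Nat.sub_le p 1)) (not_le.1 (mem_filter.1 hp).2)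
  rw [smul_eq_mul] at h1
  unfold kap
  omega

theorem Rep.Om_le {u j w w₀ : ℕ} {S : Finset ℕ} (hu : 1 ≤ u) (h : Rep u j w w₀ S) :
    Om w ≤ (LL u + 1) * BB u := by
  obtain ⟨hb, hg, hc, rfl⟩ := h
  have h0 := hb.pos
  unfold val
  rw [Om_mul (by omega) (prod_ne_zero_iff.2 hg.pred_ne), Om_prod _ _ hg.pred_ne]
  have h1 := sum_le_card_nsmul S (fun p => Om (p - 1)) (BB u) (fun p hp => by
    obtain ⟨-, -, h2, h3⟩ := hg.1 p hp
    refine (h3.Om_le hu h2).trans ?_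
    unfold BB
    gcongr
    norm_num)
  rw [smul_eq_mul] at h1
  have h2 : Om w₀ ≤ BB u := by
    refine hb.Om_le.trans ?_
    unfold BB
    nlinarith [Nat.zero_le (KK u * hh u)]
  have h3 : S.card * BB u ≤ LL u * BB u := Nat.mul_le_mul_right _ (by omega)
  nlinarith

theorem mem_AA : ∀ᶠ u : ℕ in atTop, ∀ (j : ℕ) (a : ℝ) (w : ℕ),
    w ∈ AA u j a ↔ ∃ w₀ S, Rep u j w w₀ S ∧ Phi j (gam u S) ≤ a := by
  classical
  filter_upwards [ev_L_pow 1 1, ev_pow_exp 8 11, eventually_ge_atTop 2] with u hL he hu j a w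
  unfold AA
  simp only [mem_filter, mem_Icc]
  refine ⟨fun h => h.2, fun h => ⟨?_, h⟩⟩
  obtain ⟨w₀, S, hr, -⟩ := h
  refine ⟨hr.pos, Nat.le_floor ?_⟩
  have h1 := hr.log_le (by omega)
  have h2 := gam_zero_le (u := u) (τ := KK u) (S := S) fun p hp => (hr.2.1.1 p hp).2.2.1
  have hw : (0 : ℝ) < w := by exact_mod_cast hr.pos
  unfold XX
  rw [← Real.log_le_iff_le_exp hw]
  refine h1.trans ?_
  have hu' : (2 : ℝ) ≤ u := by exact_mod_cast hu
  have h8 : (u : ℝ) ≤ (u : ℝ) ^ 8 := le_self_pow₀ (by linarith) (by norm_num)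
  have hh8 : (hh u : ℝ) = (u : ℝ) ^ 8 := by simp [hh]
  have hK : (KK u : ℝ) = 3 * (u : ℝ) ^ 2 := by simp [KK]
  rw [hh8, hK] at h2
  rw [hh8]
  calc (10 * (u : ℝ) ^ 8 + LL u) * exp (gam u S 0 + (u : ℝ) ^ 8)
      ≤ exp u * exp (gam u S 0 + (u : ℝ) ^ 8) := by
        gcongr
        linarith
    _ = exp (u + (gam u S 0 + (u : ℝ) ^ 8)) := (Real.exp_add _ _).symm
    _ ≤ _ := by
        apply Real.exp_le_exp.2
        have : (u : ℝ) ^ 10 = (u : ℝ) ^ 2 * (u : ℝ) ^ 8 := by ring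
        have h4 : (4 : ℝ) ≤ (u : ℝ) ^ 2 := by nlinarith
        nlinarith

theorem AA_rep {u j w : ℕ} {a : ℝ} (h : w ∈ AA u j a) :
    ∃ w₀ S, Rep u j w w₀ S ∧ Phi j (gam u S) ≤ a := by
  classical
  unfold AA at h
  simp only [mem_filter] at h
  exact h.2

theorem AA_pos {u j w : ℕ} {a : ℝ} (h : w ∈ AA u j a) : 1 ≤ w := by
  obtain ⟨_, _, h, -⟩ := AA_rep h
  exact h.pos

theorem AA_mono (u j : ℕ) {a b : ℝ} (h : a ≤ b) : AA u j a ⊆ AA u j b := by
  classical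
  intro w hw
  unfold AA at hw ⊢
  simp only [mem_filter] at hw ⊢
  obtain ⟨h1, w₀, S, h2, h3⟩ := hw
  exact ⟨h1, w₀, S, h2, h3.trans h⟩

theorem AM_mono (u j : ℕ) : Monotone (AM u j) := fun _ _ h => mass_mono (AA_mono u j h)

theorem AM_nonneg (u j : ℕ) (a : ℝ) : 0 ≤ AM u j a := mass_nonneg _

theorem base_mem_AA : ∀ᶠ u : ℕ in atTop, ∀ (j : ℕ) (a : ℝ) (w₀ : ℕ), j ≤ 200 → 0 ≤ a →
    Base u w₀ → w₀ ∈ AA u j a := by
  filter_upwards [mem_AA] with u h j a w₀ hj ha hb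
  refine (h j a w₀).2 ⟨w₀, ∅, ⟨hb, goodS_empty u, ?_, val_empty _⟩, ?_⟩
  · have := le_LL u
    simp only [card_empty]
    omega
  · rwa [gam_empty, Phi_zero]

theorem one_le_AM : ∀ᶠ u : ℕ in atTop, ∀ (j : ℕ) (a : ℝ), j ≤ 200 → 0 ≤ a → 1 ≤ AM u j a := by
  filter_upwards [base_mem_AA] with u h j a hj ha
  have := mass_mono (singleton_subset_iff.2 (h j a 1 hj ha (base_one u)))
  simpa [mass, AM] using this

theorem AA_log_le {u j w : ℕ} {a : ℝ} (hu : 1 ≤ u) (h : w ∈ AA u j a) :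
    log (w : ℝ) ≤ (10 * (hh u : ℝ) + LL u) * exp (a + hh u) := by
  obtain ⟨w₀, S, h1, h2⟩ := AA_rep h
  refine (h1.log_le hu).trans (mul_le_mul_of_nonneg_left (Real.exp_le_exp.2 ?_) (by positivity))
  have h3 := TT_le_Phi j (gam u S)
  have h4 : gam u S 0 ≤ TT (gam u S) := le_max_left _ _
  linarith

theorem sum_shift_le (g g' : ℕ → ℝ) (B : ℝ) (K : ℕ) (h0 : ∀ j, 0 ≤ g' j) (hB : g 1 ≤ B)
    (hB0 : 0 ≤ B) (h : ∀ j, 1 ≤ j → g (j + 1) ≤ g' j) :
    ∑ j ∈ Icc 1 K, g j ≤ B + ∑ j ∈ Icc 1 K, g' j := by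
  have key : ∀ K, ∑ j ∈ Icc 1 (K + 1), g j ≤ B + ∑ j ∈ Icc 1 K, g' j := by
    intro K
    induction K with
    | zero => simpa using hB
    | succ K ih =>
      rw [sum_Icc_succ_top (by omega), sum_Icc_succ_top (f := g') (by omega)]
      linarith [h (K + 1) (by omega)]
  rcases K with _ | K
  · simpa using hB0
  · rw [sum_Icc_succ_top (f := g') (by omega)]
    linarith [key K, h0 (K + 1)]

/-- The cost vector is determined by the value, up to a small error. -/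
theorem vd : ∀ᶠ u : ℕ in atTop, ∀ (w w₀ w₀' : ℕ) (S S' : Finset ℕ),
    Rep u 0 w w₀ S → Rep u 0 w w₀' S' → ∀ m : ℕ,
    gam u S m ≤ gam u S' m + (hh u : ℝ) * ((m : ℝ) + LL u + 1) ^ 2 := by
  filter_upwards [ev_L_pow 1 1, eventually_ge_atTop 3] with u hL hu w w₀ w₀' S S' h h' m
  have hLu : LL u ≤ u := by
    simp only [pow_one, one_mul] at hL
    exact_mod_cast hL
  have hk : ∀ j, 1 ≤ j → kap u (j + 1) S ≤ kap u j S' := by
    intro j hj
    by_contra hcon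
    have h1 := h.le_OmC j
    have h2 := h'.OmC_le hj
    have h3 : kap u j S' ≤ u := by
      have := kap_le_card u j S'
      have := h'.2.2.1
      omega
    have h4 : (kap u j S' + 1) * (hh u - DD u) ≤ kap u (j + 1) S * (hh u - DD u) :=
      Nat.mul_le_mul_right _ (by omega)
    have h5 : hh u = u ^ 2 * DD u := by
      simp only [hh, DD]
      ring
    have h6 : 0 < DD u := by
      unfold DD
      positivity
    obtain ⟨t, ht⟩ : ∃ t, hh u = DD u + t := Nat.exists_eq_add_of_le (DD_le_hh (by omega))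
    rw [ht, Nat.add_sub_cancel_left] at h4 h1
    rw [ht] at h2 h5
    have h7 : (2 * u + 2) * DD u ≤ u ^ 2 * DD u := Nat.mul_le_mul_right _ (by nlinarith)
    have h8 : kap u j S' * DD u ≤ u * DD u := Nat.mul_le_mul_right _ h3
    nlinarith
  have h1 := sum_shift_le (fun j => G m (kap u j S)) (fun j => G m (kap u j S'))
    (((m : ℝ) + LL u + 1) ^ 2) (KK u) (fun j => G_nonneg _ _)
    (G_le m (by have := kap_le_card u 1 S; have := h.2.2.1; omega)) (by positivity)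
    fun j hj => G_mono m (hk j hj)
  unfold gam
  have h0 : (0 : ℝ) ≤ hh u := by positivity
  nlinarith

end Vale.Agent.P031
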